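/-
Row 324 (S0582), PDE core, module LD (`linear_solve`), architect helper217.   Blueprint 7.4 (origin/helper232:docs/R324_blueprint.md).   PORT of R325/Core/LD (packed in Claimed/Agent/R325/Pk37..Pk48.lean).      FILE LD/BasicT
   Λ = -t,  X = Xf y = 1 - y²,  Y = X/Λ,  τ = tauOf t = -log Λ;   u-form of a slice u = (σ, h₃, b):  uV u = (σ, h₃, X b);   κ = kapJ q;   𝕀 = II  (Core/W/Ibp.lean);   definitions of this module: Core/LD/Defs.lean.
Elementary facts on `tauOf`, `tOf` and real powers of `-t`.   (Copied from R325/Core/LD/BasicT.lean.)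
-/
import Claimed.Agent.R324.Core.Defs

set_option autoImplicit false

namespace Claimed.Agent.R324.Core

open Set Filter Topology MeasureTheory
open scoped ContDiff

noncomputable section

/-! ### time variables -/



theorem ld_tOf_neg (τ : ℝ) : tOf τ < 0 := by
  unfold tOf
  exact neg_lt_zero.2 (Real.exp_pos _)

theorem ld_tauOf_tOf (τ : ℝ) : tauOf (tOf τ) = τ := by
  unfold tauOf tOf
  rw [neg_neg, Real.log_exp, neg_neg]

theorem ld_tOf_tauOf {t : ℝ} (ht : t < 0) : tOf (tauOf t) = t := by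
  unfold tauOf tOf
  rw [neg_neg, Real.exp_log (by linarith), neg_neg]

theorem ld_tOf_le_iff (τ σ : ℝ) : tOf τ ≤ tOf σ ↔ τ ≤ σ := by
  unfold tOf
  rw [neg_le_neg_iff, Real.exp_le_exp, neg_le_neg_iff]

theorem ld_tOf_neg_log {Λ : ℝ} (hΛ : 0 < Λ) : tOf (-Real.log Λ) = -Λ := by
  unfold tOf
  rw [neg_neg, Real.exp_log hΛ]

/-- `t(τ+s) = e^{-s} t(τ)`. -/
theorem ld_tOf_add (τ s : ℝ) : tOf (τ + s) = Real.exp (-s) * tOf τ := by
  unfold tOf
  rw [neg_add, Real.exp_add]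
  ring

/-- `τ(μ^2 t) = τ(t) + s` for `μ = e^{-s/2}`. -/
theorem ld_tauOf_scal (s : ℝ) {t : ℝ} (ht : t < 0) :
    tauOf (Real.exp (-s / 2) ^ 2 * t) = tauOf t + s := by
  unfold tauOf
  have h1 : -(Real.exp (-s / 2) ^ 2 * t) = Real.exp (-s) * (-t) := by
    rw [← Real.exp_nat_mul]
    have : ((2 : ℕ) : ℝ) * (-s / 2) = -s := by push_cast; ring
    rw [this]
    ring
  rw [h1, Real.log_mul (Real.exp_pos _).ne' (by linarith), Real.log_exp]
  ring



theorem ld_tOf_contDiff : ContDiff ℝ ∞ tOf := by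
  unfold tOf
  fun_prop

theorem ld_tOf_hasDerivAt (τ : ℝ) : HasDerivAt tOf (-tOf τ) τ := by
  unfold tOf
  have := ((hasDerivAt_id τ).neg.exp).neg
  refine this.congr_deriv ?_
  simp

theorem ld_tauOf_contDiffOn : ContDiffOn ℝ ∞ tauOf (Iio 0) := by
  unfold tauOf
  apply ContDiffOn.neg
  apply ContDiffOn.log (by fun_prop)
  intro t ht
  have : t < 0 := ht
  linarith

theorem ld_tauOf_hasDerivAt {t : ℝ} (ht : t < 0) : HasDerivAt tauOf (1 / (-t)) t := by
  unfold tauOf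
  have := ((hasDerivAt_id t).neg.log (by show -t ≠ 0; linarith)).neg
  refine this.congr_deriv ?_
  have : t ≠ 0 := ht.ne
  show -(-1 / -t) = 1 / -t
  field_simp



theorem ld_rpow_contDiffOn (a : ℝ) : ContDiffOn ℝ ∞ (fun t : ℝ => (-t) ^ a) (Iio 0) := by
  apply ContDiffOn.rpow_const_of_ne (by fun_prop)
  intro t ht
  have : t < 0 := ht
  linarith

theorem ld_rpow_hasDerivAt (a : ℝ) {t : ℝ} (ht : t < 0) :
    HasDerivAt (fun s : ℝ => (-s) ^ a) (-a * (-t) ^ (a - 1)) t := by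
  have := (hasDerivAt_id t).neg.rpow_const (p := a) (Or.inl (by show -t ≠ 0; linarith))
  refine this.congr_deriv ?_
  show -1 * a * (-t) ^ (a - 1) = -a * (-t) ^ (a - 1)
  ring

/-- `e^{a τ} = Λ^{-a}`. -/
theorem ld_exp_tauOf (a : ℝ) {t : ℝ} (ht : t < 0) : Real.exp (a * tauOf t) = (-t) ^ (-a) := by
  unfold tauOf
  rw [Real.rpow_def_of_pos (by linarith)]
  congr 1
  ring

end

end Claimed.Agent.R324.Core
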