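/-
Row 324 (S0582), PDE core, module LD (`linear_solve`), architect helper217.   Blueprint 7.4 (origin/helper232:docs/R324_blueprint.md).   PORT of R325/Core/LD (packed in Claimed/Agent/R325/Pk37..Pk48.lean).      FILE LD/Defs
   Λ = -t,  X = Xf y = 1 - y²,  Y = X/Λ,  τ = tauOf t = -log Λ;   u-form of a slice u = (σ, h₃, b):  uV u = (σ, h₃, X b);   κ = kapJ q;   𝕀 = II  (Core/W/Ibp.lean);   definitions of this module: Core/LD/Defs.lean.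
DEFINITIONS.      (R325 analogue: R325/Core/LD/Defs.lean, in Pk37.)
Heavy weights:  B = `wH 3 52`, ν_B = 95/2 (`EEB`, `DDB`, Core/Defs.lean);   A = `wH 2 34`, ν_A = 61/2 (`EEA`, `DDA`).      η₁ = 15, η₀ = 14.
Finite rank data: vector valued bumps `b i : Fin 3 → ℝ → ℝ` (each component in `CcB δ K`, `0 < δ`), functions of `Y = X/Λ`;      `A i = Aof q g₀ (b i)`,  `A_j = g₀ b_j/(κ_j ω_∞)`,  `ω_∞ = omInf = Y³ √Y (1+Y)^{-52}/2`.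
  observation   `Obs c t u = ∫_{-1}^1 ψ₁(ξ) (2ξ/Λ) Σ_l c_l(X(ξ)/Λ) (uV u)_l(ξ) dξ`            (`= ∫ Σ_l c_l(Y) û_l(Y) dY`, `û(Y) = uV u (√(1-ΛY))`, once `K Λ ≤ 39/400`)
  actuator      `Actu A j (t,y) = ψ₁(y) A_j(X/Λ)/(Λ x_j)`,  `x_j = xJ j y = (1, 1, X)`           (so that `uV (Actu A) = ψ₁ A(Y)/Λ`)
  equation (L_σ):   `∂_t U = L̃ U - σ Σ_i Obs(b_i)[U] Actu(A_i) + S`      on `t < 0`, `y ∈ [-1,1]`     (`SolL`)
-/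
import Claimed.Agent.R324.Core.LD0.LE1
import Claimed.Agent.R325.Pk06

set_option autoImplicit false

namespace Claimed.Agent.R324.Core

open Set Filter Topology MeasureTheory
open scoped ContDiff

noncomputable section

/-- smooth functions on the line which vanish outside `(δ, K)`. -/
structure CcB (δ K : ℝ) (c : ℝ → ℝ) : Prop where
  smooth : ContDiff ℝ ∞ c
  supp : ∀ Y, Y ≤ δ ∨ K ≤ Y → c Y = 0

/-- `ω_∞(Y) = Y³ √Y (1+Y)^{-52}/2`. -/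
def omInf (Y : ℝ) : ℝ := Y ^ 3 * Real.sqrt Y / (2 * (1 + Y) ^ 52)

/-- `A_j = g₀ c_j/(κ_j ω_∞)`. -/
def Aof (q g₀ : ℝ) (c : Fin 3 → ℝ → ℝ) : Fin 3 → ℝ → ℝ := fun j Y => g₀ * c j Y / (kapJ q j * omInf Y)

/-- the family `A_i`. -/
def AofV {N : ℕ} (q g₀ : ℝ) (b : Fin N → Fin 3 → ℝ → ℝ) : Fin N → Fin 3 → ℝ → ℝ := fun i => Aof q g₀ (b i)

/-- the factor `(1, 1, X)` of the `u`-form:  `uV u l y = xJ l y * u l y`. -/
def xJ (l : Fin 3) (y : ℝ) : ℝ := if l = 2 then Xf y else 1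

/-- the kernel of `Obs` with respect to the slice `u = (σ, h₃, b)`. -/
def kOb (c : Fin 3 → ℝ → ℝ) (l : Fin 3) (p : ℝ × ℝ) : ℝ :=
  psi1 p.2 * (2 * p.2 / (-p.1)) * c l (Xf p.2 / (-p.1)) * xJ l p.2

/-- observation `O_c[u](t)` (fixed time). -/
def Obs (c : Fin 3 → ℝ → ℝ) (t : ℝ) (u : Fin 3 → ℝ → ℝ) : ℝ :=
  ∫ ξ in (-1 : ℝ)..1, ∑ l, kOb c l (t, ξ) * u l ξ

/-- actuator. -/
def Actu (A : Fin 3 → ℝ → ℝ) : Tri := fun j p =>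
  psi1 p.2 * A j (Xf p.2 / (-p.1)) / ((-p.1) * xJ j p.2)

/-- the forcing `Σ_i m_i(τ(t)) Ac_i(t,y)`. -/
def Fmc {N : ℕ} (A : Fin N → Fin 3 → ℝ → ℝ) (m : ℝ → EuclideanSpace ℝ (Fin N)) : Tri := fun j p =>
  ∑ i, m (tauOf p.1) i * Actu (A i) j p

/-- `U` vanishes on `[-1,1]` for `t ≤ t₁`. -/
def VanB (t₁ : ℝ) (U : Tri) : Prop := ∀ j, ∀ t ≤ t₁, ∀ y ∈ Icc (-1 : ℝ) 1, U j (t, y) = 0

/-- the equation `(L_σ)`. -/
def SolL (q : ℝ) (g : Bg) {N : ℕ} (b A : Fin N → Fin 3 → ℝ → ℝ) (σ : ℝ) (S U : Tri) : Prop :=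
  ∀ j, ∀ t < 0, ∀ y ∈ Icc (-1 : ℝ) 1,
    dT (U j) (t, y) = Lt q g U j (t, y)
      - σ * ∑ i, Obs (b i) t (slT U t) * Actu (A i) j (t, y) + S j (t, y)

/-- vector of observations as a function of `τ`. -/
def ObsV {N : ℕ} (c : Fin N → Fin 3 → ℝ → ℝ) (U : Tri) (τ : ℝ) : EuclideanSpace ℝ (Fin N) :=
  WithLp.toLp 2 fun i => Obs (c i) (tOf τ) (slT U (tOf τ))

/-- `∫_{t₁}^t Λ^{-2η-1} |m(τ(s))|² ds  ( = ∫_{τ₁}^τ e^{2ησ} |m(σ)|² dσ )`. -/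
def mEn {N : ℕ} (η : ℝ) (m : ℝ → EuclideanSpace ℝ (Fin N)) (t₁ t : ℝ) : ℝ :=
  ∫ s in t₁..t, (-s) ^ (-2 * η - 1) * ‖m (tauOf s)‖ ^ 2

/-- the quadratic form of the energy identity (`ld0_energy`) for the weight `wH a M`:
`d/dt E_V(u) = QH + 2 𝕀[X V ⟨u, ∂_t U - L U⟩]`. -/
def QH (q : ℝ) (g : Bg) (a M : ℕ) (t : ℝ) (u : Fin 3 → ℝ → ℝ) : ℝ :=
  II (fun y => (Xf y * dT (fun p => wH a M q p.1 p.2) (t, y) + 2 * zzF q g (wH a M q t) t y) * n2 q u y)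
    + 2 * II (fun y => wH a M q t y * quadM q g (t, y) (fun i => uV u i y))
    - 2 * II (fun y => wH a M q t y * g.Z (t, y) * n2t q u y)

/-- `𝕀[X V ⟨u, v⟩]`. -/
def pairE (q : ℝ) (V : ℝ → ℝ) (u v : Fin 3 → ℝ → ℝ) : ℝ :=
  II (fun y => Xf y * V y * ipK q (fun k => uV u k y) (fun k => uV v k y))

/-- The finite rank data and the heavy coercivity (LD1').   `coer`: the operator `L̃ - Σ_i Ac_i ⊗ O_{b_i}` is coercive for the heavy energy B, rate `119/4 < 30`. -/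
structure HeavyData (q : ℝ) (g : Bg) (N : ℕ) (b : Fin N → Fin 3 → ℝ → ℝ) (δ K g₀ Λ₀ cH : ℝ) : Prop where
  δpos : 0 < δ
  δK : δ < K
  gpos : 0 < g₀
  cpos : 0 < cH
  Λpos : 0 < Λ₀
  Λle : Λ₀ ≤ 100 / q
  small : K * Λ₀ ≤ 39 / 400
  cone1 : 2 * Real.sqrt Λ₀ < δ
  cone2 : K * Real.sqrt Λ₀ < 1
  bump : ∀ i l, CcB δ K (b i l)
  coer : ∀ t ∈ Ico (-Λ₀) 0, ∀ u : Fin 3 → ℝ → ℝ, (∀ j, SmI (u j)) →
    QH q (bgR q g) 3 52 t u - 95 / 2 / (-t) * En q (wH 3 52 q t) u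
        - 2 * ∑ i, Obs (b i) t u * pairE q (wH 3 52 q t) u (slT (Actu (AofV q g₀ b i)) t)
        + cH * Di q (wH 3 52 q t) u + 119 / 4 / (-t) * En q (wH 3 52 q t) u ≤ 0

/-- `(θ + 2) c`, `θ = 2 Y d/dY`  (minus the adjoint of `θ` in `L²(dY)`). -/
def thp (c : ℝ → ℝ) (Y : ℝ) : ℝ := 2 * Y * deriv c Y + 2 * c Y

/-- `∫ c · A dY`. -/
def pairY (K : ℝ) (c A : Fin 3 → ℝ → ℝ) : ℝ := ∫ Y in (0 : ℝ)..K, ∑ l, c l Y * A l Y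

/-- `L† c = z₀ (θ+2)² (c/Y) - (q-1) (θ+2) (c/Y) + 𝐦_cone^T c/Y + (θ+2) c/2 - Σ_i (∫ c·A_i) b_i`:
`d/dτ O_c[U] = O_{L† c}[U] + Σ_i (∫ c·A_i) m_i` along solutions of `(L_1)` with forcing `Σ m_i Ac_i`. -/
def Ldag (q : ℝ) {N : ℕ} (b A : Fin N → Fin 3 → ℝ → ℝ) (K : ℝ) (c : Fin 3 → ℝ → ℝ) : Fin 3 → ℝ → ℝ := fun l Y =>
  z0F q * thp (thp (fun s => c l s / s)) Y - (q - 1) * thp (fun s => c l s / s) Y
    + (∑ k, mCone q k l * c k Y) / Y + thp (c l) Y / 2 - ∑ i, pairY K c (A i) * b i l Y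

/-- `c^{(0)}_i = b_i`, `c^{(n+1)}_i = L† c^{(n)}_i`. -/
def cLev (q : ℝ) {N : ℕ} (b A : Fin N → Fin 3 → ℝ → ℝ) (K : ℝ) : ℕ → Fin N → Fin 3 → ℝ → ℝ
  | 0, i => b i
  | (n + 1), i => Ldag q b A K (cLev q b A K n i)

/-- the response `W[m]`: the solution of `(L_1)` with forcing `Σ m_i(τ(t)) Ac_i`, zero for `t ≤ -Λ₀`. -/
def Wop (q : ℝ) (g : Bg) {N : ℕ} (b A : Fin N → Fin 3 → ℝ → ℝ) (Λ₀ : ℝ) (m : ℝ → EuclideanSpace ℝ (Fin N)) : Tri :=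
  Classical.epsilon fun U => (∀ j, Sm (U j)) ∧ VanB (-Λ₀) U ∧ SolL q g b A 1 (Fmc A m) U

/-- the operators of `ControlHyp`. -/
def Kop (q : ℝ) (g : Bg) {N : ℕ} (b A : Fin N → Fin 3 → ℝ → ℝ) (K Λ₀ : ℝ) (n : ℕ)
    (m : ℝ → EuclideanSpace ℝ (Fin N)) : ℝ → EuclideanSpace ℝ (Fin N) :=
  ObsV (cLev q b A K n) (Wop q g b A Λ₀ m)

/-- the matrices of `ControlHyp`: `(∫ c^{(n)}_i · A_j dY)_{ij}`. -/
def KmatOp (q : ℝ) {N : ℕ} (b A : Fin N → Fin 3 → ℝ → ℝ) (K : ℝ) (n : ℕ) :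
    EuclideanSpace ℝ (Fin N) →L[ℝ] EuclideanSpace ℝ (Fin N) :=
  Matrix.toEuclideanCLM (n := Fin N) (𝕜 := ℝ) (Matrix.of fun i j => pairY K (cLev q b A K n i) (A j))

/-- hygiene: the equation lemmas of the definitions are generated in this file. -/
theorem core_ld_defs_hygiene : True := by
  have := @omInf.eq_1
  have := @Aof.eq_1
  have := @AofV.eq_1
  have := @xJ.eq_1
  have := @kOb.eq_1
  have := @Obs.eq_1
  have := @Actu.eq_1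
  have := @Fmc.eq_1
  have := @VanB.eq_1
  have := @SolL.eq_1
  have := @ObsV.eq_1
  have := @mEn.eq_1
  have := @QH.eq_1
  have := @pairE.eq_1
  have := @thp.eq_1
  have := @pairY.eq_1
  have := @Ldag.eq_1
  have := @cLev.eq_1
  have := @cLev.eq_2
  have := @Wop.eq_1
  have := @Kop.eq_1
  have := @KmatOp.eq_1
  trivial

end

end Claimed.Agent.R324.Core
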