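/-
Row 324 (S0582), PDE core, module LD (`linear_solve`), architect helper217.   Blueprint 7.4 (origin/helper232:docs/R324_blueprint.md).   PORT of R325/Core/LD (packed in Claimed/Agent/R325/Pk37..Pk48.lean).      FILE LD/BasicC
   Λ = -t,  X = Xf y = 1 - y²,  Y = X/Λ,  τ = tauOf t = -log Λ;   u-form of a slice u = (σ, h₃, b):  uV u = (σ, h₃, X b);   κ = kapJ q;   𝕀 = II  (Core/W/Ibp.lean);   definitions of this module: Core/LD/Defs.lean.
The class `CcB`, and the general integration lemma for differential inequalities.   (Mostly copied from R325/Core/LD/BasicC.lean.)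
-/
import Claimed.Agent.R324.Core.LD.Defs

set_option autoImplicit false

namespace Claimed.Agent.R324.Core

open Set Filter Topology MeasureTheory
open scoped ContDiff

noncomputable section

/-! ### the class `CcB` -/

variable {δ Y : ℝ} {c c' : ℝ → ℝ}

theorem CcB.add (h : CcB δ Y c) (h' : CcB δ Y c') : CcB δ Y (fun y => c y + c' y) :=
  ⟨h.smooth.add h'.smooth, fun y hy => by simp [h.supp y hy, h'.supp y hy]⟩

theorem CcB.const_mul (a : ℝ) (h : CcB δ Y c) : CcB δ Y (fun y => a * c y) :=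
  ⟨contDiff_const.mul h.smooth, fun y hy => by simp [h.supp y hy]⟩

theorem CcB.neg (h : CcB δ Y c) : CcB δ Y (fun y => - c y) :=
  ⟨h.smooth.neg, fun y hy => by simp [h.supp y hy]⟩

theorem CcB.sum {ι : Type} (s : Finset ι) {F : ι → ℝ → ℝ} (h : ∀ k ∈ s, CcB δ Y (F k)) :
    CcB δ Y (fun y => ∑ k ∈ s, F k y) :=
  ⟨ContDiff.sum (fun k hk => (h k hk).smooth),
    fun y hy => Finset.sum_eq_zero (fun k hk => (h k hk).supp y hy)⟩

/-- multiplication by a function which is smooth on `(0,∞)` only (`0 < δ`): near a point `y ≤ δ/2` the product is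
locally `0`, near a point `y > 0` it is a product of smooth functions. -/
theorem CcB.mul_of_contDiffOn (hδ : 0 < δ) (h : CcB δ Y c) {f : ℝ → ℝ}
    (hf : ContDiffOn ℝ ∞ f (Ioi 0)) : CcB δ Y (fun y => c y * f y) := by
  refine ⟨contDiff_iff_contDiffAt.2 (fun y => ?_), fun y hy => by simp [h.supp y hy]⟩
  rcases lt_or_ge y δ with hy | hy
  · have h0 : (fun y => c y * f y) =ᶠ[𝓝 y] fun _ => (0 : ℝ) := by
      filter_upwards [Iio_mem_nhds hy] with z hz
      simp [h.supp z (Or.inl (le_of_lt hz))]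
    exact contDiffAt_const.congr_of_eventuallyEq h0
  · have hy0 : 0 < y := lt_of_lt_of_le hδ hy
    exact h.smooth.contDiffAt.mul (hf.contDiffAt (Ioi_mem_nhds hy0))

/-- the derivative (it vanishes on the closed sets `y ≤ δ`, `Y ≤ y`: the function vanishes on the open sets `y < δ`, `Y < y`,
and the derivative is continuous). -/
theorem CcB.deriv (h : CcB δ Y c) : CcB δ Y (deriv c) := by
  refine ⟨(contDiff_infty_iff_deriv.1 h.smooth).2, fun y hy => ?_⟩
  have hd : HasDerivAt c (_root_.deriv c y) y :=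
    ((h.smooth.differentiable (by simp)) y).hasDerivAt
  rcases hy with hy | hy
  · have h0 : HasDerivWithinAt c 0 (Iic y) y :=
      (hasDerivWithinAt_const y (Iic y) (0 : ℝ)).congr
        (fun z hz => h.supp z (Or.inl (le_trans hz hy))) (h.supp y (Or.inl hy))
    exact (uniqueDiffOn_Iic y y self_mem_Iic).eq_deriv _ hd.hasDerivWithinAt h0
  · have h0 : HasDerivWithinAt c 0 (Ici y) y :=
      (hasDerivWithinAt_const y (Ici y) (0 : ℝ)).congr
        (fun z hz => h.supp z (Or.inr (le_trans hy hz))) (h.supp y (Or.inr hy))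
    exact (uniqueDiffOn_Ici y y self_mem_Ici).eq_deriv _ hd.hasDerivWithinAt h0

theorem CcB.iteratedDeriv (h : CcB δ Y c) (j : ℕ) : CcB δ Y (iteratedDeriv j c) := by
  induction j with
  | zero => simpa [iteratedDeriv_zero] using h
  | succ j ih =>
    rw [iteratedDeriv_succ]
    exact ih.deriv



theorem CcB.mul_left {f : ℝ → ℝ} (hf : ContDiff ℝ ∞ f) (h : CcB δ Y c) : CcB δ Y (fun y => f y * c y) :=
  ⟨hf.mul h.smooth, fun y hy => by simp [h.supp y hy]⟩

theorem CcB.mul (h : CcB δ Y c) (h' : CcB δ Y c') : CcB δ Y (fun y => c y * c' y) :=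
  ⟨h.smooth.mul h'.smooth, fun y hy => by simp [h.supp y hy]⟩

theorem CcB.sub (h : CcB δ Y c) (h' : CcB δ Y c') : CcB δ Y (fun y => c y - c' y) :=
  ⟨h.smooth.sub h'.smooth, fun y hy => by simp [h.supp y hy, h'.supp y hy]⟩

theorem CcB.div_const (a : ℝ) (h : CcB δ Y c) : CcB δ Y (fun y => c y / a) :=
  ⟨h.smooth.div_const a, fun y hy => by simp [h.supp y hy]⟩

theorem CcB.mono {δ' Y' : ℝ} (h : CcB δ Y c) (h1 : δ' ≤ δ) (h2 : Y ≤ Y') : CcB δ' Y' c :=
  ⟨h.smooth, fun y hy => h.supp y (hy.imp (fun a => a.trans h1) (fun a => h2.trans a))⟩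

/-- `c/Y`. -/
theorem CcB.div_id (hδ : 0 < δ) (h : CcB δ Y c) : CcB δ Y (fun s => c s / s) := by
  have hf : ContDiffOn ℝ ∞ (fun y : ℝ => 1 / y) (Ioi 0) :=
    ContDiffOn.div (by fun_prop) (by fun_prop) (fun y hy => ne_of_gt hy)
  have h1 := h.mul_of_contDiffOn hδ hf
  have h2 : (fun y => c y * (1 / y)) = fun s => c s / s := by
    funext y
    ring
  rwa [h2] at h1

theorem CcB.thp (h : CcB δ Y c) : CcB δ Y (thp c) := by
  have h1 : CcB δ Y (fun y => (2 * y) * _root_.deriv c y) := h.deriv.mul_left (by fun_prop)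
  exact h1.add (h.const_mul 2)

theorem omInf_pos {y : ℝ} (hy : 0 < y) : 0 < omInf y := by
  unfold omInf
  have := Real.sqrt_pos.2 hy
  positivity

theorem omInf_contDiffOn : ContDiffOn ℝ ∞ omInf (Ioi 0) := by
  unfold omInf
  refine ContDiffOn.div ((by fun_prop : ContDiffOn ℝ ∞ (fun y : ℝ => y ^ 3) (Ioi 0)).mul
    (ContDiffOn.sqrt (by fun_prop) (fun y hy => ne_of_gt hy))) (by fun_prop) (fun y hy => ?_)
  have : (0 : ℝ) < y := hy
  positivity

theorem ccB_Aof (hδ : 0 < δ) {q : ℝ} (hq : 0 < q) (g₀ : ℝ) {c : Fin 3 → ℝ → ℝ} {j : Fin 3} (h : CcB δ Y (c j)) :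
    CcB δ Y (Aof q g₀ c j) := by
  have hf : ContDiffOn ℝ ∞ (fun y : ℝ => g₀ / (kapJ q j * omInf y)) (Ioi 0) :=
    ContDiffOn.div (by fun_prop) (contDiffOn_const.mul omInf_contDiffOn)
      (fun y hy => (mul_pos (kapJ_pos hq j) (omInf_pos hy)).ne')
  have h1 := h.mul_of_contDiffOn hδ hf
  have h2 : (fun y => c j y * (g₀ / (kapJ q j * omInf y))) = Aof q g₀ c j := by
    funext y
    unfold Aof
    ring
  rwa [h2] at h1

theorem CcB.continuous (h : CcB δ Y c) : Continuous c := h.smooth.continuous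

/-- bounded. -/
theorem CcB.bdd (h : CcB δ Y c) : ∃ C : ℝ, 0 ≤ C ∧ ∀ y, |c y| ≤ C := by
  obtain ⟨C, hC⟩ := (isCompact_Icc (a := δ) (b := Y)).exists_bound_of_continuousOn
    h.continuous.continuousOn
  refine ⟨max C 0, le_max_right _ _, fun y => ?_⟩
  by_cases hy : y ∈ Icc δ Y
  · exact le_trans (hC y hy) (le_max_left _ _)
  · have : y ≤ δ ∨ Y ≤ y := by
      by_contra hcon
      apply hy
      simp only [not_or, not_le] at hcon
      exact ⟨le_of_lt hcon.1, le_of_lt hcon.2⟩
    rw [h.supp y this]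
    simp

/-! ### integration of a differential inequality -/

/-- If `f' + g ≤ h` on `[a,t]` (`g`, `h` continuous) then `f(t) + ∫_a^t g ≤ f(a) + ∫_a^t h`.
Proof: `Φ(s) = f(s) + ∫_a^s g - ∫_a^s h` is continuous on `[a,t]`, has derivative `e + g(s) - h(s) ≤ 0` in the interior
(`intervalIntegral.integral_hasDerivAt_right`), hence is antitone (`antitoneOn_of_deriv_nonpos`). -/
theorem ld_integrate {f g h : ℝ → ℝ} {a t : ℝ} (hat : a ≤ t)
    (hf : ∀ s ∈ Icc a t, ∃ e, HasDerivAt f e s ∧ e + g s ≤ h s)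
    (hg : ContinuousOn g (Icc a t)) (hh : ContinuousOn h (Icc a t)) :
    f t + ∫ s in a..t, g s ≤ f a + ∫ s in a..t, h s := by
  have hcont : ContinuousOn f (Icc a t) := fun s hs => by
    obtain ⟨e, he, _⟩ := hf s hs
    exact he.continuousAt.continuousWithinAt
  have hmain : f t - f a ≤ ∫ s in a..t, (h s - g s) := by
    refine intervalIntegral.sub_le_integral_of_hasDeriv_right_of_le hat hcont
      (g' := _root_.deriv f) (fun x hx => ?_) (hh.sub hg).integrableOn_Icc (fun x hx => ?_)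
    · obtain ⟨e, he, _⟩ := hf x (Ioo_subset_Icc_self hx)
      exact he.differentiableAt.hasDerivAt.hasDerivWithinAt
    · obtain ⟨e, he, hle⟩ := hf x (Ioo_subset_Icc_self hx)
      rw [he.deriv]
      linarith
  rw [intervalIntegral.integral_sub (hh.intervalIntegrable_of_Icc hat)
    (hg.intervalIntegrable_of_Icc hat)] at hmain
  linarith

end

end Claimed.Agent.R324.Core
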