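/-
Row 324 (S0582), PDE core, module LD (`linear_solve`), architect helper217.   Blueprint 7.4 (origin/helper232:docs/R324_blueprint.md).   PORT of R325/Core/LD (packed in Claimed/Agent/R325/Pk37..Pk48.lean).      FILE LD/LinA
   Λ = -t,  X = Xf y = 1 - y²,  Y = X/Λ,  τ = tauOf t = -log Λ;   u-form of a slice u = (σ, h₃, b):  uV u = (σ, h₃, X b);   κ = kapJ q;   𝕀 = II  (Core/W/Ibp.lean);   definitions of this module: Core/LD/Defs.lean.
Linearity of `Obs`; congruence on `[-1,1]`.    (R325 analogue: LD/LinA.lean in Pk38.)     All proofs are routine.     `CI f` = `ContinuousOn f (Icc (-1) 1)` (Core/W/Ibp.lean).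
* `uV_eq_xJ`: unfold `uV`, `xJ`, `Xf`; `split_ifs`; `subst`; ring.
* `ld_kOb_cont`:  `psi1_contDiff.continuous` (Core/PR/SmR.lean), `pr_continuous_Xf` (Core/PR/Germ.lean);  `xJ l` is continuous (`split_ifs`);  `fun_prop`/`Continuous.mul`, `.comp`, `.div_const`.
* `ld_Obs_congr`:  `intervalIntegral.integral_congr` (`uIcc_of_le`).
* `ld_Obs_add`, `_sub`, `_sum`, `_add_left`, `_sum_left`:  the integrand `Σ_l kOb c l (t,ξ) u_l(ξ)` is continuous on `[-1,1]` (`ld_Obs_intble`), `intervalIntegral.integral_add`, `Finset.sum_add_distrib`, `mul_add`;  `intervalIntegral.integral_finsetSum`.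
* `ld_Obs_smul`, `_smul_left`:  `intervalIntegral.integral_const_mul`, `Finset.mul_sum`.
-/
import Claimed.Agent.R324.Core.LD.BasicC
import Claimed.Agent.R324.Core.PR.Germ

set_option autoImplicit false

namespace Claimed.Agent.R324.Core

open Set Filter Topology MeasureTheory
open scoped ContDiff

noncomputable section

variable {c c' : Fin 3 → ℝ → ℝ} {t : ℝ} {u v : Fin 3 → ℝ → ℝ}

theorem uV_eq_xJ (u : Fin 3 → ℝ → ℝ) (l : Fin 3) (y : ℝ) : uV u l y = xJ l y * u l y := by
  unfold uV xJ Xf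
  split_ifs with h
  · subst h; ring
  · ring

theorem xJ_continuous (l : Fin 3) : Continuous (xJ l) := by
  unfold xJ
  split_ifs with h
  · exact pr_continuous_Xf
  · exact continuous_const

theorem ld_kOb_cont (hc : ∀ l, Continuous (c l)) (t : ℝ) (l : Fin 3) : Continuous (fun ξ => kOb c l (t, ξ)) := by
  unfold kOb
  have h1 : Continuous psi1 := psi1_contDiff.continuous
  have h2 : Continuous Xf := pr_continuous_Xf
  have h3 : Continuous (xJ l) := xJ_continuous l
  have h4 : Continuous (fun ξ : ℝ => c l (Xf ξ / (-t))) := (hc l).comp (h2.div_const _)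
  have h5 : Continuous (fun ξ : ℝ => 2 * ξ / (-t)) := (continuous_const.mul continuous_id).div_const _
  exact ((h1.mul h5).mul h4).mul h3

theorem ld_linA_contOn (hc : ∀ l, Continuous (c l)) (t : ℝ) (hu : ∀ l, CI (u l)) :
    ContinuousOn (fun ξ => ∑ l, kOb c l (t, ξ) * u l ξ) (Icc (-1 : ℝ) 1) := by
  refine continuousOn_finsetSum _ fun l _ => ?_
  exact (ld_kOb_cont hc t l).continuousOn.mul (hu l)

theorem ld_Obs_intble (hc : ∀ l, Continuous (c l)) (t : ℝ) (hu : ∀ l, CI (u l)) :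
    IntervalIntegrable (fun ξ => ∑ l, kOb c l (t, ξ) * u l ξ) volume (-1) 1 := by
  refine ContinuousOn.intervalIntegrable ?_
  rw [uIcc_of_le (by norm_num : (-1 : ℝ) ≤ 1)]
  exact ld_linA_contOn hc t hu

/-- `Obs` only sees `[-1,1]`. -/
theorem ld_Obs_congr (c : Fin 3 → ℝ → ℝ) (t : ℝ) (h : ∀ l, ∀ y ∈ Icc (-1 : ℝ) 1, u l y = v l y) :
    Obs c t u = Obs c t v := by
  unfold Obs
  refine intervalIntegral.integral_congr fun ξ hξ => ?_
  rw [uIcc_of_le (by norm_num : (-1 : ℝ) ≤ 1)] at hξ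
  refine Finset.sum_congr rfl fun l _ => ?_
  rw [h l ξ hξ]

theorem ld_Obs_zero (c : Fin 3 → ℝ → ℝ) (t : ℝ) (h : ∀ l, ∀ y ∈ Icc (-1 : ℝ) 1, u l y = 0) : Obs c t u = 0 := by
  rw [ld_Obs_congr (v := fun _ _ => 0) c t h]
  simp [Obs]

theorem ld_Obs_add (hc : ∀ l, Continuous (c l)) (t : ℝ) (hu : ∀ l, CI (u l)) (hv : ∀ l, CI (v l)) :
    Obs c t (fun l y => u l y + v l y) = Obs c t u + Obs c t v := by
  unfold Obs
  rw [← intervalIntegral.integral_add (ld_Obs_intble hc t hu) (ld_Obs_intble hc t hv)]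
  refine intervalIntegral.integral_congr fun ξ _ => ?_
  simp only [mul_add, Finset.sum_add_distrib]

theorem ld_Obs_smul (c : Fin 3 → ℝ → ℝ) (t a : ℝ) (u : Fin 3 → ℝ → ℝ) :
    Obs c t (fun l y => a * u l y) = a * Obs c t u := by
  unfold Obs
  rw [← intervalIntegral.integral_const_mul]
  refine intervalIntegral.integral_congr fun ξ _ => ?_
  simp only [Finset.mul_sum]
  refine Finset.sum_congr rfl fun l _ => ?_
  ring

theorem ld_Obs_sub (hc : ∀ l, Continuous (c l)) (t : ℝ) (hu : ∀ l, CI (u l)) (hv : ∀ l, CI (v l)) :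
    Obs c t (fun l y => u l y - v l y) = Obs c t u - Obs c t v := by
  unfold Obs
  rw [← intervalIntegral.integral_sub (ld_Obs_intble hc t hu) (ld_Obs_intble hc t hv)]
  refine intervalIntegral.integral_congr fun ξ _ => ?_
  simp only [mul_sub, Finset.sum_sub_distrib]

theorem ld_Obs_sum (hc : ∀ l, Continuous (c l)) (t : ℝ) {ι : Type} (s : Finset ι) {F : ι → Fin 3 → ℝ → ℝ}
    (hF : ∀ k ∈ s, ∀ l, CI (F k l)) :
    Obs c t (fun l y => ∑ k ∈ s, F k l y) = ∑ k ∈ s, Obs c t (F k) := by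
  unfold Obs
  rw [← intervalIntegral.integral_finsetSum fun k hk => ld_Obs_intble hc t (hF k hk)]
  refine intervalIntegral.integral_congr fun ξ _ => ?_
  simp only [Finset.mul_sum]
  exact Finset.sum_comm

/-- linearity in the observation function. -/
theorem ld_Obs_add_left (hc : ∀ l, Continuous (c l)) (hc' : ∀ l, Continuous (c' l)) (t : ℝ) (hu : ∀ l, CI (u l)) :
    Obs (fun l Y => c l Y + c' l Y) t u = Obs c t u + Obs c' t u := by
  unfold Obs
  rw [← intervalIntegral.integral_add (ld_Obs_intble hc t hu) (ld_Obs_intble hc' t hu)]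
  refine intervalIntegral.integral_congr fun ξ _ => ?_
  simp only [← Finset.sum_add_distrib]
  refine Finset.sum_congr rfl fun l _ => ?_
  unfold kOb
  ring

theorem ld_Obs_smul_left (c : Fin 3 → ℝ → ℝ) (t a : ℝ) (u : Fin 3 → ℝ → ℝ) :
    Obs (fun l Y => a * c l Y) t u = a * Obs c t u := by
  unfold Obs
  rw [← intervalIntegral.integral_const_mul]
  refine intervalIntegral.integral_congr fun ξ _ => ?_
  simp only [Finset.mul_sum]
  refine Finset.sum_congr rfl fun l _ => ?_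
  unfold kOb
  ring

theorem ld_Obs_sum_left {ι : Type} (s : Finset ι) {F : ι → Fin 3 → ℝ → ℝ} (hF : ∀ k ∈ s, ∀ l, Continuous (F k l))
    (t : ℝ) (hu : ∀ l, CI (u l)) :
    Obs (fun l Y => ∑ k ∈ s, F k l Y) t u = ∑ k ∈ s, Obs (F k) t u := by
  unfold Obs
  rw [← intervalIntegral.integral_finsetSum fun k hk => ld_Obs_intble (hF k hk) t hu]
  refine intervalIntegral.integral_congr fun ξ _ => ?_
  show _ = ∑ k ∈ s, ∑ l, kOb (F k) l (t, ξ) * u l ξ
  rw [Finset.sum_comm]
  refine Finset.sum_congr rfl fun l _ => ?_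
  unfold kOb
  simp only [Finset.mul_sum, Finset.sum_mul]

/-- `Obs` in terms of the `u`-form. -/
theorem ld_Obs_uV (c : Fin 3 → ℝ → ℝ) (t : ℝ) (u : Fin 3 → ℝ → ℝ) :
    Obs c t u = ∫ ξ in (-1 : ℝ)..1, psi1 ξ * (2 * ξ / (-t)) * ∑ l, c l (Xf ξ / (-t)) * uV u l ξ := by
  unfold Obs
  refine intervalIntegral.integral_congr fun ξ _ => ?_
  simp only [Finset.mul_sum]
  refine Finset.sum_congr rfl fun l _ => ?_
  rw [uV_eq_xJ]
  unfold kOb
  ring

end

end Claimed.Agent.R324.Core
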