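/-
Row 324 (S0582), PDE core, module LD (`linear_solve`), architect helper217.   Blueprint 7.4 (origin/helper232:docs/R324_blueprint.md).   PORT of R325/Core/LD (packed in Claimed/Agent/R325/Pk37..Pk48.lean).      FILE LD/LinB
   Λ = -t,  X = Xf y = 1 - y²,  Y = X/Λ,  τ = tauOf t = -log Λ;   u-form of a slice u = (σ, h₃, b):  uV u = (σ, h₃, X b);   κ = kapJ q;   𝕀 = II  (Core/W/Ibp.lean);   definitions of this module: Core/LD/Defs.lean.
`VanB`, linearity of `Lop`, of the equation `SolL`, of `Fmc`.    (R325 analogue: LD/LinB.lean in Pk38.)     All proofs are routine.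
Tools: Core/PR/Sm.lean (`dT_add`, `dT_sub`, `dT_const_mul`, `dY_add`, `dY_const_mul`, `Sm.dY`, `Sm.sl`), `ld0_lop_sub` (Core/LD0/Comm.lean), LD/LinA.lean;   `(hU j).sl ht : ContDiff ℝ ∞ (sl (U j) t)`, `slT U t j = sl (U j) t` by `rfl`;  `.continuous.continuousOn`.
* `ld_lop_add`, `ld_lop_smul`:  as `ld0_lop_sub`: unfold `Lop`; `dY_add` (twice), `Finset.sum_add_distrib`/`Fin.sum_univ_three`; ring.
* `ld_VanB_dT`:  for `t < t₁` the function `s ↦ U j (s,y)` vanishes near `t` (`Iio_mem_nhds`), `Filter.EventuallyEq.deriv_eq`, `deriv_const`.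
* `SolL.add` etc.:  pointwise from the two equations, `dT_add`, `ld_lop_add` (`Lt q g = Lop q (bgR q g)` by `rfl`), `ld_Obs_add`; `Finset.sum_add_distrib`, `add_mul`; ring/linarith.
* `ld_SolL_one_iff`:  at `(t,y)`: `ObsV b U (tauOf t) i = Obs (b i) t (slT U t)` (`ld_tOf_tauOf`), so `Fmc A n j = Fmc A M j - Σ_i Obs_i Actu_i`;  unfold `SolL`, `Fmc`; `Finset.sum_sub_distrib`, `sub_mul`; `constructor <;> intro h j t ht y hy <;> have := h j t ht y hy <;> ... linarith`.      (Copy the R325 proof of `ld_SolL_one_iff`, Pk38.)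
-/
import Claimed.Agent.R324.Core.LD.LinA
import Claimed.Agent.R324.Core.LD.BasicT

set_option autoImplicit false

namespace Claimed.Agent.R324.Core

open Set Filter Topology MeasureTheory
open scoped ContDiff

noncomputable section

variable {N : ℕ} {q : ℝ} {g : Bg} {b A : Fin N → Fin 3 → ℝ → ℝ} {U V S S' : Tri} {t t₁ t₂ σ : ℝ}

theorem ld_lop_add (q : ℝ) (g : Bg) (hU : ∀ j, Sm (U j)) (hV : ∀ j, Sm (V j)) (ht : t < 0) (y : ℝ) (j : Fin 3) :
    Lop q g (fun j p => U j p + V j p) j (t, y) = Lop q g U j (t, y) + Lop q g V j (t, y) := by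
  have h1 : dY (fun p => U j p + V j p) (t, y) = dY (U j) (t, y) + dY (V j) (t, y) :=
    dY_add (hU j) (hV j) ht y
  have h2 : dY (dY (fun p => U j p + V j p)) (t, y) = dY (dY (U j)) (t, y) + dY (dY (V j)) (t, y) := by
    rw [dY_congr (g := fun p => dY (U j) p + dY (V j) p) (fun z => dY_add (hU j) (hV j) ht z) y]
    exact dY_add (hU j).dY (hV j).dY ht y
  show g.Z (t, y) * Xf y * dY (dY (fun p => U j p + V j p)) (t, y)
      + (-(dimJ q j) * y * g.Z (t, y) + Xf y * g.w1 (t, y)) * dY (fun p => U j p + V j p) (t, y)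
      + ∑ k, facJ j k y * g.cf q j k (t, y) * (U k (t, y) + V k (t, y))
    = (g.Z (t, y) * Xf y * dY (dY (U j)) (t, y)
      + (-(dimJ q j) * y * g.Z (t, y) + Xf y * g.w1 (t, y)) * dY (U j) (t, y)
      + ∑ k, facJ j k y * g.cf q j k (t, y) * U k (t, y))
    + (g.Z (t, y) * Xf y * dY (dY (V j)) (t, y)
      + (-(dimJ q j) * y * g.Z (t, y) + Xf y * g.w1 (t, y)) * dY (V j) (t, y)
      + ∑ k, facJ j k y * g.cf q j k (t, y) * V k (t, y))
  rw [h1, h2]
  simp only [Fin.sum_univ_three]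
  ring

theorem ld_lop_smul (q : ℝ) (g : Bg) (a : ℝ) (hU : ∀ j, Sm (U j)) (ht : t < 0) (y : ℝ) (j : Fin 3) :
    Lop q g (fun j p => a * U j p) j (t, y) = a * Lop q g U j (t, y) := by
  have h1 : dY (fun p => a * U j p) (t, y) = a * dY (U j) (t, y) :=
    dY_const_mul a (hU j) ht y
  have h2 : dY (dY (fun p => a * U j p)) (t, y) = a * dY (dY (U j)) (t, y) := by
    rw [dY_congr (g := fun p => a * dY (U j) p) (fun z => dY_const_mul a (hU j) ht z) y]
    exact dY_const_mul a (hU j).dY ht y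
  show g.Z (t, y) * Xf y * dY (dY (fun p => a * U j p)) (t, y)
      + (-(dimJ q j) * y * g.Z (t, y) + Xf y * g.w1 (t, y)) * dY (fun p => a * U j p) (t, y)
      + ∑ k, facJ j k y * g.cf q j k (t, y) * (a * U k (t, y))
    = a * (g.Z (t, y) * Xf y * dY (dY (U j)) (t, y)
      + (-(dimJ q j) * y * g.Z (t, y) + Xf y * g.w1 (t, y)) * dY (U j) (t, y)
      + ∑ k, facJ j k y * g.cf q j k (t, y) * U k (t, y))
  rw [h1, h2]
  simp only [Fin.sum_univ_three]
  ring

/-- if `U` vanishes on `[-1,1]` for `t ≤ t₁` then so does `∂_t U` for `t < t₁`. -/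
theorem ld_VanB_dT (h : VanB t₁ U) : ∀ j, ∀ t < t₁, ∀ y ∈ Icc (-1 : ℝ) 1, dT (U j) (t, y) = 0 := by
  intro j t ht y hy
  have he : (fun s => U j (s, y)) =ᶠ[nhds t] (fun _ => (0 : ℝ)) := by
    filter_upwards [Iio_mem_nhds ht] with s hs
    exact h j s (le_of_lt hs) y hy
  show deriv (fun s => U j (s, y)) t = 0
  rw [he.deriv_eq]
  exact deriv_const _ _

theorem VanB.mono (h : VanB t₂ U) (h12 : t₁ ≤ t₂) : VanB t₁ U :=
  fun j t ht y hy => h j t (ht.trans h12) y hy

theorem VanB.add (hu : VanB t₁ U) (hv : VanB t₁ V) : VanB t₁ (fun j p => U j p + V j p) := by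
  intro j t ht y hy
  simp [hu j t ht y hy, hv j t ht y hy]

theorem VanB.sub (hu : VanB t₁ U) (hv : VanB t₁ V) : VanB t₁ (fun j p => U j p - V j p) := by
  intro j t ht y hy
  simp [hu j t ht y hy, hv j t ht y hy]

theorem VanB.smul (a : ℝ) (hu : VanB t₁ U) : VanB t₁ (fun j p => a * U j p) := by
  intro j t ht y hy
  simp [hu j t ht y hy]

theorem SolL.add (hb : ∀ i l, Continuous (b i l)) (hU : ∀ j, Sm (U j)) (hV : ∀ j, Sm (V j))
    (h : SolL q g b A σ S U) (h' : SolL q g b A σ S' V) :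
    SolL q g b A σ (fun j p => S j p + S' j p) (fun j p => U j p + V j p) := by
  intro j t ht y hy
  have h1 : dT (fun p => U j p + V j p) (t, y) = dT (U j) (t, y) + dT (V j) (t, y) :=
    dT_add (hU j) (hV j) ht y
  have hus : ∀ l, CI (slT U t l) := fun l => ((hU l).sl ht).continuous.continuousOn
  have hvs : ∀ l, CI (slT V t l) := fun l => ((hV l).sl ht).continuous.continuousOn
  have h2 : Lt q g (fun j p => U j p + V j p) j (t, y) = Lt q g U j (t, y) + Lt q g V j (t, y) :=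
    ld_lop_add q (bgR q g) hU hV ht y j
  have h3 : ∀ i, Obs (b i) t (slT (fun j p => U j p + V j p) t)
      = Obs (b i) t (slT U t) + Obs (b i) t (slT V t) :=
    fun i => ld_Obs_add (hb i) t hus hvs
  show dT (fun p => U j p + V j p) (t, y) = _
  rw [h1, h2, h j t ht y hy, h' j t ht y hy]
  simp only [h3, add_mul, Finset.sum_add_distrib]
  ring

theorem SolL.sub (hb : ∀ i l, Continuous (b i l)) (hU : ∀ j, Sm (U j)) (hV : ∀ j, Sm (V j))
    (h : SolL q g b A σ S U) (h' : SolL q g b A σ S' V) :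
    SolL q g b A σ (fun j p => S j p - S' j p) (fun j p => U j p - V j p) := by
  intro j t ht y hy
  have h1 : dT (fun p => U j p - V j p) (t, y) = dT (U j) (t, y) - dT (V j) (t, y) :=
    dT_sub (hU j) (hV j) ht y
  have hus : ∀ l, CI (slT U t l) := fun l => ((hU l).sl ht).continuous.continuousOn
  have hvs : ∀ l, CI (slT V t l) := fun l => ((hV l).sl ht).continuous.continuousOn
  have h2 : Lt q g (fun j p => U j p - V j p) j (t, y) = Lt q g U j (t, y) - Lt q g V j (t, y) :=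
    ld0_lop_sub q (bgR q g) hU hV ht y j
  have h3 : ∀ i, Obs (b i) t (slT (fun j p => U j p - V j p) t)
      = Obs (b i) t (slT U t) - Obs (b i) t (slT V t) :=
    fun i => ld_Obs_sub (hb i) t hus hvs
  show dT (fun p => U j p - V j p) (t, y) = _
  rw [h1, h2, h j t ht y hy, h' j t ht y hy]
  simp only [h3, sub_mul, Finset.sum_sub_distrib]
  ring

theorem SolL.smul (a : ℝ) (hU : ∀ j, Sm (U j)) (h : SolL q g b A σ S U) :
    SolL q g b A σ (fun j p => a * S j p) (fun j p => a * U j p) := by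
  intro j t ht y hy
  have h1 : dT (fun p => a * U j p) (t, y) = a * dT (U j) (t, y) :=
    dT_const_mul a (hU j) ht y
  have h2 : Lt q g (fun j p => a * U j p) j (t, y) = a * Lt q g U j (t, y) :=
    ld_lop_smul q (bgR q g) a hU ht y j
  have h3 : ∀ i, Obs (b i) t (slT (fun j p => a * U j p) t) = a * Obs (b i) t (slT U t) :=
    fun i => ld_Obs_smul (b i) t a (slT U t)
  show dT (fun p => a * U j p) (t, y) = _
  rw [h1, h2, h j t ht y hy]
  simp only [h3, mul_assoc, ← Finset.mul_sum]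
  ring

/-- the forcing only matters on `t < 0`, `y ∈ [-1,1]`. -/
theorem SolL.congr_S (h : SolL q g b A σ S U)
    (hS : ∀ j, ∀ t < 0, ∀ y ∈ Icc (-1 : ℝ) 1, S j (t, y) = S' j (t, y)) : SolL q g b A σ S' U := by
  intro j t ht y hy
  rw [h j t ht y hy, hS j t ht y hy]

/-- `(L_1)` with forcing `S + Σ M_i Ac_i` is `(L_0)` with forcing `S + Σ (M_i - O_{b_i}[U]) Ac_i`, and conversely. -/
theorem ld_SolL_one_iff (M n : ℝ → EuclideanSpace ℝ (Fin N)) (h : ∀ τ, n τ = M τ - ObsV b U τ) :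
    SolL q g b A 1 (fun j p => S j p + Fmc A M j p) U ↔ SolL q g b A 0 (fun j p => S j p + Fmc A n j p) U := by
  have key : ∀ j, ∀ t < 0, ∀ y : ℝ,
      Lt q g U j (t, y) - 1 * ∑ i, Obs (b i) t (slT U t) * Actu (A i) j (t, y)
        + (S j (t, y) + Fmc A M j (t, y))
      = Lt q g U j (t, y) - 0 * ∑ i, Obs (b i) t (slT U t) * Actu (A i) j (t, y)
        + (S j (t, y) + Fmc A n j (t, y)) := by
    intro j t ht y
    have hn : ∀ i, n (tauOf t) i = M (tauOf t) i - Obs (b i) t (slT U t) := by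
      intro i
      rw [h (tauOf t), PiLp.sub_apply]
      show M (tauOf t) i - Obs (b i) (tOf (tauOf t)) (slT U (tOf (tauOf t))) = _
      rw [ld_tOf_tauOf ht]
    have hF : Fmc A n j (t, y) = Fmc A M j (t, y)
        - ∑ i, Obs (b i) t (slT U t) * Actu (A i) j (t, y) := by
      unfold Fmc
      rw [← Finset.sum_sub_distrib]
      refine Finset.sum_congr rfl fun i _ => ?_
      show n (tauOf t) i * _ = M (tauOf t) i * _ - _
      rw [hn i]
      ring
    rw [hF]
    ring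
  constructor
  · intro hs j t ht y hy
    rw [hs j t ht y hy]
    exact key j t ht y
  · intro hs j t ht y hy
    rw [hs j t ht y hy]
    exact (key j t ht y).symm

theorem ld_Fmc_add (A : Fin N → Fin 3 → ℝ → ℝ) (m m' : ℝ → EuclideanSpace ℝ (Fin N)) (j : Fin 3) (p : ℝ × ℝ) :
    Fmc A (fun τ => m τ + m' τ) j p = Fmc A m j p + Fmc A m' j p := by
  unfold Fmc
  rw [← Finset.sum_add_distrib]
  refine Finset.sum_congr rfl fun i _ => ?_
  rw [PiLp.add_apply]
  ring

theorem ld_Fmc_smul (A : Fin N → Fin 3 → ℝ → ℝ) (a : ℝ) (m : ℝ → EuclideanSpace ℝ (Fin N)) (j : Fin 3) (p : ℝ × ℝ) :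
    Fmc A (fun τ => a • m τ) j p = a * Fmc A m j p := by
  unfold Fmc
  rw [Finset.mul_sum]
  refine Finset.sum_congr rfl fun i _ => ?_
  rw [PiLp.smul_apply, smul_eq_mul]
  ring

theorem ld_Fmc_zero (A : Fin N → Fin 3 → ℝ → ℝ) (j : Fin 3) (p : ℝ × ℝ) :
    Fmc A (fun _ => (0 : EuclideanSpace ℝ (Fin N))) j p = 0 := by
  unfold Fmc
  refine Finset.sum_eq_zero fun i _ => ?_
  rw [PiLp.zero_apply, zero_mul]

/-- `Fmc` vanishes as long as `m` does. -/
theorem ld_Fmc_van (A : Fin N → Fin 3 → ℝ → ℝ) {m : ℝ → EuclideanSpace ℝ (Fin N)} {τa : ℝ}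
    (hm : ∀ τ ≤ τa, m τ = 0) : ∀ j, ∀ t ≤ tOf τa, ∀ y : ℝ, Fmc A m j (t, y) = 0 := by
  intro j t ht y
  have ht0 : t < 0 := lt_of_le_of_lt ht (ld_tOf_neg τa)
  have hτ : tauOf t ≤ τa := by
    rw [← ld_tOf_le_iff, ld_tOf_tauOf ht0]
    exact ht
  unfold Fmc
  refine Finset.sum_eq_zero fun i _ => ?_
  show m (tauOf t) i * _ = 0
  rw [hm _ hτ, PiLp.zero_apply, zero_mul]

end

end Claimed.Agent.R324.Core
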