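/-
Row 324 (S0582), PDE core, module LD (`linear_solve`), architect helper217.   Blueprint 7.4 (origin/helper232:docs/R324_blueprint.md).   PORT of R325/Core/LD (packed in Claimed/Agent/R325/Pk37..Pk48.lean).      FILE LD/SmoothA
   Λ = -t,  X = Xf y = 1 - y²,  Y = X/Λ,  τ = tauOf t = -log Λ;   u-form of a slice u = (σ, h₃, b):  uV u = (σ, h₃, X b);   κ = kapJ q;   𝕀 = II  (Core/W/Ibp.lean);   definitions of this module: Core/LD/Defs.lean.
Smoothness of the actuators, of the observation kernels, of the observations as functions of time;  the engine wrapper `ld_wrapper`.     (R325 analogue: LD/SmoothA.lean in Pk39, LD/WrapD.lean in Pk40.)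
Tools: Core/PR/Sm.lean (`Sm.mul`, `Sm.div`, `Sm.comp`, `sm_of_y`, `sm_of_t`, `sm_fst`, `sm_Xf`, `sm_sum`, `sm_of_eventuallyEq`, `sm_of_contDiffAt`), `psi1_contDiff`, `psi1_eq_zero` (Core/PR/SmR.lean), `e2_contDiffOn_integral` (R324/E2/Dui.lean; `Sm f` is `E2Sm 0 f` by `rfl`), LD/BasicT.lean.
* `ld_comp_Y_smooth`:  `(sm_Xf.div sm_fst.neg ..).comp`-type:  `Sm.comp hc (Sm.div sm_Xf (sm_fst.neg) (fun t ht y => by simp; linarith))`.
* `ld_kOb_smooth`:  product of `sm_of_y psi1_contDiff`, `2 y/(-t)`, `ld_comp_Y_smooth`, `xJ l` (`split_ifs`: `sm_Xf` or `sm_const 1`).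
* `ld_Actu_smooth`:  `j ≠ 2`:  `xJ j y = 1`:  quotient by `(-t) * 1 ≠ 0`.     `j = 2`:  `Actu A 2 p = ψ₁(y) A'(X/Λ)/Λ²` with `A'(Y) = A 2 Y / Y`, which is `CcB δ K` (`CcB.div_id`), hence smooth:   for `X ≠ 0`: `A(Y)/(Λ X) = (A(Y)/Y)/Λ²` (`field_simp`);   for `X = 0`: both sides are `0` (`Y = 0 ≤ δ`, `hA.supp`).     `Sm.congr`.
* `ld_Fmc_smooth`:  `sm_sum`;  `p ↦ m (tauOf p.1) i` is `sm_of_t` of `(component i of m) ∘ tauOf` (`ld_tauOf_contDiffOn`, `ContDiff.comp_contDiffOn`; component: `(EuclideanSpace.proj i).contDiff.comp hm` or `contDiff_euclidean.1 hm i`).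
-/
import Claimed.Agent.R324.Core.LD.LinB
import Claimed.Agent.R324.Core.PR.SmR

set_option autoImplicit false

namespace Claimed.Agent.R324.Core

open Set Filter Topology MeasureTheory
open scoped ContDiff

noncomputable section

variable {N : ℕ} {δ K : ℝ} {c : Fin 3 → ℝ → ℝ} {U : Tri}

/-- `(t,y) ↦ c(X/Λ)` is smooth on `t < 0`. -/
theorem ld_comp_Y_smooth {c : ℝ → ℝ} (hc : ContDiff ℝ ∞ c) : Sm (fun p => c (Xf p.2 / (-p.1))) :=
  Sm.comp hc (Sm.div sm_Xf sm_fst.neg (fun t ht y => neg_ne_zero.2 (ne_of_lt ht)))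

theorem ld_kOb_smooth (hc : ∀ l, ContDiff ℝ ∞ (c l)) (l : Fin 3) : Sm (kOb c l) := by
  have h1 : Sm (fun p : ℝ × ℝ => psi1 p.2) := sm_of_y psi1_contDiff
  have h2 : Sm (fun p : ℝ × ℝ => 2 * p.2 / (-p.1)) :=
    Sm.div (sm_snd.const_mul 2) sm_fst.neg (fun t ht y => neg_ne_zero.2 (ne_of_lt ht))
  have h3 := ld_comp_Y_smooth (hc l)
  have h4 : Sm (fun p : ℝ × ℝ => xJ l p.2) := by
    unfold xJ
    split_ifs
    · exact sm_Xf
    · exact sm_const 1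
  exact ((h1.mul h2).mul h3).mul h4

theorem ld_Actu_smooth (hδ : 0 < δ) {A : Fin 3 → ℝ → ℝ} (hA : ∀ l, CcB δ K (A l)) (j : Fin 3) : Sm (Actu A j) := by
  have h1 : Sm (fun p : ℝ × ℝ => psi1 p.2) := sm_of_y psi1_contDiff
  by_cases hj : j = 2
  · subst hj
    have hA' : CcB δ K (fun s => A 2 s / s) := CcB.div_id hδ (hA 2)
    have h2 := ld_comp_Y_smooth hA'.smooth
    have h3 : Sm (fun p : ℝ × ℝ => psi1 p.2 * (A 2 (Xf p.2 / (-p.1)) / (Xf p.2 / (-p.1))) / ((-p.1) * (-p.1))) :=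
      Sm.div (h1.mul h2) (sm_fst.neg.mul sm_fst.neg)
        (fun t ht y => mul_ne_zero (neg_ne_zero.2 (ne_of_lt ht)) (neg_ne_zero.2 (ne_of_lt ht)))
    refine h3.congr (fun t ht y => ?_)
    have ht0 : -t ≠ 0 := neg_ne_zero.2 (ne_of_lt ht)
    show psi1 y * A 2 (Xf y / (-t)) / ((-t) * xJ 2 y)
      = psi1 y * (A 2 (Xf y / (-t)) / (Xf y / (-t))) / ((-t) * (-t))
    have hx : xJ 2 y = Xf y := by simp [xJ]
    rw [hx]
    by_cases hX : Xf y = 0
    · rw [hX]; simp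
    · field_simp
  · have h2 := ld_comp_Y_smooth (hA j).smooth
    have h3 : Sm (fun p : ℝ × ℝ => psi1 p.2 * A j (Xf p.2 / (-p.1)) / (-p.1)) :=
      Sm.div (h1.mul h2) sm_fst.neg (fun t ht y => neg_ne_zero.2 (ne_of_lt ht))
    refine h3.congr (fun t ht y => ?_)
    show psi1 y * A j (Xf y / (-t)) / ((-t) * xJ j y) = psi1 y * A j (Xf y / (-t)) / (-t)
    have hx : xJ j y = 1 := by simp [xJ, hj]
    rw [hx, mul_one]

theorem ld_Fmc_smooth (hδ : 0 < δ) {A : Fin N → Fin 3 → ℝ → ℝ} (hA : ∀ i l, CcB δ K (A i l))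
    {m : ℝ → EuclideanSpace ℝ (Fin N)} (hm : ContDiff ℝ ∞ m) (j : Fin 3) : Sm (Fmc A m j) := by
  have h : Sm (fun p : ℝ × ℝ => ∑ i ∈ Finset.univ, m (tauOf p.1) i * Actu (A i) j p) := by
    refine sm_sum Finset.univ (fun i _ => ?_)
    have h1 : ContDiffOn ℝ ∞ (fun t : ℝ => m (tauOf t) i) (Iio 0) :=
      ((EuclideanSpace.proj (𝕜 := ℝ) i).contDiff.comp hm).comp_contDiffOn ld_tauOf_contDiffOn
    exact (sm_of_t h1).mul (ld_Actu_smooth hδ (hA i) j)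
  exact h

end

end Claimed.Agent.R324.Core
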