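/-
Row 324 (S0582), PDE core, module LD (`linear_solve`), architect helper217.   Blueprint 7.4 (origin/helper232:docs/R324_blueprint.md).   PORT of R325/Core/LD (packed in Claimed/Agent/R325/Pk37..Pk48.lean).      FILE LD/Subst
   Λ = -t,  X = Xf y = 1 - y²,  Y = X/Λ,  τ = tauOf t = -log Λ;   u-form of a slice u = (σ, h₃, b):  uV u = (σ, h₃, X b);   κ = kapJ q;   𝕀 = II  (Core/W/Ibp.lean);   definitions of this module: Core/LD/Defs.lean.
STATIC LAYER 1: changes of variables   `ϑ ↔ ξ = cos ϑ ↔ Y = (1-ξ²)/Λ`.       `yOf t Y = √(1 - ΛY)`  (the point `ξ ≥ 0` with `X(ξ) = ΛY`).       `CI f` = `ContinuousOn f (Icc (-1) 1)`,  `II f = ∫_0^π f(cos ϑ) dϑ`.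
* `ld_Xf_yOf`: unfold `Xf yOf`; `Real.sq_sqrt`.     `ld_yOf_mem`: `Real.le_sqrt`, `Real.sqrt_le_one`/`Real.sqrt_le_sqrt`; `(19/20)² = 361/400`.     `ld_yOf_Xf`: `1 - Λ (X/Λ) = y²`, `Real.sqrt_sq`.
* `ld_yOf_hasDerivAt`:  `HasDerivAt.sqrt` of `Y ↦ 1 - ΛY` (derivative `t`).
* `ld_int_eq_ii`:  `intervalIntegral.integral_comp_mul_deriv''`-type lemma with `f = cos`, `f' = -sin` on `[0,π]`:   `∫_0^π F(cos ϑ) (-sin ϑ) dϑ = ∫_{1}^{-1} F`;   `sin ϑ = √(1 - cos² ϑ)` on `[0,π]` (`Real.sin_eq_sqrt_one_sub_cos_sq`);  `intervalIntegral.integral_symm`.     (`F` is only continuous on `[-1,1] = cos '' [0,π]`: use the version with `ContinuousOn g (f '' [[a,b]])`.)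
* `ld_ii_ge`:  `m := min (Xf a) (Xf b) > 0` is the minimum of `X` on `[a,b]` (`X` is concave; or: `ξ² ≤ max(a²,b²)`);   `k(ξ) := 1/√(max (Xf ξ) m)` is continuous, `√X k ≤ 1` on `[-1,1]`, `k = 1/√X` on `[a,b]`.      `∫_a^b f/√X = ∫_a^b f k ≤ ∫_{-1}^1 f k` (`intervalIntegral.integral_mono_interval`, `f k ≥ 0`) `= 𝕀[√X f k]` (`ld_int_eq_ii`) `≤ 𝕀[f]` (`ii_mono`).
* `ld_subst`:  `intervalIntegral.integral_comp_mul_deriv (three primes)`-type lemma with `f = yOf t` on `[a,b]`, `f' = t/(2 yOf)`, `g ξ = 2ξ/Λ h(ξ)`:  `(g ∘ f) f' = - h ∘ f`  (`yOf ≥ 19/20 > 0`, `field_simp`);   `f '' [a,b] ⊆ [19/20,1]` (`ld_yOf_mem`; `Λ Y ≤ Λ b`);  `integral_symm`, `integral_neg`.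
* `ld_core_int`:  with `B := 39/(400Λ) ≥ K`:   `ld_subst` (`a = 0`, `b = B`, `h ξ = F(X(ξ)/Λ) G ξ`; `yOf t 0 = 1`, `yOf t B = 19/20`; `h (yOf t Y) = F Y * G (yOf t Y)` by `ld_Xf_yOf`) gives  `∫_0^B F(Y) G(yOf) dY = ∫_{19/20}^1 (2ξ/Λ) F(X/Λ) G dξ`.
     `∫_0^B = ∫_0^K` since `F = 0` on `[K,B]` (`intervalIntegral.integral_add_adjacent_intervals`, or `integral_congr` + zero).     On `[-1,19/20]` the integrand of the left side vanishes (`ξ ≤ 3/4`: `psi1_eq_zero`;   `3/4 ≤ ξ ≤ 19/20`: `X ≥ 39/400 ≥ KΛ`, `F = 0`), on `[19/20,1]`: `psi1_eq_one`.    Integrability on `[-1,1]`: split at `19/20` (`IntervalIntegrable.trans`; zero function / continuous function, `IntervalIntegrable.congr`).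
* `ld_core_ii`:  `G̃(Y) := G(Y)/√Y` is continuous (near `Y ≤ δ/2`… it is `0` for `Y < δ`; for `Y > 0` a quotient:  `continuous_iff_continuousAt`, as in `CcB.mul_of_contDiffOn`).    `F₁(ξ) := ψ₁(ξ) G̃(X/Λ) F(ξ)/√Λ` is `CI` and `√X F₁ = ψ₁ G(X/Λ) F` on `[-1,1]`  (`√X = √Λ √(X/Λ)`; if `X/Λ ≤ δ` both sides are `0`).     `ld_int_eq_ii` (read from right to left), then `ld_core_int` with `F := G̃`, `G ξ := F ξ * √Λ/(2ξ)`  (continuous on `[19/20,1]`):   `ψ₁ (2ξ/Λ) G̃(X/Λ) (F √Λ/(2ξ)) = F₁`  for `ξ ≠ 0` (for `ξ ≤ 3/4`: `ψ₁ = 0`).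
-/
import Claimed.Agent.R324.Core.LD.LinA
import Claimed.Agent.R324.Core.PR.SmR

set_option autoImplicit false

namespace Claimed.Agent.R324.Core

open Set Filter Topology MeasureTheory
open scoped ContDiff

noncomputable section

/-- `y(Y) = √(1 - ΛY)`. -/
def yOf (t Y : ℝ) : ℝ := Real.sqrt (1 - (-t) * Y)

/-- hygiene. -/
theorem core_ld_subst_hygiene : True := by
  have := @yOf.eq_1
  trivial

variable {t Y y a b δ K : ℝ}

theorem ld_Xf_yOf (h : (-t) * Y ≤ 1) : Xf (yOf t Y) = (-t) * Y := by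
  unfold Xf yOf
  rw [Real.sq_sqrt (by linarith)]
  ring

theorem ld_yOf_mem (ht : t < 0) (hY0 : 0 ≤ Y) (hY : (-t) * Y ≤ 39 / 400) : yOf t Y ∈ Icc (19 / 20 : ℝ) 1 := by
  have h0 : 0 ≤ (-t) * Y := mul_nonneg (by linarith) hY0
  unfold yOf
  constructor
  · apply Real.le_sqrt_of_sq_le
    norm_num
    linarith
  · rw [Real.sqrt_le_one]
    linarith

theorem ld_yOf_Xf (ht : t < 0) (hy : 0 ≤ y) : yOf t (Xf y / (-t)) = y := by
  unfold yOf Xf
  have h : (-t) ≠ 0 := by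
    have : 0 < -t := by linarith
    exact this.ne'
  have e : 1 - (-t) * ((1 - y ^ 2) / (-t)) = y ^ 2 := by
    rw [mul_div_cancel₀ _ h]
    ring
  rw [e, Real.sqrt_sq hy]

theorem ld_yOf_zero (t : ℝ) : yOf t 0 = 1 := by
  simp [yOf]

theorem ld_yOf_continuous (t : ℝ) : Continuous (yOf t) := by
  unfold yOf
  exact Real.continuous_sqrt.comp (by fun_prop)

theorem ld_yOf_hasDerivAt (h : (-t) * Y < 1) : HasDerivAt (yOf t) (t / (2 * yOf t Y)) Y := by
  have h1 : HasDerivAt (fun Y => 1 - (-t) * Y) t Y := by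
    have := ((hasDerivAt_id Y).const_mul (-t)).const_sub 1
    simpa using this
  have h2 : (1 - (-t) * Y) ≠ 0 := by
    have : 0 < 1 - (-t) * Y := by linarith
    exact this.ne'
  exact h1.sqrt h2

/-- `∫_{-1}^1 F dξ = 𝕀[√X F]`. -/
theorem ld_int_eq_ii {F : ℝ → ℝ} (hF : CI F) : ∫ ξ in (-1 : ℝ)..1, F ξ = II (fun y => Real.sqrt (Xf y) * F y) := by
  have h := intervalIntegral.integral_comp_mul_deriv' (a := 0) (b := Real.pi) (f := Real.cos)
    (f' := fun x => -Real.sin x) (g := F)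
    (fun x _ => Real.hasDerivAt_cos x) (Real.continuous_sin.neg.continuousOn)
    (hF.mono (by rintro _ ⟨x, _, rfl⟩; exact cos_mem_Icc x))
  rw [Real.cos_zero, Real.cos_pi, intervalIntegral.integral_symm (-1 : ℝ) 1] at h
  unfold II
  have e : ∫ ϑ in (0:ℝ)..Real.pi, Real.sqrt (Xf (Real.cos ϑ)) * F (Real.cos ϑ)
      = - ∫ x in (0:ℝ)..Real.pi, (F ∘ Real.cos) x * -Real.sin x := by
    rw [← intervalIntegral.integral_neg]
    refine intervalIntegral.integral_congr (fun x hx => ?_)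
    rw [uIcc_of_le Real.pi_pos.le] at hx
    have h3 : Real.sqrt (Xf (Real.cos x)) = Real.sin x := by
      unfold Xf
      rw [← Real.sin_eq_sqrt_one_sub_cos_sq hx.1 hx.2]
    simp only [h3, Function.comp]
    ring
  rw [e, h]
  ring

/-- `∫_a^b f/√X dξ ≤ 𝕀[f]` for `f ≥ 0`. -/
theorem ld_ii_ge {f : ℝ → ℝ} (hf : CI f) (h0 : ∀ y ∈ Icc (-1 : ℝ) 1, 0 ≤ f y) (ha : -1 < a) (hab : a ≤ b) (hb : b < 1) :
    ∫ ξ in a..b, f ξ / Real.sqrt (Xf ξ) ≤ II f := by
  set m : ℝ := min (Xf a) (Xf b) with hm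
  have hXa : 0 < Xf a := by unfold Xf; nlinarith
  have hXb : 0 < Xf b := by unfold Xf; nlinarith
  have hm0 : 0 < m := lt_min hXa hXb
  have hXm : ∀ ξ ∈ Icc a b, m ≤ Xf ξ := by
    intro ξ hξ
    rcases le_total 0 ξ with h | h
    · refine (min_le_right _ _).trans ?_
      unfold Xf
      nlinarith [hξ.2]
    · refine (min_le_left _ _).trans ?_
      unfold Xf
      nlinarith [hξ.1]
  set k : ℝ → ℝ := fun ξ => 1 / Real.sqrt (max (Xf ξ) m) with hk
  have hpos : ∀ ξ, 0 < Real.sqrt (max (Xf ξ) m) := fun ξ =>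
    Real.sqrt_pos.mpr (lt_of_lt_of_le hm0 (le_max_right _ _))
  have hkc : Continuous k := by
    have h1 : Continuous (fun ξ : ℝ => Real.sqrt (max (Xf ξ) m)) := by
      unfold Xf
      exact Real.continuous_sqrt.comp (by fun_prop)
    exact continuous_const.div h1 (fun ξ => (hpos ξ).ne')
  have hk0 : ∀ ξ, 0 ≤ k ξ := fun ξ => by
    simp only [hk]
    exact (div_pos one_pos (hpos ξ)).le
  have hfk : CI (fun ξ => f ξ * k ξ) := hf.mul hkc.continuousOn
  have e1 : ∫ ξ in a..b, f ξ / Real.sqrt (Xf ξ) = ∫ ξ in a..b, f ξ * k ξ := by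
    refine intervalIntegral.integral_congr (fun ξ hξ => ?_)
    rw [uIcc_of_le hab] at hξ
    simp only [hk]
    rw [max_eq_left (hXm ξ hξ)]
    ring
  have e2 : ∫ ξ in a..b, f ξ * k ξ ≤ ∫ ξ in (-1 : ℝ)..1, f ξ * k ξ := by
    refine intervalIntegral.integral_mono_interval ha.le hab hb.le ?_ ?_
    · refine (ae_restrict_mem measurableSet_Ioc).mono (fun ξ hξ => ?_)
      exact mul_nonneg (h0 ξ ⟨hξ.1.le, hξ.2⟩) (hk0 ξ)
    · refine ContinuousOn.intervalIntegrable ?_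
      rw [uIcc_of_le (by norm_num : (-1 : ℝ) ≤ 1)]
      exact hfk
  have hsq : CI (fun y => Real.sqrt (Xf y)) := by
    unfold Xf
    exact (Real.continuous_sqrt.comp (by fun_prop)).continuousOn
  have e3 : II (fun y => Real.sqrt (Xf y) * (f y * k y)) ≤ II f := by
    refine ii_mono (hsq.mul hfk) hf (fun y hy => ?_)
    have h1 : Real.sqrt (Xf y) * k y ≤ 1 := by
      simp only [hk]
      rw [mul_one_div, div_le_one (hpos y)]
      exact Real.sqrt_le_sqrt (le_max_left _ _)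
    have h2 := mul_le_mul_of_nonneg_left h1 (h0 y hy)
    calc Real.sqrt (Xf y) * (f y * k y) = f y * (Real.sqrt (Xf y) * k y) := by ring
      _ ≤ f y * 1 := h2
      _ = f y := mul_one _
  rw [e1]
  refine e2.trans ?_
  rw [ld_int_eq_ii hfk]
  exact e3

/-- substitution `ξ = yOf t Y`. -/
theorem ld_subst {h : ℝ → ℝ} (ht : t < 0) (ha : 0 ≤ a) (hab : a ≤ b) (hb : (-t) * b ≤ 39 / 400)
    (hh : ContinuousOn h (Icc (19 / 20 : ℝ) 1)) :
    ∫ Y in a..b, h (yOf t Y) = ∫ ξ in (yOf t b)..(yOf t a), 2 * ξ / (-t) * h ξ := by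
  have hΛ : 0 < -t := by linarith
  have hmem : ∀ Y ∈ uIcc a b, yOf t Y ∈ Icc (19 / 20 : ℝ) 1 := by
    intro Y hY
    rw [uIcc_of_le hab] at hY
    refine ld_yOf_mem ht (ha.trans hY.1) ?_
    exact (mul_le_mul_of_nonneg_left hY.2 hΛ.le).trans hb
  have hlt : ∀ Y ∈ uIcc a b, (-t) * Y < 1 := by
    intro Y hY
    rw [uIcc_of_le hab] at hY
    have := (mul_le_mul_of_nonneg_left hY.2 hΛ.le).trans hb
    linarith
  have key := intervalIntegral.integral_comp_mul_deriv' (a := a) (b := b) (f := yOf t)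
    (f' := fun Y => t / (2 * yOf t Y)) (g := fun ξ => 2 * ξ / (-t) * h ξ)
    (fun Y hY => ld_yOf_hasDerivAt (hlt Y hY))
    (by
      refine ContinuousOn.div continuousOn_const
        ((continuous_const.mul (ld_yOf_continuous t)).continuousOn) (fun Y hY => ?_)
      have := (hmem Y hY).1
      have h2 : 0 < 2 * yOf t Y := by linarith
      exact h2.ne')
    (by
      have h1 : ContinuousOn (fun ξ => 2 * ξ / (-t) * h ξ) (Icc (19 / 20 : ℝ) 1) := by
        refine ContinuousOn.mul ?_ hh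
        exact (by fun_prop : Continuous (fun ξ : ℝ => 2 * ξ / (-t))).continuousOn
      refine h1.mono ?_
      rintro _ ⟨Y, hY, rfl⟩
      exact hmem Y hY)
  have e : ∫ Y in a..b, ((fun ξ => 2 * ξ / (-t) * h ξ) ∘ yOf t) Y * (t / (2 * yOf t Y))
      = - ∫ Y in a..b, h (yOf t Y) := by
    rw [← intervalIntegral.integral_neg]
    refine intervalIntegral.integral_congr (fun Y hY => ?_)
    have h1 := (hmem Y hY).1
    have h2 : yOf t Y ≠ 0 := by
      have : 0 < yOf t Y := by linarith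
      exact this.ne'
    have h3 : t ≠ 0 := ht.ne
    simp only [Function.comp]
    field_simp
  rw [e] at key
  rw [intervalIntegral.integral_symm (yOf t a) (yOf t b), ← key]
  ring

/-- integrals against `ψ₁(ξ) (2ξ/Λ) F(X/Λ)`. -/
theorem ld_core_int {F G : ℝ → ℝ} (hF : Continuous F) (hF0 : ∀ Y, K ≤ Y → F Y = 0) (hK0 : 0 ≤ K) (ht : t < 0)
    (hK : K * (-t) ≤ 39 / 400) (hG : ContinuousOn G (Icc (19 / 20 : ℝ) 1)) :
    ∫ ξ in (-1 : ℝ)..1, psi1 ξ * (2 * ξ / (-t)) * F (Xf ξ / (-t)) * G ξ = ∫ Y in (0 : ℝ)..K, F Y * G (yOf t Y) := by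
  have hΛ : 0 < -t := by linarith
  set B : ℝ := 39 / 400 / (-t) with hB
  have hBt : (-t) * B = 39 / 400 := by
    rw [hB, mul_div_cancel₀ _ hΛ.ne']
  have hKB : K ≤ B := by
    rw [hB, le_div_iff₀ hΛ]
    exact hK
  have hB0 : 0 ≤ B := hK0.trans hKB
  have hyB : yOf t B = 19 / 20 := by
    unfold yOf
    rw [hBt]
    have : (1 - 39 / 400 : ℝ) = (19 / 20) ^ 2 := by norm_num
    rw [this, Real.sqrt_sq (by norm_num)]
  have hh : ContinuousOn (fun ξ => F (Xf ξ / (-t)) * G ξ) (Icc (19 / 20 : ℝ) 1) := by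
    refine ContinuousOn.mul ?_ hG
    unfold Xf
    exact (hF.comp (by fun_prop)).continuousOn
  have s1 := ld_subst (h := fun ξ => F (Xf ξ / (-t)) * G ξ) ht le_rfl hB0 hBt.le hh
  rw [hyB, ld_yOf_zero] at s1
  -- left side of s1
  have s2 : ∫ Y in (0 : ℝ)..B, F (Xf (yOf t Y) / (-t)) * G (yOf t Y) = ∫ Y in (0 : ℝ)..K, F Y * G (yOf t Y) := by
    have c1 : ∫ Y in (0 : ℝ)..B, F (Xf (yOf t Y) / (-t)) * G (yOf t Y)
        = ∫ Y in (0 : ℝ)..B, F Y * G (yOf t Y) := by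
      refine intervalIntegral.integral_congr (fun Y hY => ?_)
      rw [uIcc_of_le hB0] at hY
      have h1 : (-t) * Y ≤ 1 := by
        have := mul_le_mul_of_nonneg_left hY.2 hΛ.le
        linarith
      rw [ld_Xf_yOf h1, mul_div_cancel_left₀ _ hΛ.ne']
    rw [c1, intervalIntegral.integral_of_le hB0, intervalIntegral.integral_of_le hK0]
    refine setIntegral_eq_of_subset_of_forall_sdiff_eq_zero measurableSet_Ioc (Ioc_subset_Ioc_right hKB) ?_
    intro Y hY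
    have h1 : K ≤ Y := by
      by_contra hc
      push Not at hc
      exact hY.2 ⟨hY.1.1, hc.le⟩
    rw [hF0 Y h1, zero_mul]
  -- right side
  have s3 : ∫ ξ in (-1 : ℝ)..1, psi1 ξ * (2 * ξ / (-t)) * F (Xf ξ / (-t)) * G ξ
      = ∫ ξ in (19 / 20 : ℝ)..1, 2 * ξ / (-t) * (F (Xf ξ / (-t)) * G ξ) := by
    have c1 : ∫ ξ in (19 / 20 : ℝ)..1, 2 * ξ / (-t) * (F (Xf ξ / (-t)) * G ξ)
        = ∫ ξ in (19 / 20 : ℝ)..1, psi1 ξ * (2 * ξ / (-t)) * F (Xf ξ / (-t)) * G ξ := by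
      refine intervalIntegral.integral_congr (fun ξ hξ => ?_)
      rw [uIcc_of_le (by norm_num : (19 / 20 : ℝ) ≤ 1)] at hξ
      rw [psi1_eq_one hξ.1]
      ring
    rw [c1, intervalIntegral.integral_of_le (by norm_num : (-1 : ℝ) ≤ 1),
      intervalIntegral.integral_of_le (by norm_num : (19 / 20 : ℝ) ≤ 1)]
    refine setIntegral_eq_of_subset_of_forall_sdiff_eq_zero measurableSet_Ioc
      (Ioc_subset_Ioc_left (by norm_num)) ?_
    intro ξ hξ
    have h1 : ξ ≤ 19 / 20 := by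
      by_contra hc
      push Not at hc
      exact hξ.2 ⟨hc, hξ.1.2⟩
    rcases le_total ξ (3 / 4) with h2 | h2
    · rw [psi1_eq_zero h2]
      ring
    · have h3 : K ≤ Xf ξ / (-t) := by
        rw [le_div_iff₀ hΛ]
        refine hK.trans ?_
        unfold Xf
        nlinarith
      rw [hF0 _ h3]
      ring
  rw [s3, ← s1, s2]

/-- `G/√·` is continuous when `G` vanishes near `0`. -/
theorem ld_subst_div_sqrt_continuous {G : ℝ → ℝ} (hG : Continuous G) (hδ : 0 < δ) (hG0 : ∀ Y, Y ≤ δ → G Y = 0) :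
    Continuous (fun Y => G Y / Real.sqrt Y) := by
  rw [continuous_iff_continuousAt]
  intro Y0
  rcases lt_or_ge 0 Y0 with h | h
  · exact hG.continuousAt.div Real.continuous_sqrt.continuousAt (Real.sqrt_pos.mpr h).ne'
  · have h1 : (fun Y => G Y / Real.sqrt Y) =ᶠ[𝓝 Y0] fun _ => (0 : ℝ) := by
      filter_upwards [Iio_mem_nhds (lt_of_le_of_lt h hδ)] with Y hY
      rw [hG0 Y (le_of_lt hY), zero_div]
    exact continuousAt_const.congr h1.symm

/-- `𝕀` of a function supported in the core. -/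
theorem ld_core_ii {F G : ℝ → ℝ} (hG : Continuous G) (hδ : 0 < δ) (hG0 : ∀ Y, Y ≤ δ ∨ K ≤ Y → G Y = 0) (hK0 : 0 ≤ K)
    (ht : t < 0) (hK : K * (-t) ≤ 39 / 400) (hF : CI F) :
    II (fun y => psi1 y * G (Xf y / (-t)) * F y)
      = ∫ Y in (0 : ℝ)..K, G Y * F (yOf t Y) * (Real.sqrt (-t) / (2 * Real.sqrt Y * yOf t Y)) := by
  have hΛ : 0 < -t := by linarith
  have hsΛ : 0 < Real.sqrt (-t) := Real.sqrt_pos.mpr hΛ
  have hGt : Continuous (fun Y => G Y / Real.sqrt Y) :=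
    ld_subst_div_sqrt_continuous hG hδ (fun Y hY => hG0 Y (Or.inl hY))
  set F1 : ℝ → ℝ := fun ξ => psi1 ξ * (G (Xf ξ / (-t)) / Real.sqrt (Xf ξ / (-t))) * F ξ / Real.sqrt (-t) with hF1
  have hF1c : CI F1 := by
    have h1 : Continuous (fun ξ : ℝ => G (Xf ξ / (-t)) / Real.sqrt (Xf ξ / (-t))) := by
      have h2 : Continuous (fun ξ : ℝ => Xf ξ / (-t)) := by
        unfold Xf
        fun_prop
      exact hGt.comp h2
    exact (((psi1_contDiff.continuous.mul h1).continuousOn).mul hF).div_const _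
  have e1 : II (fun y => psi1 y * G (Xf y / (-t)) * F y) = II (fun y => Real.sqrt (Xf y) * F1 y) := by
    refine ii_congr (fun y hy => ?_)
    have hX : 0 ≤ Xf y := by
      unfold Xf
      nlinarith [hy.1, hy.2]
    have hXΛ : 0 ≤ Xf y / (-t) := div_nonneg hX hΛ.le
    have hs : Real.sqrt (Xf y) = Real.sqrt (-t) * Real.sqrt (Xf y / (-t)) := by
      rw [← Real.sqrt_mul hΛ.le, mul_div_cancel₀ _ hΛ.ne']
    simp only [hF1]
    rcases hXΛ.eq_or_lt with h0 | h0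
    · rw [hG0 (Xf y / (-t)) (Or.inl (by rw [← h0]; exact hδ.le))]
      ring
    · have h3 : Real.sqrt (Xf y / (-t)) ≠ 0 := (Real.sqrt_pos.mpr h0).ne'
      rw [hs]
      generalize Real.sqrt (Xf y / (-t)) = w at h3
      generalize G (Xf y / (-t)) = g
      field_simp
  have e2 : ∫ ξ in (-1 : ℝ)..1, F1 ξ
      = ∫ ξ in (-1 : ℝ)..1, psi1 ξ * (2 * ξ / (-t)) * ((fun Y => G Y / Real.sqrt Y) (Xf ξ / (-t)))
          * ((fun ξ => F ξ * Real.sqrt (-t) / (2 * ξ)) ξ) := by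
    refine intervalIntegral.integral_congr (fun ξ _ => ?_)
    simp only [hF1]
    rcases le_or_gt ξ (3 / 4) with h | h
    · rw [psi1_eq_zero h]
      ring
    · have h1 : ξ ≠ 0 := by
        have : 0 < ξ := by linarith
        exact this.ne'
      have h2 : (-t) = Real.sqrt (-t) * Real.sqrt (-t) := (Real.mul_self_sqrt hΛ.le).symm
      have h3 : 2 * ξ / (-t) * (Real.sqrt (-t) / (2 * ξ)) = 1 / Real.sqrt (-t) := by
        rw [div_mul_div_comm, div_eq_div_iff (mul_ne_zero hΛ.ne' (mul_ne_zero two_ne_zero h1)) hsΛ.ne']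
        calc 2 * ξ * Real.sqrt (-t) * Real.sqrt (-t) = 2 * ξ * (Real.sqrt (-t) * Real.sqrt (-t)) := by ring
          _ = 2 * ξ * (-t) := by rw [← h2]
          _ = 1 * (-t * (2 * ξ)) := by ring
      calc psi1 ξ * (G (Xf ξ / (-t)) / Real.sqrt (Xf ξ / (-t))) * F ξ / Real.sqrt (-t)
          = psi1 ξ * (G (Xf ξ / (-t)) / Real.sqrt (Xf ξ / (-t))) * F ξ * (1 / Real.sqrt (-t)) := by ring
        _ = psi1 ξ * (G (Xf ξ / (-t)) / Real.sqrt (Xf ξ / (-t))) * F ξ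
              * (2 * ξ / (-t) * (Real.sqrt (-t) / (2 * ξ))) := by rw [h3]
        _ = _ := by ring
  have hG2 : ContinuousOn (fun ξ => F ξ * Real.sqrt (-t) / (2 * ξ)) (Icc (19 / 20 : ℝ) 1) := by
    refine ContinuousOn.div ((hF.mono (Icc_subset_Icc_left (by norm_num))).mul continuousOn_const)
      (by fun_prop) (fun ξ hξ => ?_)
    have : 0 < 2 * ξ := by linarith [hξ.1]
    exact this.ne'
  have e3 := ld_core_int (F := fun Y => G Y / Real.sqrt Y) (G := fun ξ => F ξ * Real.sqrt (-t) / (2 * ξ))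
    hGt (fun Y hY => by rw [hG0 Y (Or.inr hY), zero_div]) hK0 ht hK hG2
  rw [e1, ← ld_int_eq_ii hF1c, e2, e3]
  refine intervalIntegral.integral_congr (fun Y _ => ?_)
  ring

end

end Claimed.Agent.R324.Core
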