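/-
Row 324 (S0582), PDE core, module LD (`linear_solve`), architect helper217.   Blueprint 7.4 (origin/helper232:docs/R324_blueprint.md).   PORT of R325/Core/LD (packed in Claimed/Agent/R325/Pk37..Pk48.lean).      FILE LD/ActId
   Λ = -t,  X = Xf y = 1 - y²,  Y = X/Λ,  τ = tauOf t = -log Λ;   u-form of a slice u = (σ, h₃, b):  uV u = (σ, h₃, X b);   κ = kapJ q;   𝕀 = II  (Core/W/Ibp.lean);   definitions of this module: Core/LD/Defs.lean.
STATIC LAYER 2: identities for the actuators and the observations at "core times"  `t < 0`, `K Λ ≤ 39/400`  (then `ψ₁ = 1` where `ψ₁(y) c(X/Λ) ≠ 0`, `c ∈ CcB δ K`).      (R325 analogue: LD/ActId.lean in Pk41.)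
* `ld_core_y`:  `y² = 1 - X ≥ 361/400`, `y ≥ 0`: `abs_le_abs`/`pow_le_pow_left`/nlinarith.
* `ld_psi1_core`:  `ψ₁ y ≠ 0` ⟹ `3/4 < y` (`psi1_eq_zero`);  `c(..) ≠ 0` ⟹ `δ < X/Λ < K` (`hc.supp`, `lt_div_iff₀`, `div_lt_iff₀`);  `X < KΛ ≤ 39/400` ⟹ `19/20 < y` (nlinarith);  `psi1_eq_one`.
* `ld_psi1_sq_core`:  `by_cases` on `ψ₁ y * c(..) = 0`.
* `HeavyData.coneZ`:  `ConeZ t y = (t < 0 ∧ 19/20 < y ∧ 2 Λ√Λ < X ∧ X < √Λ)` (Core/PR/Germ.lean);   `2 Λ √Λ ≤ 2 Λ √Λ₀ < δ Λ < X` (`H.cone1`, `Real.sqrt_le_sqrt`),    `X < K Λ = K √Λ √Λ ≤ K √Λ₀ √Λ < √Λ` (`H.cone2`, `Real.mul_self_sqrt`).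
* `ld_uV_Actu`:  `uV_eq_xJ`; unfold `slT Actu`;  `j ≠ 2`: `xJ = 1`.   `j = 2`: `X ≠ 0`: `field_simp`;   `X = 0`: `A 2 0 = 0` (`hA.supp`, `0 ≤ δ`).
* `ld_tt_comp`:  `tt F y = -(1-y²) F'(y)`,  `F'(y) = f'(X/Λ) (-2y/Λ)` (`HasDerivAt.comp`, `hasDerivAt_Xf`).
* `ld_tt_uV_Actu`:  `uV (slT (Actu A) t) j = fun z => ψ₁ z * A j (X z/Λ)/Λ` (`funext`, `ld_uV_Actu`);   product rule for `tt` (`tt_mul`-type rule of Core/W/TtCalc.lean, or directly `HasDerivAt.mul`);   `ψ₁'(y) A(X/Λ) = 0`:  if `A(X/Λ) ≠ 0` then `X < 39/400`, so `y > 19/20` (`ψ₁ = 1` near `y`) or `y < -19/20` (`ψ₁ = 0` near `y`): `Filter.EventuallyEq.deriv_eq`.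
* `ld_Obs_scaled`:  `ld_Obs_uV` (LD/LinA.lean);  `ψ₁ (2ξ/Λ) Σ_l c_l(X/Λ) (uV u)_l = Σ_l ψ₁ (2ξ/Λ) c_l(X/Λ) (uV u)_l`, `intervalIntegral.integral_finset_sum` on both sides, `ld_core_int` for each `l` (`F = c l`, `G = uV u l`).
* `ld_pair_scaled`:  `ld_Obs_scaled` for `u = slT (Actu A) t` (continuous: `ld_Actu_smooth`, `Sm.sl`);  for `Y ∈ [0,K]`: `uV (..) l (yOf t Y) = A l Y/Λ`  (`ld_uV_Actu`, `ld_yOf_mem`, `psi1_eq_one`, `ld_Xf_yOf`, `mul_div_cancel_left₀`);   `intervalIntegral.integral_congr`, `integral_const_mul`; unfold `pairY`.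
-/
import Claimed.Agent.R324.Core.LD.Subst
import Claimed.Agent.R324.Core.LD.SmoothA

set_option autoImplicit false

namespace Claimed.Agent.R324.Core

open Set Filter Topology MeasureTheory
open scoped ContDiff

noncomputable section

variable {N : ℕ} {q : ℝ} {g : Bg} {b : Fin N → Fin 3 → ℝ → ℝ} {δ K g₀ Λ₀ cH t y : ℝ}

theorem ld_core_y (hK : K * (-t) ≤ 39 / 400) (hy : 0 ≤ y) (hX : Xf y ≤ K * (-t)) : 19 / 20 ≤ y := by
  unfold Xf at hX
  nlinarith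

theorem ld_psi1_core {c : ℝ → ℝ} (hc : CcB δ K c) (ht : t < 0) (hK : K * (-t) ≤ 39 / 400)
    (h : psi1 y * c (Xf y / (-t)) ≠ 0) :
    psi1 y = 1 ∧ 19 / 20 < y ∧ δ * (-t) < Xf y ∧ Xf y < K * (-t) := by
  have hp : psi1 y ≠ 0 := left_ne_zero_of_mul h
  have hcc : c (Xf y / (-t)) ≠ 0 := right_ne_zero_of_mul h
  have hΛ : 0 < -t := by linarith
  have hy34 : 3 / 4 < y := by
    by_contra hcon
    exact hp (psi1_eq_zero (not_lt.1 hcon))
  have h1 : δ < Xf y / (-t) := by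
    by_contra hcon
    exact hcc (hc.supp _ (Or.inl (not_lt.1 hcon)))
  have h2 : Xf y / (-t) < K := by
    by_contra hcon
    exact hcc (hc.supp _ (Or.inr (not_lt.1 hcon)))
  have h1' : δ * (-t) < Xf y := (lt_div_iff₀ hΛ).1 h1
  have h2' : Xf y < K * (-t) := (div_lt_iff₀ hΛ).1 h2
  have hy : 19 / 20 < y := by
    have h3 : Xf y < 39 / 400 := lt_of_lt_of_le h2' hK
    unfold Xf at h3
    nlinarith
  exact ⟨psi1_eq_one hy.le, hy, h1', h2'⟩

theorem ld_psi1_sq_core {c : ℝ → ℝ} (hc : CcB δ K c) (ht : t < 0) (hK : K * (-t) ≤ 39 / 400) (y : ℝ) :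
    psi1 y * (psi1 y * c (Xf y / (-t))) = psi1 y * c (Xf y / (-t)) := by
  by_cases h : psi1 y * c (Xf y / (-t)) = 0
  · rw [h, mul_zero]
  · rw [(ld_psi1_core hc ht hK h).1]
    ring

/-- the supports of the observations and of the actuators lie in the cone zone. -/
theorem HeavyData.coneZ (H : HeavyData q g N b δ K g₀ Λ₀ cH) {c : ℝ → ℝ} (hc : CcB δ K c) (ht : t ∈ Ico (-Λ₀) 0)
    (h : psi1 y * c (Xf y / (-t)) ≠ 0) : ConeZ t y := by
  have ht0 : t < 0 := ht.2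
  have hΛ : 0 < -t := by linarith
  have hΛle : -t ≤ Λ₀ := by linarith [ht.1]
  have hKpos : 0 < K := lt_trans H.δpos H.δK
  have hK : K * (-t) ≤ 39 / 400 := le_trans (mul_le_mul_of_nonneg_left hΛle hKpos.le) H.small
  obtain ⟨-, hy, h1, h2⟩ := ld_psi1_core hc ht0 hK h
  have hs : Real.sqrt (-t) ≤ Real.sqrt Λ₀ := Real.sqrt_le_sqrt hΛle
  have hs0 : 0 < Real.sqrt (-t) := Real.sqrt_pos.2 hΛ
  have hss : Real.sqrt (-t) * Real.sqrt (-t) = -t := Real.mul_self_sqrt hΛ.le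
  refine ⟨ht0, hy, ?_, ?_⟩
  · have h3 : 2 * Real.sqrt (-t) < δ := lt_of_le_of_lt (by linarith) H.cone1
    have h4 : 2 * Real.sqrt (-t) * (-t) < δ * (-t) := mul_lt_mul_of_pos_right h3 hΛ
    calc 2 * ((-t) * Real.sqrt (-t)) = 2 * Real.sqrt (-t) * (-t) := by ring
      _ < δ * (-t) := h4
      _ < Xf y := h1
  · have h3 : K * Real.sqrt (-t) < 1 :=
      lt_of_le_of_lt (mul_le_mul_of_nonneg_left hs hKpos.le) H.cone2
    have h4 : K * Real.sqrt (-t) * Real.sqrt (-t) < 1 * Real.sqrt (-t) := mul_lt_mul_of_pos_right h3 hs0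
    calc Xf y < K * (-t) := h2
      _ = K * Real.sqrt (-t) * Real.sqrt (-t) := by rw [mul_assoc, hss]
      _ < 1 * Real.sqrt (-t) := h4
      _ = Real.sqrt (-t) := one_mul _

/-- the `u`-form of an actuator is `ψ₁ A(Y)/Λ`. -/
theorem ld_uV_Actu (hδ : 0 < δ) {A : Fin 3 → ℝ → ℝ} (hA : ∀ l, CcB δ K (A l)) (ht : t < 0) (j : Fin 3) (y : ℝ) :
    uV (slT (Actu A) t) j y = psi1 y * A j (Xf y / (-t)) / (-t) := by
  have ht0 : -t ≠ 0 := neg_ne_zero.2 (ne_of_lt ht)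
  rw [uV_eq_xJ]
  show xJ j y * (psi1 y * A j (Xf y / (-t)) / ((-t) * xJ j y)) = psi1 y * A j (Xf y / (-t)) / (-t)
  by_cases hj : j = 2
  · subst hj
    have hx : xJ 2 y = Xf y := by simp [xJ]
    rw [hx]
    by_cases hX : Xf y = 0
    · rw [hX, zero_div, (hA 2).supp 0 (Or.inl hδ.le)]
      simp
    · field_simp
  · have hx : xJ j y = 1 := by simp [xJ, hj]
    rw [hx, mul_one, one_mul]

/-- `tt [f(X/Λ)] = y (θ f)(X/Λ)`, `θ = 2 Y d/dY`. -/
theorem ld_tt_comp {f : ℝ → ℝ} (hf : Differentiable ℝ f) (Λ y : ℝ) :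
    tt (fun z => f (Xf z / Λ)) y = y * (2 * (Xf y / Λ) * deriv f (Xf y / Λ)) := by
  have h1 : HasDerivAt (fun z => Xf z / Λ) (-2 * y / Λ) y := (hasDerivAt_Xf y).div_const Λ
  have h2 : HasDerivAt (fun z => f (Xf z / Λ)) (deriv f (Xf y / Λ) * (-2 * y / Λ)) y :=
    (hf (Xf y / Λ)).hasDerivAt.comp y h1
  rw [tt_eq_Xf, h2.deriv]
  ring

theorem ld_tt_uV_Actu (hδ : 0 < δ) {A : Fin 3 → ℝ → ℝ} (hA : ∀ l, CcB δ K (A l)) (ht : t < 0)
    (hK : K * (-t) ≤ 39 / 400) (j : Fin 3) (y : ℝ) :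
    tt (uV (slT (Actu A) t) j) y = psi1 y * (y * (2 * (Xf y / (-t)) * deriv (A j) (Xf y / (-t)))) / (-t) := by
  have hfun : uV (slT (Actu A) t) j = fun z => psi1 z * ((-t)⁻¹ * A j (Xf z / (-t))) := by
    funext z
    rw [ld_uV_Actu hδ hA ht j z]
    ring
  have hAd : Differentiable ℝ (A j) := (hA j).smooth.differentiable (by simp)
  have hpd : Differentiable ℝ psi1 := psi1_contDiff.differentiable (by simp)
  have hXd : Differentiable ℝ (fun z => Xf z / (-t)) := fun z => ((hasDerivAt_Xf z).div_const (-t)).differentiableAt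
  have hcd : DifferentiableAt ℝ (fun z => A j (Xf z / (-t))) y := (hAd _).comp y (hXd y)
  rw [hfun, tt_mul (hpd y) (hcd.const_mul _), tt_const_mul _ hcd, ld_tt_comp hAd]
  have hkey : tt psi1 y * ((-t)⁻¹ * A j (Xf y / (-t))) = 0 := by
    by_cases hA0 : A j (Xf y / (-t)) = 0
    · rw [hA0]; ring
    · have hΛ : 0 < -t := by linarith
      have h2 : Xf y / (-t) < K := by
        by_contra hcon
        exact hA0 ((hA j).supp _ (Or.inr (not_lt.1 hcon)))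
      have h3 : Xf y < 39 / 400 := lt_of_lt_of_le ((div_lt_iff₀ hΛ).1 h2) hK
      have h4 : 361 / 400 < y ^ 2 := by unfold Xf at h3; linarith
      have hd : deriv psi1 y = 0 := by
        rcases le_or_gt 0 y with hy | hy
        · have hy' : 19 / 20 < y := by nlinarith
          have he : psi1 =ᶠ[𝓝 y] fun _ => (1 : ℝ) := by
            filter_upwards [lt_mem_nhds hy'] with z hz
            exact psi1_eq_one hz.le
          rw [he.deriv_eq]; simp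
        · have he : psi1 =ᶠ[𝓝 y] fun _ => (0 : ℝ) := by
            filter_upwards [gt_mem_nhds hy] with z hz
            exact psi1_eq_zero (by linarith)
          rw [he.deriv_eq]; simp
      rw [tt_apply, hd]; ring
  rw [hkey]
  ring

/-- `O_c[u] = ∫_0^K Σ_l c_l(Y) û_l(Y) dY`. -/
theorem ld_Obs_scaled {c : Fin 3 → ℝ → ℝ} (hc : ∀ l, CcB δ K (c l)) (hK0 : 0 ≤ K) (ht : t < 0)
    (hK : K * (-t) ≤ 39 / 400) {u : Fin 3 → ℝ → ℝ} (hu : ∀ l, CI (u l)) :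
    Obs c t u = ∫ Y in (0 : ℝ)..K, ∑ l, c l Y * uV u l (yOf t Y) := by
  rw [ld_Obs_uV]
  have hcc : ∀ l, Continuous (c l) := fun l => (hc l).smooth.continuous
  have huV : ∀ l, CI (uV u l) := by
    intro l
    have : uV u l = fun y => xJ l y * u l y := by funext y; exact uV_eq_xJ u l y
    rw [this]
    exact (xJ_continuous l).continuousOn.mul (hu l)
  have hsub : Icc (19 / 20 : ℝ) 1 ⊆ Icc (-1 : ℝ) 1 := Icc_subset_Icc (by norm_num) le_rfl
  have hL : ∀ l, IntervalIntegrable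
      (fun ξ => psi1 ξ * (2 * ξ / (-t)) * c l (Xf ξ / (-t)) * uV u l ξ) volume (-1) 1 := by
    intro l
    refine ContinuousOn.intervalIntegrable ?_
    rw [uIcc_of_le (by norm_num : (-1 : ℝ) ≤ 1)]
    have h1 : Continuous psi1 := psi1_contDiff.continuous
    have h4 : Continuous (fun ξ : ℝ => c l (Xf ξ / (-t))) := (hcc l).comp (pr_continuous_Xf.div_const _)
    have h5 : Continuous (fun ξ : ℝ => 2 * ξ / (-t)) := (continuous_const.mul continuous_id).div_const _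
    exact ((h1.mul h5).mul h4).continuousOn.mul (huV l)
  have hR : ∀ l, IntervalIntegrable (fun Y => c l Y * uV u l (yOf t Y)) volume 0 K := by
    intro l
    refine ContinuousOn.intervalIntegrable ?_
    rw [uIcc_of_le hK0]
    refine (hcc l).continuousOn.mul ?_
    refine (huV l).comp (ld_yOf_continuous t).continuousOn ?_
    intro Y hY
    refine hsub (ld_yOf_mem ht hY.1 ?_)
    have hΛ : 0 < -t := by linarith
    calc (-t) * Y ≤ (-t) * K := mul_le_mul_of_nonneg_left hY.2 hΛ.le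
      _ = K * (-t) := mul_comm _ _
      _ ≤ 39 / 400 := hK
  rw [intervalIntegral.integral_finsetSum (fun l _ => hR l)]
  have h1 : ∀ ξ : ℝ, psi1 ξ * (2 * ξ / (-t)) * ∑ l, c l (Xf ξ / (-t)) * uV u l ξ
      = ∑ l, psi1 ξ * (2 * ξ / (-t)) * c l (Xf ξ / (-t)) * uV u l ξ := by
    intro ξ
    rw [Finset.mul_sum]
    refine Finset.sum_congr rfl fun l _ => ?_
    ring
  simp only [h1]
  rw [intervalIntegral.integral_finsetSum (fun l _ => hL l)]
  refine Finset.sum_congr rfl fun l _ => ?_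
  exact ld_core_int (hcc l) (fun Y hY => (hc l).supp Y (Or.inr hY)) hK0 ht hK ((huV l).mono hsub)

/-- `Λ O_c[Ac] = ∫ c · A dY`. -/
theorem ld_pair_scaled (hδ : 0 < δ) {c A : Fin 3 → ℝ → ℝ} (hc : ∀ l, CcB δ K (c l)) (hA : ∀ l, CcB δ K (A l))
    (hK0 : 0 ≤ K) (ht : t < 0) (hK : K * (-t) ≤ 39 / 400) :
    (-t) * Obs c t (slT (Actu A) t) = pairY K c A := by
  have hΛ : 0 < -t := by linarith
  have hu : ∀ l, CI (slT (Actu A) t l) := fun l =>
    ((ld_Actu_smooth hδ hA l).sl ht).continuous.continuousOn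
  rw [ld_Obs_scaled hc hK0 ht hK hu, ← intervalIntegral.integral_const_mul]
  unfold pairY
  refine intervalIntegral.integral_congr fun Y hY => ?_
  rw [uIcc_of_le hK0] at hY
  have hYK : (-t) * Y ≤ 39 / 400 := by
    calc (-t) * Y ≤ (-t) * K := mul_le_mul_of_nonneg_left hY.2 hΛ.le
      _ = K * (-t) := mul_comm _ _
      _ ≤ 39 / 400 := hK
  have hm := ld_yOf_mem ht hY.1 hYK
  show (-t) * ∑ l, c l Y * uV (slT (Actu A) t) l (yOf t Y) = ∑ l, c l Y * A l Y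
  rw [Finset.mul_sum]
  refine Finset.sum_congr rfl fun l _ => ?_
  rw [ld_uV_Actu hδ hA ht l, psi1_eq_one hm.1, ld_Xf_yOf (by linarith), mul_div_cancel_left₀ _ hΛ.ne', one_mul,
    mul_left_comm, mul_div_cancel₀ _ hΛ.ne']

end

end Claimed.Agent.R324.Core
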