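/-
Row 324 (S0582), PDE core, module LD (`linear_solve`), architect helper217.   Blueprint 7.4 (origin/helper232:docs/R324_blueprint.md).   PORT of R325/Core/LD (packed in Claimed/Agent/R325/Pk37..Pk48.lean).      FILE LD/CoerS
   Λ = -t,  X = Xf y = 1 - y²,  Y = X/Λ,  τ = tauOf t = -log Λ;   u-form of a slice u = (σ, h₃, b):  uV u = (σ, h₃, X b);   κ = kapJ q;   𝕀 = II  (Core/W/Ibp.lean);   definitions of this module: Core/LD/Defs.lean.
STATIC LAYER 5:  the pointwise heavy coercivity `CoerH` (Core/Bgd.lean) integrated:  a bound of the quadratic form `QH` of the energy identity.       `V = wH a M q t`,  `g'` = any smooth background with `CoefB` (applied to `bgR q g`).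
   `cutG δ K` = continuous cut-off, `= 1` on `[δ,K]`, `= 0` outside `(δ/2, 2K)`, values in `[0,1]`.
* `cutG_*`:  unfold `cutG`;  `Continuous.max`, `.min`, `fun_prop`;   `le_max_left`, `max_le`, `min_le_left`;   `2Y/δ - 1 ≥ 1 ⟺ Y ≥ δ`, `2 - Y/K ≥ 1 ⟺ Y ≤ K` (`div_le_iff₀`, `le_div_iff₀`), `max_eq_right`, `min_eq_left`.
* `ld_coerH_static`.   `(δ₀, K₀, Kh', Λ_h)` from `hco`;   `Kh := max Kh' 0`,  `Λ₁ := min Λ_h (min Λc (39/(800 K₀)))`.       Fix `t`, `u`;  `ξ := fun i => uV u i y`, `nk q ξ = n2 q u y` (`n2_eq_nk`);   `dT (fun p => wH a M q p.1 p.2) (t,y) = deriv (fun s => wH a M q s y) t` by `rfl`.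
   POINTWISE on `[-1,1]`:      `(X ∂_t V + 2 zzF) n2 + 2 V quadM(ξ) ≤ (ν-30) (X/Λ) V n2 - (q/4) V n2 + Kh ψ₁(y) cutG(X/Λ) (X/Λ) V n2`:
       if `0 < y ∧ δ₀Λ ≤ X ∧ X ≤ K₀Λ`:  `ψ₁ y = 1` (`ld_core_y`, `psi1_eq_one`), `cutG = 1`, `Kh' ≤ Kh`;   otherwise the last term is `≥ 0` (`psi1_nonneg`, `cutG_mem`, `w0_Xf_nonneg`, `w0_wH_pos`, `n2_nonneg`).
   Integrate (`ii_mono`, `ii_add`, `ii_sub`, `ii_const_mul`).    All integrands are continuous on `[-1,1]`:  this is the same verification as in the proof of `ld0_coer` (Core/LD0/Coer.lean, PROVED: copy it; there the weight is `wL`; here `smS_wH a M q`, `SmS.dT`, `SmS.smI`, `SmI.continuousOn`, `SmI.ttp` for `zzF`, `ci_n2`, `ci_n2t`);   `cutG(X/Λ)`, `ψ₁`: `cutG_continuous`, `psi1_contDiff.continuous`, `pr_continuous_Xf`.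
   `𝕀[(X/Λ) V n2] = En/Λ`;     `-2 𝕀[V Z n2t] ≤ -(2/C) 𝕀[V n2t]` (`hc.Zlow`);     `min (1/4) (2/C) Di ≤ (2/C) 𝕀[V n2t] + (q/4) 𝕀[V n2]`   (`Di = 𝕀[V n2t] + q 𝕀[V n2]`, both `≥ 0`).
-/
import Claimed.Agent.R324.Core.LD.ActId

set_option autoImplicit false

namespace Claimed.Agent.R324.Core

open Set Filter Topology MeasureTheory
open scoped ContDiff

noncomputable section

/-- continuous cut-off. -/
def cutG (δ K Y : ℝ) : ℝ := max 0 (min 1 (min (2 * Y / δ - 1) (2 - Y / K)))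

/-- hygiene. -/
theorem core_ld_coers_hygiene : True := by
  have := @cutG.eq_1
  trivial

variable {δ K Y q : ℝ}

theorem cutG_continuous (δ K : ℝ) : Continuous (cutG δ K) := by
  unfold cutG
  fun_prop

theorem cutG_mem (δ K Y : ℝ) : 0 ≤ cutG δ K Y ∧ cutG δ K Y ≤ 1 := by
  unfold cutG
  exact ⟨le_max_left _ _, max_le zero_le_one (min_le_left _ _)⟩

theorem cutG_one (hδ : 0 < δ) (hK : 0 < K) (h1 : δ ≤ Y) (h2 : Y ≤ K) : cutG δ K Y = 1 := by
  unfold cutG
  have h3 : 1 ≤ 2 * Y / δ - 1 := by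
    have : 2 ≤ 2 * Y / δ := by
      rw [le_div_iff₀ hδ]
      linarith
    linarith
  have h4 : 1 ≤ 2 - Y / K := by
    have : Y / K ≤ 1 := by
      rw [div_le_iff₀ hK]
      linarith
    linarith
  rw [min_eq_left (le_min h3 h4)]
  exact max_eq_right zero_le_one

theorem cutG_zero (hδ : 0 < δ) (hK : 0 < K) (h : Y ≤ δ / 2 ∨ 2 * K ≤ Y) : cutG δ K Y = 0 := by
  unfold cutG
  apply max_eq_left
  rcases h with h | h
  · have : 2 * Y / δ ≤ 1 := by
      rw [div_le_iff₀ hδ]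
      linarith
    exact (min_le_right _ _).trans ((min_le_left _ _).trans (by linarith))
  · have : 2 ≤ Y / K := by
      rw [le_div_iff₀ hK]
      linarith
    exact (min_le_right _ _).trans ((min_le_right _ _).trans (by linarith))

/-- **`CoerH`, integrated.** -/
theorem ld_coerH_static (hq : 100 ≤ q) {g' : Bg} (hs : BgSm g') {Λc C : ℝ} (hC : 0 < C) (hΛc : 0 < Λc)
    (hc : CoefB q g' Λc C) (a M : ℕ) (ν : ℝ) (hco : CoerH q g' a M ν) :
    ∃ δ₀ K₀ Kh Λ₁ : ℝ, 0 < δ₀ ∧ δ₀ < K₀ ∧ 0 ≤ Kh ∧ 0 < Λ₁ ∧ Λ₁ ≤ Λc ∧ 2 * K₀ * Λ₁ ≤ 39 / 400 ∧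
      ∀ t ∈ Ico (-Λ₁) 0, ∀ u : Fin 3 → ℝ → ℝ, (∀ j, SmI (u j)) →
        QH q g' a M t u - ν / (-t) * En q (wH a M q t) u + min (1 / 4) (2 / C) * Di q (wH a M q t) u
            + 30 / (-t) * En q (wH a M q t) u
          ≤ Kh * II (fun y => psi1 y * cutG δ₀ K₀ (Xf y / (-t)) * (Xf y / (-t) * wH a M q t y * n2 q u y)) := by
  obtain ⟨δ₀, K₀, Kh', Λh, hδ₀, hδ1, hK1, hΛh, Hp⟩ := hco
  have hK0 : 0 < K₀ := by linarith
  have hΛ3 : 0 < 39 / (800 * K₀) := by positivity
  refine ⟨δ₀, K₀, max Kh' 0, min Λh (min Λc (39 / (800 * K₀))), hδ₀, by linarith, le_max_right _ _,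
    lt_min hΛh (lt_min hΛc hΛ3), (min_le_right _ _).trans (min_le_left _ _), ?_, ?_⟩
  · have h1 : min Λh (min Λc (39 / (800 * K₀))) ≤ 39 / (800 * K₀) :=
      (min_le_right _ _).trans (min_le_right _ _)
    have h2 : 2 * K₀ * (39 / (800 * K₀)) = 39 / 400 := by
      field_simp
      norm_num
    calc 2 * K₀ * min Λh (min Λc (39 / (800 * K₀))) ≤ 2 * K₀ * (39 / (800 * K₀)) :=
          mul_le_mul_of_nonneg_left h1 (by positivity)
      _ = 39 / 400 := h2
  intro t ht u hu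
  have ht0 : t < 0 := ht.2
  have hL0 : 0 < -t := by linarith
  have htΛc : t ∈ Ico (-Λc) 0 :=
    ⟨by linarith [ht.1, (min_le_right Λh (min Λc (39 / (800 * K₀)))).trans (min_le_left _ _)], ht0⟩
  have htΛh : t ∈ Ico (-Λh) 0 := ⟨by linarith [ht.1, min_le_left Λh (min Λc (39 / (800 * K₀)))], ht0⟩
  have htK : K₀ * (-t) ≤ 39 / 400 := by
    have h1 : -t ≤ 39 / (800 * K₀) := by
      linarith [ht.1, (min_le_right Λh (min Λc (39 / (800 * K₀)))).trans (min_le_right _ _)]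
    have h2 : K₀ * (39 / (800 * K₀)) = 39 / 800 := by
      field_simp
    have h3 : K₀ * (-t) ≤ K₀ * (39 / (800 * K₀)) := mul_le_mul_of_nonneg_left h1 hK0.le
    linarith
  have hq0 : 0 < q := by linarith
  have hq1 : 1 < q := by linarith
  have hV : SmS (fun p => wH a M q p.1 p.2) := smS_wH a M q
  have hom : SmI (wH a M q t) := hV.smI ht0
  have hA : SmI (fun z => wH a M q t z * g'.bh q (t, z)) := hom.mul ((hs.smbh q).smI ht0)
  have hB : SmI (fun z => wH a M q t z * g'.Z (t, z)) := hom.mul (hs.smZ.smI ht0)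
  have hZ : SmI (zzF q g' (wH a M q t) t) := (hB.ttp.ttp.const_mul (1 / 2)).sub (hA.ttp.const_mul (1 / 2))
  have c1 : CI (fun y => (Xf y * dT (fun p => wH a M q p.1 p.2) (t, y) + 2 * zzF q g' (wH a M q t) t y)
      * n2 q u y) :=
    ((smI_Xf.mul (hV.dT.smI ht0)).add (hZ.const_mul 2)).continuousOn.mul (ci_n2 hu)
  have c2 : CI (fun y => wH a M q t y * quadM q g' (t, y) (fun i => uV u i y)) :=
    (hom.mul (w2fb_smI_bilM hs ht0 (smI_uV hu) (smI_uV hu))).continuousOn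
  have c3 : CI (fun y => wH a M q t y * g'.Z (t, y) * n2t q u y) := hB.continuousOn.mul (ci_n2t hu)
  have c4 : CI (fun y => wH a M q t y * (n2t q u y + q * n2 q u y)) :=
    hom.continuousOn.mul ((ci_n2t hu).add (continuousOn_const.mul (ci_n2 hu)))
  have c5 : CI (fun y => (1 - y ^ 2) * wH a M q t y * n2 q u y) :=
    (smI_Xf.mul hom).continuousOn.mul (ci_n2 hu)
  have cY : Continuous (fun y => Xf y / (-t)) := pr_continuous_Xf.div_const _
  have c6 : CI (fun y => psi1 y * cutG δ₀ K₀ (Xf y / (-t)) * (Xf y / (-t) * wH a M q t y * n2 q u y)) :=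
    ((psi1_contDiff.continuous.mul ((cutG_continuous δ₀ K₀).comp cY)).continuousOn).mul
      ((cY.continuousOn.mul hom.continuousOn).mul (ci_n2 hu))
  have lin : ∀ (α β : ℝ) (f1 f2 f3 f4 f5 : ℝ → ℝ), CI f1 → CI f2 → CI f3 → CI f4 → CI f5 →
      II (fun y => f1 y + 2 * f2 y - 2 * f3 y + α * f4 y + β * f5 y)
        = II f1 + 2 * II f2 - 2 * II f3 + α * II f4 + β * II f5 := by
    intro α β f1 f2 f3 f4 f5 h1 h2 h3 h4 h5
    have k2 : CI (fun y => 2 * f2 y) := continuousOn_const.mul h2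
    have k3 : CI (fun y => 2 * f3 y) := continuousOn_const.mul h3
    have k4 : CI (fun y => α * f4 y) := continuousOn_const.mul h4
    have k5 : CI (fun y => β * f5 y) := continuousOn_const.mul h5
    have s1 : CI (fun y => f1 y + 2 * f2 y) := h1.add k2
    have s2 : CI (fun y => f1 y + 2 * f2 y - 2 * f3 y) := s1.sub k3
    have s3 : CI (fun y => f1 y + 2 * f2 y - 2 * f3 y + α * f4 y) := s2.add k4
    rw [ii_add s3 k5, ii_add s2 k4, ii_sub s1 k3,
      ii_add h1 k2, ii_const_mul, ii_const_mul, ii_const_mul, ii_const_mul]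
  have hlin := lin (min (1 / 4) (2 / C)) (-(ν - 30) / (-t)) _ _ _ _ _ c1 c2 c3 c4 c5
  have hmono := ii_mono (f := fun y => (Xf y * dT (fun p => wH a M q p.1 p.2) (t, y) + 2 * zzF q g' (wH a M q t) t y)
        * n2 q u y
      + 2 * (wH a M q t y * quadM q g' (t, y) (fun i => uV u i y))
      - 2 * (wH a M q t y * g'.Z (t, y) * n2t q u y)
      + min (1 / 4) (2 / C) * (wH a M q t y * (n2t q u y + q * n2 q u y))
      + (-(ν - 30) / (-t)) * ((1 - y ^ 2) * wH a M q t y * n2 q u y))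
    (g := fun y => max Kh' 0 * (psi1 y * cutG δ₀ K₀ (Xf y / (-t)) * (Xf y / (-t) * wH a M q t y * n2 q u y)))
    ((((c1.add (continuousOn_const.mul c2)).sub (continuousOn_const.mul c3)).add (continuousOn_const.mul c4)).add
      (continuousOn_const.mul c5)) (continuousOn_const.mul c6) (by
    intro y hy
    have hp := Hp t htΛh y hy (fun i => uV u i y)
    rw [← n2_eq_nk] at hp
    have hVpos : 0 < wH a M q t y := w0_wH_pos hq1 ht0 hy
    have hN : 0 ≤ n2 q u y := n2_nonneg hq0 _ y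
    have hNt : 0 ≤ n2t q u y := n2t_nonneg hq0 _ y
    have hX : 0 ≤ Xf y := w0_Xf_nonneg hy
    have hY : 0 ≤ Xf y / (-t) := div_nonneg hX hL0.le
    have hZl : 1 / C ≤ g'.Z (t, y) := hc.Zlow t htΛc y hy
    have hcm1 : min (1 / 4) (2 / C) ≤ 1 / 4 := min_le_left _ _
    have hcm2 : min (1 / 4) (2 / C) ≤ 2 * g'.Z (t, y) := by
      have : 2 / C = 2 * (1 / C) := by ring
      linarith [min_le_right (1 / 4 : ℝ) (2 / C)]
    have hdT : dT (fun p => wH a M q p.1 p.2) (t, y) = deriv (fun s => wH a M q s y) t := rfl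
    have hXf : (1 - y ^ 2) = Xf y := rfl
    have hite : (if 0 < y ∧ δ₀ * (-t) ≤ Xf y ∧ Xf y ≤ K₀ * (-t)
          then Kh' * (Xf y / (-t)) * wH a M q t y * n2 q u y else 0)
        ≤ max Kh' 0 * (psi1 y * cutG δ₀ K₀ (Xf y / (-t)) * (Xf y / (-t) * wH a M q t y * n2 q u y)) := by
      split_ifs with hcond
      · obtain ⟨hy0, hc1, hc2⟩ := hcond
        have hps : psi1 y = 1 := psi1_eq_one (ld_core_y htK hy0.le hc2)
        have hcu : cutG δ₀ K₀ (Xf y / (-t)) = 1 :=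
          cutG_one hδ₀ hK0 ((le_div_iff₀ hL0).2 hc1) ((div_le_iff₀ hL0).2 hc2)
        rw [hps, hcu]
        have : Kh' * (Xf y / (-t) * wH a M q t y * n2 q u y)
            ≤ max Kh' 0 * (Xf y / (-t) * wH a M q t y * n2 q u y) :=
          mul_le_mul_of_nonneg_right (le_max_left _ _) (by positivity)
        linarith
      · have h1 := psi1_nonneg y
        have h2 := (cutG_mem δ₀ K₀ (Xf y / (-t))).1
        have h3 : (0 : ℝ) ≤ max Kh' 0 := le_max_right _ _
        positivity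
    have hβ : (-(ν - 30) / (-t)) * (Xf y * wH a M q t y * n2 q u y)
        = -((ν - 30) * (Xf y / (-t)) * wH a M q t y * n2 q u y) := by ring
    rw [hdT, hXf, hβ]
    refine le_trans ?_ hite
    generalize (if 0 < y ∧ δ₀ * (-t) ≤ Xf y ∧ Xf y ≤ K₀ * (-t)
          then Kh' * (Xf y / (-t)) * wH a M q t y * n2 q u y else 0) = IT at *
    generalize deriv (fun s => wH a M q s y) t = dV at *
    generalize zzF q g' (wH a M q t) t y = zz at *
    generalize quadM q g' (t, y) (fun i => uV u i y) = Qd at *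
    generalize n2 q u y = N at *
    generalize n2t q u y = Nt at *
    generalize wH a M q t y = Vy at *
    generalize g'.Z (t, y) = Zy at *
    generalize Xf y / (-t) = Yy at *
    generalize Xf y = Xy at *
    generalize min (1 / 4) (2 / C) = cm at *
    have h1 : cm * (Vy * Nt) ≤ 2 * Zy * (Vy * Nt) := mul_le_mul_of_nonneg_right hcm2 (by positivity)
    have h2 : cm * (q * (Vy * N)) ≤ 1 / 4 * (q * (Vy * N)) := mul_le_mul_of_nonneg_right hcm1 (by positivity)
    nlinarith [h1, h2, hp])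
  rw [hlin, ii_const_mul] at hmono
  have hDi : Di q (wH a M q t) u = II (fun y => wH a M q t y * (n2t q u y + q * n2 q u y)) := rfl
  have hEn : En q (wH a M q t) u = II (fun y => (1 - y ^ 2) * wH a M q t y * n2 q u y) := rfl
  have hQH : QH q g' a M t u
      = II (fun y => (Xf y * dT (fun p => wH a M q p.1 p.2) (t, y) + 2 * zzF q g' (wH a M q t) t y) * n2 q u y)
        + 2 * II (fun y => wH a M q t y * quadM q g' (t, y) (fun i => uV u i y))
        - 2 * II (fun y => wH a M q t y * g'.Z (t, y) * n2t q u y) := rfl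
  rw [hDi, hEn, hQH]
  have e : (-(ν - 30) / (-t)) * II (fun y => (1 - y ^ 2) * wH a M q t y * n2 q u y)
      = -(ν / (-t) * II (fun y => (1 - y ^ 2) * wH a M q t y * n2 q u y))
        + 30 / (-t) * II (fun y => (1 - y ^ 2) * wH a M q t y * n2 q u y) := by ring
  rw [e] at hmono
  linarith [hmono]

end

end Claimed.Agent.R324.Core
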