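/-
Row 324 (S0582), PDE core, module LD (`linear_solve`), architect helper217.   Blueprint 7.4 (origin/helper232:docs/R324_blueprint.md).   PORT of R325/Core/LD (packed in Claimed/Agent/R325/Pk37..Pk48.lean).      FILE LD/CoreE
   Λ = -t,  X = Xf y = 1 - y²,  Y = X/Λ,  τ = tauOf t = -log Λ;   u-form of a slice u = (σ, h₃, b):  uV u = (σ, h₃, X b);   κ = kapJ q;   𝕀 = II  (Core/W/Ibp.lean);   definitions of this module: Core/LD/Defs.lean.
STATIC LAYER 3: the heavy weight B and the energies in the core `δΛ ≤ X ≤ KΛ`, `y ≥ 19/20`, in the variable `Y`.        `V = wH 3 52 q t = r̂⁶/Θ⁵²`,  `ν = 95/2`,   `û(Y) = u(yOf t Y)`.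
* `ld_ell2_le_sq`:  as `w0_ell2_le` (Core/W/WtB.lean):  `ℓ² = (q-1)/100 Λ^{2γ}`, `2γ = 16/α ≥ 2` (`bAl_bounds`: `α < 3`), `Λ ≤ 1` ⟹ `Λ^{2γ} ≤ Λ²` (`Real.rpow_le_rpow_of_exponent_ge`, `Real.rpow_natCast`).
* `ld_wH_core_lower`, `_upper`:  `y ≥ 1/2` ⟹ `Xt y = Xf y` (`Xt_eq`);   `r̂² = ℓ² + X`, `Θ = Λ + X`;   `dΛ ≤ X ≤ r̂² ≤ Λ + DΛ` (`w0_ell2_pos`, `w0_ell2_le`), `Λ ≤ Θ ≤ (1+D)Λ`;   unfold `wH`; `div_le_div`, `pow_le_pow_left₀`.
* `ld_core_En`.   `En q V u = 𝕀[X V n2] = ∫_{-1}^1 √X V n2 dξ` (`ld_int_eq_ii` with `F = √X V n2`; `√X √X = X` on `[-1,1]`).     `∫_δ^K n2(û) dY = ∫_{y_K}^{y_δ} (2ξ/Λ) n2 dξ` (`ld_subst`, `y_K = yOf t K ≥ 19/20`, `y_δ = yOf t δ ≤ 1`).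
     For `ξ ∈ [y_K,y_δ]`:  `δΛ ≤ X(ξ) ≤ KΛ`  (`ξ² ∈ [1-KΛ, 1-δΛ]`),  so `√X V ≥ √(δΛ) (δΛ)³/((1+K)Λ)⁵² = δ^{7/2} (1+K)^{-52} Λ^{-97/2}`  and   `2ξ/Λ ≤ 2/Λ ≤ C Λ^{95/2} √X V`,  `C = 2 (1+K)⁵²/(δ³ √δ)`   (`Λ^{95/2} = Λ⁴⁷ √Λ`: `Real.rpow_natCast`, `Real.sqrt_eq_rpow`, `Real.rpow_add`).
     `intervalIntegral.integral_mono_on`, then `integral_mono_interval` (`[y_K,y_δ] ⊆ [-1,1]`, integrand `≥ 0`).
* `ld_core_Dt`:  the same with `ld_ii_ge` (`f = V n2t`, `a = y_K`, `b = y_δ < 1`):   `V/√X ≥ (δΛ)³/((1+K)Λ)⁵²/√(KΛ)`,   `2ξ/Λ ≤ C Λ^{97/2} V/√X`,  `C = 2 (1+K)⁵² √K/δ³`.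
* `ld_core_up`:  `ld_core_ii` with `F = (X/Λ) V n2`:   `= ∫_0^K G(Y) Y V̂ n2(û) √Λ/(2 √Y yOf) dY`  (`X(yOf t Y)/Λ = Y`),  the integrand vanishes on `[0,δ]`;  on `[δ,K]`:  `G ≤ 1`, `V̂ ≤ ((1+K)Λ)³/Λ⁵²`, `Y/√Y = √Y ≤ √K`, `yOf ≥ 19/20`:     `Λ^{95/2} · (1+K)³ Λ^{-49} √K √Λ/(2·19/20) = C/Λ`.
* `ld_core_meas`:  `ld_core_ii` with `F = 1`:  `∫_δ^K G √Λ/(2 √Y yOf) ≤ (K-δ) M √Λ/(2 √δ (19/20)) ≤ M K √Λ/√δ`.
* `ld_EEB_Actu`:  `n2 q (slT (Actu A) t) y = Σ_l κ_l (ψ₁ A_l(X/Λ)/Λ)²` (`n2_eq_nk`, `ld_uV_Actu`) `≤ ψ₁ G(X/Λ)/Λ²`, `G = Σ κ_l A_l²` (`ψ₁² ≤ ψ₁`);   where `ψ₁ G(X/Λ) ≠ 0`: `X V ≤ KΛ ((1+K)Λ)³/Λ⁵²` (`ld_psi1_core`, `ld_wH_core_upper`);   `ii_mono`, `ld_core_meas` (`M` = bound of `G`: `CcB.bdd`):     `Λ^{95/2} · K (1+K)³ Λ^{-48} Λ^{-2} M K √Λ/√δ = C/Λ²`.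
-/
import Claimed.Agent.R324.Core.LD.ActId

set_option autoImplicit false

namespace Claimed.Agent.R324.Core

open Set Filter Topology MeasureTheory
open scoped ContDiff

noncomputable section

variable {q δ K t y : ℝ}

theorem ld_ell2_le_sq (hq : 100 ≤ q) (ht : t < 0) (hΛ : -t ≤ 1) : ell2 q t ≤ q / 100 * (-t) ^ 2 := by
  obtain ⟨ha2, ha3⟩ := bAl_bounds hq
  have hL0 : 0 < -t := by linarith
  have hg : (2 : ℝ) ≤ 2 * gaF q := by
    have : 1 ≤ 8 / bAl q := by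
      rw [le_div_iff₀ (by linarith)]
      linarith
    show (2 : ℝ) ≤ 2 * (8 / bAl q)
    linarith
  have h1 : (-t) ^ (2 * gaF q) ≤ (-t) ^ (2 : ℝ) := Real.rpow_le_rpow_of_exponent_ge hL0 hΛ hg
  have h2 : (-t) ^ (2 : ℝ) = (-t) ^ 2 := by
    rw [← Real.rpow_natCast]
    norm_num
  rw [h2] at h1
  have h5 : 0 ≤ (q - 1) / 100 := by linarith
  have h6 : (0:ℝ) ≤ (-t) ^ 2 := sq_nonneg _
  have h7 : ell2 q t ≤ (q - 1) / 100 * (-t) ^ 2 := by
    show (q - 1) / 100 * (-t) ^ (2 * gaF q) ≤ _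
    exact mul_le_mul_of_nonneg_left h1 h5
  nlinarith

theorem ld_wH_core_lower (hq : 1 < q) (a M : ℕ) {d D : ℝ} (hd : 0 ≤ d) (ht : t < 0) (hy : y ∈ Icc (19 / 20 : ℝ) 1)
    (h1 : d * (-t) ≤ Xf y) (h2 : Xf y ≤ D * (-t)) :
    (d * (-t)) ^ a / ((1 + D) * (-t)) ^ M ≤ wH a M q t y := by
  have hL : 0 < -t := by linarith
  have hXt : Xt y = Xf y := Xt_eq (by linarith [hy.1])
  have hl := w0_ell2_pos hq ht
  have hX0 : 0 ≤ Xf y := le_trans (by positivity) h1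
  have hr : d * (-t) ≤ rh2 q t y := by
    show d * (-t) ≤ ell2 q t + Xt y
    rw [hXt]; linarith
  have hT : Th t y ≤ (1 + D) * (-t) := by
    show -t + Xt y ≤ _
    rw [hXt]; linarith
  have hT0 : 0 < Th t y := by
    show 0 < -t + Xt y
    rw [hXt]; linarith
  show _ ≤ (rh2 q t y) ^ a / (Th t y) ^ M
  exact div_le_div₀ (pow_nonneg (le_trans (by positivity) hr) a) (pow_le_pow_left₀ (by positivity) hr a)
    (pow_pos hT0 M) (pow_le_pow_left₀ hT0.le hT M)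

theorem ld_wH_core_upper (hq : 100 ≤ q) (a M : ℕ) {D : ℝ} (ht : t < 0) (hΛ : -t ≤ 100 / q)
    (hy : y ∈ Icc (19 / 20 : ℝ) 1) (h2 : Xf y ≤ D * (-t)) :
    wH a M q t y ≤ ((1 + D) * (-t)) ^ a / (-t) ^ M := by
  have hL : 0 < -t := by linarith
  have hXt : Xt y = Xf y := Xt_eq (by linarith [hy.1])
  have hl := w0_ell2_pos (by linarith : (1:ℝ) < q) ht
  have hl2 := w0_ell2_le hq ht hΛ
  have hX0 : 0 ≤ Xf y := by
    show 0 ≤ 1 - y ^ 2
    nlinarith [hy.1, hy.2]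
  have hr : rh2 q t y ≤ (1 + D) * (-t) := by
    show ell2 q t + Xt y ≤ _
    rw [hXt]; linarith
  have hr0 : 0 ≤ rh2 q t y := by
    show 0 ≤ ell2 q t + Xt y
    rw [hXt]; linarith
  have hT : -t ≤ Th t y := by
    show -t ≤ -t + Xt y
    rw [hXt]; linarith
  show (rh2 q t y) ^ a / (Th t y) ^ M ≤ _
  exact div_le_div₀ (pow_nonneg (le_trans hr0 hr) a) (pow_le_pow_left₀ hr0 hr a)
    (pow_pos hL M) (pow_le_pow_left₀ hL.le hT M)

theorem ld_coreE_int_cut {f : ℝ → ℝ} {a c b : ℝ} (hac : a ≤ c) (hcb : c ≤ b) (h0 : ∀ x, x ≤ c → f x = 0) :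
    ∫ x in a..b, f x = ∫ x in c..b, f x := by
  rw [intervalIntegral.integral_of_le (hac.trans hcb), intervalIntegral.integral_of_le hcb]
  apply setIntegral_eq_of_subset_of_forall_sdiff_eq_zero measurableSet_Ioc (Ioc_subset_Ioc_left hac)
  intro x hx
  apply h0
  by_contra h
  exact hx.2 ⟨lt_of_not_ge h, hx.1.2⟩

theorem ld_coreE_int_le {f g : ℝ → ℝ} {a b : ℝ} (hab : a ≤ b) (hg : IntervalIntegrable g volume a b)
    (hg0 : ∀ x ∈ Icc a b, 0 ≤ g x) (h : ∀ x ∈ Icc a b, f x ≤ g x) :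
    ∫ x in a..b, f x ≤ ∫ x in a..b, g x := by
  by_cases hf : IntervalIntegrable f volume a b
  · exact intervalIntegral.integral_mono_on hab hf hg h
  · rw [intervalIntegral.integral_undef hf]
    exact intervalIntegral.integral_nonneg hab hg0

theorem ld_coreE_ci_n2 {u : Fin 3 → ℝ → ℝ} (hu : ∀ l, CI (u l)) : CI (n2 q u) := by
  have h0 : ContinuousOn (u 0) (Icc (-1 : ℝ) 1) := hu 0
  have h1 : ContinuousOn (u 1) (Icc (-1 : ℝ) 1) := hu 1
  have h2 : ContinuousOn (u 2) (Icc (-1 : ℝ) 1) := hu 2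
  show ContinuousOn (fun y => (q + 1) * (u 0 y) ^ 2 + 2 * (u 1 y) ^ 2
    + q / (q + 1) * ((1 - y ^ 2) * u 2 y) ^ 2) (Icc (-1 : ℝ) 1)
  fun_prop

theorem ld_coreE_comp_yOf {f : ℝ → ℝ} (hf : CI f) (hδ : 0 ≤ δ) (ht : t < 0) (hK : K * (-t) ≤ 39 / 400) :
    ContinuousOn (fun Y => f (yOf t Y)) (Icc δ K) := by
  apply ContinuousOn.comp (t := Icc (-1 : ℝ) 1) hf (ld_yOf_continuous t).continuousOn
  intro Y hY
  have h := ld_yOf_mem ht (hδ.trans hY.1) (by nlinarith [hY.2] : (-t) * Y ≤ 39 / 400)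
  exact ⟨by linarith [h.1], h.2⟩

theorem ld_coreE_rpow95 {L : ℝ} (hL : 0 < L) : L ^ (95 / 2 : ℝ) = L ^ 47 * Real.sqrt L := by
  rw [Real.sqrt_eq_rpow, ← Real.rpow_natCast, ← Real.rpow_add hL]
  norm_num

theorem ld_coreE_rpow97 {L : ℝ} (hL : 0 < L) : L ^ (97 / 2 : ℝ) = L ^ 48 * Real.sqrt L := by
  rw [Real.sqrt_eq_rpow, ← Real.rpow_natCast, ← Real.rpow_add hL]
  norm_num

theorem ld_coreE_mono_interval {f : ℝ → ℝ} {a b c d : ℝ} (hca : c ≤ a) (hab : a ≤ b) (hbd : b ≤ d)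
    (hf : ContinuousOn f (Icc c d)) (h0 : ∀ x ∈ Icc c d, 0 ≤ f x) :
    ∫ x in a..b, f x ≤ ∫ x in c..d, f x := by
  have hcd : c ≤ d := hca.trans (hab.trans hbd)
  apply intervalIntegral.integral_mono_interval hca hab hbd
  · rw [Filter.EventuallyLE, ae_restrict_iff' measurableSet_Ioc]
    exact Filter.Eventually.of_forall fun x hx => h0 x ⟨hx.1.le, hx.2⟩
  · exact ContinuousOn.intervalIntegrable (by rwa [uIcc_of_le hcd])

theorem ld_coreE_range (hδ : 0 ≤ δ) (hδK : δ ≤ K) (ht : t < 0) (hK : K * (-t) ≤ 39 / 400) {ξ : ℝ}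
    (hξ : ξ ∈ Icc (yOf t K) (yOf t δ)) :
    ξ ∈ Icc (19 / 20 : ℝ) 1 ∧ δ * (-t) ≤ Xf ξ ∧ Xf ξ ≤ K * (-t) := by
  have hL : 0 < -t := by linarith
  have hδL : (-t) * δ ≤ 39 / 400 := by nlinarith
  have hyK := ld_yOf_mem ht (hδ.trans hδK) (by linarith : (-t) * K ≤ 39 / 400)
  have hyd := ld_yOf_mem ht hδ hδL
  have hXK : 1 - (yOf t K) ^ 2 = (-t) * K := ld_Xf_yOf (by linarith)
  have hXd : 1 - (yOf t δ) ^ 2 = (-t) * δ := ld_Xf_yOf (by linarith)
  refine ⟨⟨hyK.1.trans hξ.1, hξ.2.trans hyd.2⟩, ?_, ?_⟩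
  · show δ * (-t) ≤ 1 - ξ ^ 2
    nlinarith [hξ.1, hξ.2, hyK.1, hyd.1]
  · show 1 - ξ ^ 2 ≤ K * (-t)
    nlinarith [hξ.1, hξ.2, hyK.1, hyd.1]

theorem ld_coreE_yOf_le (hδK : δ ≤ K) (ht : t < 0) : yOf t K ≤ yOf t δ := by
  show Real.sqrt (1 - (-t) * K) ≤ Real.sqrt (1 - (-t) * δ)
  apply Real.sqrt_le_sqrt
  nlinarith

/-- the heavy energy controls `∫_δ^K |û|² dY`. -/
theorem ld_core_En (hq : 100 ≤ q) (hδ : 0 < δ) (hδK : δ < K) : ∃ C : ℝ, 0 ≤ C ∧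
    ∀ t < 0, K * (-t) ≤ 39 / 400 → ∀ u : Fin 3 → ℝ → ℝ, (∀ l, CI (u l)) →
      ∫ Y in δ..K, n2 q u (yOf t Y) ≤ C * ((-t) ^ (95 / 2 : ℝ) * En q (wH 3 52 q t) u) := by
  have hK0 : 0 < K := by linarith
  have hsd : 0 < Real.sqrt δ := Real.sqrt_pos.2 hδ
  refine ⟨2 * (1 + K) ^ 52 / (δ ^ 3 * Real.sqrt δ), by positivity, ?_⟩
  intro t ht hK u hu
  have hL : 0 < -t := by linarith
  have hq0 : 0 < q := by linarith
  have hq1 : 1 < q := by linarith
  have hn2 : CI (n2 q u) := ld_coreE_ci_n2 hu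
  have hwH : CI (wH 3 52 q t) := ((smS_wH 3 52 q).smI ht).continuousOn
  have hsX : CI (fun y => Real.sqrt (Xf y)) := by
    show ContinuousOn (fun y => Real.sqrt (1 - y ^ 2)) (Icc (-1 : ℝ) 1)
    fun_prop
  have hF : CI (fun y => Real.sqrt (Xf y) * wH 3 52 q t y * n2 q u y) := (hsX.mul hwH).mul hn2
  have hF0 : ∀ y ∈ Icc (-1 : ℝ) 1, 0 ≤ Real.sqrt (Xf y) * wH 3 52 q t y * n2 q u y := by
    intro y hy
    have h1 := (w0_wH_pos (a := 3) (M := 52) hq1 ht hy).le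
    have h2 := n2_nonneg hq0 u y
    positivity
  have hEn : En q (wH 3 52 q t) u = ∫ ξ in (-1 : ℝ)..1, Real.sqrt (Xf ξ) * wH 3 52 q t ξ * n2 q u ξ := by
    rw [ld_int_eq_ii hF]
    apply ii_congr
    intro y hy
    have hX : 0 ≤ Xf y := w0_Xf_nonneg hy
    have : Real.sqrt (Xf y) * Real.sqrt (Xf y) = 1 - y ^ 2 := Real.mul_self_sqrt hX
    rw [← this]
    ring
  rw [hEn, ld_subst ht hδ.le hδK.le (by linarith) (hn2.mono (Icc_subset_Icc (by norm_num) le_rfl))]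
  set r := Real.sqrt (-t) with hr
  have hr0 : 0 < r := Real.sqrt_pos.2 hL
  have hrr : r * r = -t := Real.mul_self_sqrt hL.le
  set C := 2 * (1 + K) ^ 52 / (δ ^ 3 * Real.sqrt δ) with hC
  have hC0 : 0 ≤ C := by positivity
  have hyy := ld_coreE_yOf_le hδK.le ht
  have hyK := ld_yOf_mem ht hK0.le (by linarith : (-t) * K ≤ 39 / 400)
  have hyd := ld_yOf_mem ht hδ.le (by nlinarith : (-t) * δ ≤ 39 / 400)
  have hsub : Icc (yOf t K) (yOf t δ) ⊆ Icc (-1 : ℝ) 1 := Icc_subset_Icc (by linarith [hyK.1]) hyd.2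
  have h3 : ∫ ξ in (yOf t K)..(yOf t δ), 2 * ξ / (-t) * n2 q u ξ
      ≤ ∫ ξ in (yOf t K)..(yOf t δ), (C * (-t) ^ (95 / 2 : ℝ)) * (Real.sqrt (Xf ξ) * wH 3 52 q t ξ * n2 q u ξ) := by
    apply ld_coreE_int_le hyy
    · exact (ContinuousOn.intervalIntegrable (by rw [uIcc_of_le hyy]; exact hF.mono hsub)).const_mul _
    · intro ξ hξ
      have := hF0 ξ (hsub hξ)
      positivity
    · intro ξ hξ
      obtain ⟨hξI, hX1, hX2⟩ := ld_coreE_range hδ.le hδK.le ht hK hξ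
      have hV := ld_wH_core_lower (q := q) (t := t) (y := ξ) hq1 3 52 hδ.le ht hξI hX1 hX2
      have hN := n2_nonneg hq0 u ξ
      have hs : Real.sqrt δ * r ≤ Real.sqrt (Xf ξ) := by
        rw [hr, ← Real.sqrt_mul hδ.le]
        exact Real.sqrt_le_sqrt hX1
      have key : 2 * ξ / (-t) ≤ (C * (-t) ^ (95 / 2 : ℝ)) * (Real.sqrt (Xf ξ) * wH 3 52 q t ξ) := by
        have e1 : 2 / (-t) = (C * (-t) ^ (95 / 2 : ℝ)) * ((Real.sqrt δ * r) * ((δ * (-t)) ^ 3 / ((1 + K) * (-t)) ^ 52)) := by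
          rw [ld_coreE_rpow95 hL, ← hr, hC]
          have : 2 * (1 + K) ^ 52 / (δ ^ 3 * Real.sqrt δ) * ((-t) ^ 47 * r) * ((Real.sqrt δ * r) * ((δ * (-t)) ^ 3 / ((1 + K) * (-t)) ^ 52))
              = 2 * (1 + K) ^ 52 / (δ ^ 3 * Real.sqrt δ) * ((-t) ^ 47 * (r * r)) * (Real.sqrt δ * ((δ * (-t)) ^ 3 / ((1 + K) * (-t)) ^ 52)) := by ring
          rw [this, hrr]
          field_simp
        have e2 : 2 * ξ / (-t) ≤ 2 / (-t) := by
          apply div_le_div_of_nonneg_right _ hL.le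
          linarith [hξI.2]
        refine e2.trans ?_
        rw [e1]
        apply mul_le_mul_of_nonneg_left _ (by positivity)
        apply mul_le_mul hs hV (by positivity) (Real.sqrt_nonneg _)
      calc 2 * ξ / (-t) * n2 q u ξ ≤ (C * (-t) ^ (95 / 2 : ℝ)) * (Real.sqrt (Xf ξ) * wH 3 52 q t ξ) * n2 q u ξ :=
            mul_le_mul_of_nonneg_right key hN
        _ = _ := by ring
  rw [intervalIntegral.integral_const_mul] at h3
  refine h3.trans ?_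
  rw [← mul_assoc]
  apply mul_le_mul_of_nonneg_left _ (by positivity)
  exact ld_coreE_mono_interval (by linarith [hyK.1]) hyy hyd.2 hF hF0

/-- the heavy dissipation controls `∫_δ^K |tt u|²(yOf) dY`. -/
theorem ld_core_Dt (hq : 100 ≤ q) (hδ : 0 < δ) (hδK : δ < K) : ∃ C : ℝ, 0 ≤ C ∧
    ∀ t < 0, K * (-t) ≤ 39 / 400 → ∀ u : Fin 3 → ℝ → ℝ, (∀ l, SmI (u l)) →
      ∫ Y in δ..K, n2t q u (yOf t Y) ≤ C * ((-t) ^ (97 / 2 : ℝ) * II (fun y => wH 3 52 q t y * n2t q u y)) := by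
  have hK0 : 0 < K := by linarith
  have hsK : 0 < Real.sqrt K := Real.sqrt_pos.2 hK0
  refine ⟨2 * (1 + K) ^ 52 * Real.sqrt K / δ ^ 3, by positivity, ?_⟩
  intro t ht hK u hu
  have hL : 0 < -t := by linarith
  have hq0 : 0 < q := by linarith
  have hq1 : 1 < q := by linarith
  have hn2 : CI (n2t q u) := ci_n2t hu
  have hwH : CI (wH 3 52 q t) := ((smS_wH 3 52 q).smI ht).continuousOn
  have hsX : CI (fun y => Real.sqrt (Xf y)) := by
    show ContinuousOn (fun y => Real.sqrt (1 - y ^ 2)) (Icc (-1 : ℝ) 1)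
    fun_prop
  have hF : CI (fun y => wH 3 52 q t y * n2t q u y) := hwH.mul hn2
  have hF0 : ∀ y ∈ Icc (-1 : ℝ) 1, 0 ≤ wH 3 52 q t y * n2t q u y := by
    intro y hy
    have h1 := (w0_wH_pos (a := 3) (M := 52) hq1 ht hy).le
    have h2 := n2t_nonneg hq0 u y
    positivity
  rw [ld_subst ht hδ.le hδK.le (by linarith) (hn2.mono (Icc_subset_Icc (by norm_num) le_rfl))]
  set r := Real.sqrt (-t) with hr
  have hr0 : 0 < r := Real.sqrt_pos.2 hL
  have hrr : r * r = -t := Real.mul_self_sqrt hL.le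
  set C := 2 * (1 + K) ^ 52 * Real.sqrt K / δ ^ 3 with hC
  have hC0 : 0 ≤ C := by positivity
  have hyy := ld_coreE_yOf_le hδK.le ht
  have hyK := ld_yOf_mem ht hK0.le (by linarith : (-t) * K ≤ 39 / 400)
  have hyd := ld_yOf_mem ht hδ.le (by nlinarith : (-t) * δ ≤ 39 / 400)
  have hyd1 : yOf t δ < 1 := by
    have hXd : 1 - (yOf t δ) ^ 2 = (-t) * δ := ld_Xf_yOf (by nlinarith)
    have : 0 < (-t) * δ := by positivity
    nlinarith [hyd.1, hyd.2]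
  have hsub : Icc (yOf t K) (yOf t δ) ⊆ Icc (-1 : ℝ) 1 := Icc_subset_Icc (by linarith [hyK.1]) hyd.2
  have hXpos : ∀ ξ ∈ Icc (yOf t K) (yOf t δ), 0 < Xf ξ := by
    intro ξ hξ
    have := (ld_coreE_range hδ.le hδK.le ht hK hξ).2.1
    have h2 : 0 < δ * (-t) := by positivity
    linarith
  have h3 : ∫ ξ in (yOf t K)..(yOf t δ), 2 * ξ / (-t) * n2t q u ξ
      ≤ ∫ ξ in (yOf t K)..(yOf t δ), (C * (-t) ^ (97 / 2 : ℝ)) * (wH 3 52 q t ξ * n2t q u ξ / Real.sqrt (Xf ξ)) := by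
    apply ld_coreE_int_le hyy
    · refine (ContinuousOn.intervalIntegrable ?_).const_mul _
      rw [uIcc_of_le hyy]
      exact (hF.mono hsub).div (hsX.mono hsub) (fun ξ hξ => (Real.sqrt_pos.2 (hXpos ξ hξ)).ne')
    · intro ξ hξ
      have := hF0 ξ (hsub hξ)
      positivity
    · intro ξ hξ
      obtain ⟨hξI, hX1, hX2⟩ := ld_coreE_range hδ.le hδK.le ht hK hξ
      have hV := ld_wH_core_lower (q := q) (t := t) (y := ξ) hq1 3 52 hδ.le ht hξI hX1 hX2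
      have hN := n2t_nonneg hq0 u ξ
      have hsp : 0 < Real.sqrt (Xf ξ) := Real.sqrt_pos.2 (hXpos ξ hξ)
      have hs : Real.sqrt (Xf ξ) ≤ Real.sqrt K * r := by
        rw [hr, ← Real.sqrt_mul hK0.le]
        exact Real.sqrt_le_sqrt hX2
      have key : 2 * ξ / (-t) ≤ (C * (-t) ^ (97 / 2 : ℝ)) * (wH 3 52 q t ξ / Real.sqrt (Xf ξ)) := by
        have e1 : 2 / (-t) = (C * (-t) ^ (97 / 2 : ℝ)) * (((δ * (-t)) ^ 3 / ((1 + K) * (-t)) ^ 52) / (Real.sqrt K * r)) := by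
          rw [ld_coreE_rpow97 hL, ← hr, hC]
          field_simp
        have e2 : 2 * ξ / (-t) ≤ 2 / (-t) := by
          apply div_le_div_of_nonneg_right _ hL.le
          linarith [hξI.2]
        refine e2.trans ?_
        rw [e1]
        apply mul_le_mul_of_nonneg_left _ (by positivity)
        exact div_le_div₀ (le_trans (by positivity) hV) hV hsp hs
      calc 2 * ξ / (-t) * n2t q u ξ ≤ (C * (-t) ^ (97 / 2 : ℝ)) * (wH 3 52 q t ξ / Real.sqrt (Xf ξ)) * n2t q u ξ :=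
            mul_le_mul_of_nonneg_right key hN
        _ = _ := by ring
  rw [intervalIntegral.integral_const_mul] at h3
  refine h3.trans ?_
  rw [← mul_assoc]
  apply mul_le_mul_of_nonneg_left _ (by positivity)
  exact ld_ii_ge hF hF0 (by linarith [hyK.1]) hyy hyd1

/-- upper bound of the core term. -/
theorem ld_core_up (hq : 100 ≤ q) (hδ : 0 < δ) (hδK : δ < K) : ∃ C : ℝ, 0 ≤ C ∧
    ∀ G : ℝ → ℝ, Continuous G → (∀ Y, 0 ≤ G Y ∧ G Y ≤ 1) → (∀ Y, Y ≤ δ ∨ K ≤ Y → G Y = 0) →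
    ∀ t < 0, -t ≤ 100 / q → K * (-t) ≤ 39 / 400 → ∀ u : Fin 3 → ℝ → ℝ, (∀ l, CI (u l)) →
      (-t) ^ (95 / 2 : ℝ) * II (fun y => psi1 y * G (Xf y / (-t)) * (Xf y / (-t) * wH 3 52 q t y * n2 q u y))
        ≤ C / (-t) * ∫ Y in δ..K, n2 q u (yOf t Y) := by
  have hK0 : 0 < K := by linarith
  refine ⟨(1 + K) ^ 3 * Real.sqrt K, by positivity, ?_⟩
  intro G hG hG1 hG0 t ht hΛ hK u hu
  have hL : 0 < -t := by linarith
  have hq0 : 0 < q := by linarith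
  have hn2 : CI (n2 q u) := ld_coreE_ci_n2 hu
  have hwH : CI (wH 3 52 q t) := ((smS_wH 3 52 q).smI ht).continuousOn
  have hXf : CI (fun y => Xf y / (-t)) := by
    show ContinuousOn (fun y => (1 - y ^ 2) / (-t)) (Icc (-1 : ℝ) 1)
    fun_prop
  have hF : CI (fun y => Xf y / (-t) * wH 3 52 q t y * n2 q u y) := (hXf.mul hwH).mul hn2
  rw [ld_core_ii hG hδ hG0 hK0.le ht hK hF,
    ld_coreE_int_cut hδ.le hδK.le (fun Y hY => by rw [hG0 Y (Or.inl hY)]; simp)]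
  set r := Real.sqrt (-t) with hr
  have hr0 : 0 < r := Real.sqrt_pos.2 hL
  have hrr : r * r = -t := Real.mul_self_sqrt hL.le
  set Vb := ((1 + K) * (-t)) ^ 3 / (-t) ^ 52 with hVb
  have hVb0 : 0 ≤ Vb := by positivity
  have hcN : ContinuousOn (fun Y => n2 q u (yOf t Y)) (Icc δ K) := ld_coreE_comp_yOf hn2 hδ.le ht hK
  have hiN : IntervalIntegrable (fun Y => n2 q u (yOf t Y)) volume δ K :=
    ContinuousOn.intervalIntegrable (by rwa [uIcc_of_le hδK.le])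
  have h3 : ∫ Y in δ..K, G Y * (Xf (yOf t Y) / (-t) * wH 3 52 q t (yOf t Y) * n2 q u (yOf t Y))
        * (r / (2 * Real.sqrt Y * yOf t Y))
      ≤ ∫ Y in δ..K, (Real.sqrt K * Vb * r) * n2 q u (yOf t Y) := by
    apply ld_coreE_int_le hδK.le (hiN.const_mul _)
    · intro Y _
      have := n2_nonneg hq0 u (yOf t Y)
      positivity
    · intro Y hY
      have hY0 : 0 < Y := lt_of_lt_of_le hδ hY.1
      have hYL : (-t) * Y ≤ 39 / 400 := by nlinarith [hY.2]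
      have hy := ld_yOf_mem ht hY0.le hYL
      have hX : Xf (yOf t Y) = (-t) * Y := ld_Xf_yOf (by linarith)
      have hV := ld_wH_core_upper (q := q) (t := t) (y := yOf t Y) hq 3 52 (D := K) ht hΛ hy
        (by rw [hX]; nlinarith [hY.2])
      have hV0 : 0 < wH 3 52 q t (yOf t Y) :=
        w0_wH_pos (by linarith) ht ⟨by linarith [hy.1], hy.2⟩
      have hN := n2_nonneg hq0 u (yOf t Y)
      have hXY : Xf (yOf t Y) / (-t) = Y := by rw [hX]; exact mul_div_cancel_left₀ Y hL.ne'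
      rw [hXY]
      set s := Real.sqrt Y with hs
      have hs0 : 0 < s := Real.sqrt_pos.2 hY0
      have hss : s * s = Y := Real.mul_self_sqrt hY0.le
      have hsK : s ≤ Real.sqrt K := Real.sqrt_le_sqrt hY.2
      set w := yOf t Y with hw
      have hw0 : 0 < w := by linarith [hy.1]
      have e1 : Y * (r / (2 * s * w)) = s * r / (2 * w) := by
        rw [← hss]; field_simp
      have e2 : s * r / (2 * w) ≤ Real.sqrt K * r := by
        rw [div_le_iff₀ (by positivity)]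
        have : s * r ≤ Real.sqrt K * r := mul_le_mul_of_nonneg_right hsK hr0.le
        have h0 : 0 ≤ Real.sqrt K * r := by positivity
        nlinarith [hy.1]
      have e3 : G Y * wH 3 52 q t w ≤ Vb := by
        have := (hG1 Y).1
        have := (hG1 Y).2
        nlinarith
      calc G Y * (Y * wH 3 52 q t w * n2 q u w) * (r / (2 * s * w))
          = (G Y * wH 3 52 q t w) * n2 q u w * (Y * (r / (2 * s * w))) := by ring
        _ ≤ Vb * n2 q u w * (Real.sqrt K * r) := by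
            rw [e1]
            apply mul_le_mul (mul_le_mul_of_nonneg_right e3 hN) e2 (by positivity) (by positivity)
        _ = Real.sqrt K * Vb * r * n2 q u w := by ring
  rw [intervalIntegral.integral_const_mul] at h3
  have hL95 : 0 ≤ (-t) ^ (95 / 2 : ℝ) := by positivity
  refine (mul_le_mul_of_nonneg_left h3 hL95).trans (le_of_eq ?_)
  rw [ld_coreE_rpow95 hL, ← hr, hVb]
  have : (-t) ^ 47 * r * (Real.sqrt K * (((1 + K) * (-t)) ^ 3 / (-t) ^ 52) * r)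
      = (1 + K) ^ 3 * Real.sqrt K / (-t) := by
    have : (-t) ^ 47 * r * (Real.sqrt K * (((1 + K) * (-t)) ^ 3 / (-t) ^ 52) * r)
      = (-t) ^ 47 * (r * r) * (Real.sqrt K * (((1 + K) * (-t)) ^ 3 / (-t) ^ 52)) := by ring
    rw [this, hrr]
    field_simp
  rw [← this]
  ring

/-- the `ϑ`-measure of the core is `O(√Λ)`. -/
theorem ld_core_meas (hδ : 0 < δ) (hδK : δ < K) {G : ℝ → ℝ} {M : ℝ} (hG : Continuous G)
    (hGM : ∀ Y, 0 ≤ G Y ∧ G Y ≤ M) (hG0 : ∀ Y, Y ≤ δ ∨ K ≤ Y → G Y = 0) (ht : t < 0) (hK : K * (-t) ≤ 39 / 400) :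
    II (fun y => psi1 y * G (Xf y / (-t))) ≤ M * K * Real.sqrt (-t) / Real.sqrt δ := by
  have hL : 0 < -t := by linarith
  have hK0 : 0 ≤ K := by linarith
  have hM : 0 ≤ M := (hGM 0).1.trans (hGM 0).2
  have h1 := ld_core_ii (F := fun _ => (1:ℝ)) hG hδ hG0 hK0 ht hK continuousOn_const
  have h2 : II (fun y => psi1 y * G (Xf y / (-t))) = II (fun y => psi1 y * G (Xf y / (-t)) * 1) := by
    simp
  rw [h2, h1]
  have h3 : ∫ Y in (0:ℝ)..K, G Y * 1 * (Real.sqrt (-t) / (2 * Real.sqrt Y * yOf t Y))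
      ≤ ∫ Y in (0:ℝ)..K, M * Real.sqrt (-t) / Real.sqrt δ := by
    apply ld_coreE_int_le hK0 intervalIntegrable_const
    · intro x _; positivity
    · intro Y hY
      by_cases hYδ : Y ≤ δ
      · rw [hG0 Y (Or.inl hYδ)]
        simp only [zero_mul]
        positivity
      · push Not at hYδ
        have hy := ld_yOf_mem ht hY.1 (by nlinarith [hY.2] : (-t) * Y ≤ 39/400)
        have hs : Real.sqrt δ ≤ Real.sqrt Y := Real.sqrt_le_sqrt hYδ.le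
        have hs0 : 0 < Real.sqrt δ := Real.sqrt_pos.2 hδ
        have hden : Real.sqrt δ ≤ 2 * Real.sqrt Y * yOf t Y := by nlinarith [hy.1]
        calc G Y * 1 * (Real.sqrt (-t) / (2 * Real.sqrt Y * yOf t Y)) ≤ M * (Real.sqrt (-t) / Real.sqrt δ) := by
              rw [mul_one]
              apply mul_le_mul (hGM Y).2 _ (by have := hy.1; positivity) hM
              exact div_le_div_of_nonneg_left (Real.sqrt_nonneg _) hs0 hden
          _ = M * Real.sqrt (-t) / Real.sqrt δ := by ring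
  refine h3.trans (le_of_eq ?_)
  rw [intervalIntegral.integral_const]
  simp only [sub_zero, smul_eq_mul]
  ring

theorem ld_EEB_Actu (hq : 100 ≤ q) (hδ : 0 < δ) (hδK : δ < K) {A : Fin 3 → ℝ → ℝ} (hA : ∀ l, CcB δ K (A l)) :
    ∃ C : ℝ, 0 ≤ C ∧ ∀ t < 0, -t ≤ 100 / q → K * (-t) ≤ 39 / 400 →
      (-t) ^ (95 / 2 : ℝ) * En q (wH 3 52 q t) (slT (Actu A) t) ≤ C / (-t) ^ 2 := by
  have hq0 : 0 < q := by linarith
  have hK0 : 0 < K := by linarith
  choose Cb hCb0 hCb using fun l => (hA l).bdd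
  set G : ℝ → ℝ := fun Y => ∑ l, kapJ q l * (A l Y) ^ 2 with hGdef
  set M : ℝ := ∑ l, kapJ q l * (Cb l) ^ 2 with hMdef
  have hGc : Continuous G := by
    apply continuous_finsetSum
    intro l _
    exact continuous_const.mul ((hA l).continuous.pow 2)
  have hGM : ∀ Y, 0 ≤ G Y ∧ G Y ≤ M := by
    intro Y
    constructor
    · apply Finset.sum_nonneg
      intro l _
      exact mul_nonneg (kapJ_pos hq0 l).le (sq_nonneg _)
    · apply Finset.sum_le_sum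
      intro l _
      apply mul_le_mul_of_nonneg_left _ (kapJ_pos hq0 l).le
      exact sq_le_sq' (by linarith [abs_le.1 (hCb l Y)]) (abs_le.1 (hCb l Y)).2
  have hG0 : ∀ Y, Y ≤ δ ∨ K ≤ Y → G Y = 0 := by
    intro Y hY
    apply Finset.sum_eq_zero
    intro l _
    rw [(hA l).supp Y hY]
    ring
  have hM0 : 0 ≤ M := (hGM 0).1.trans (hGM 0).2
  have hsδ : 0 < Real.sqrt δ := Real.sqrt_pos.2 hδ
  refine ⟨K ^ 2 * (1 + K) ^ 3 * M / Real.sqrt δ, by positivity, ?_⟩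
  intro t ht hΛ hK
  have hL : 0 < -t := by linarith
  have hn2e : ∀ y, n2 q (slT (Actu A) t) y = psi1 y ^ 2 * G (Xf y / (-t)) / (-t) ^ 2 := by
    intro y
    rw [n2_eq_nk]
    show ∑ l, kapJ q l * (uV (slT (Actu A) t) l y) ^ 2 = _
    rw [hGdef]
    simp only
    rw [Finset.mul_sum, Finset.sum_div]
    apply Finset.sum_congr rfl
    intro l _
    rw [ld_uV_Actu hδ hA ht l y]
    field_simp
  set B : ℝ := K * (-t) * (((1 + K) * (-t)) ^ 3 / (-t) ^ 52) / (-t) ^ 2 with hB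
  have hB0 : 0 ≤ B := by positivity
  have hwH : CI (wH 3 52 q t) := ((smS_wH 3 52 q).smI ht).continuousOn
  have hpsi : CI psi1 := psi1_contDiff.continuous.continuousOn
  have hXf : Continuous (fun y => Xf y / (-t)) := by
    show Continuous (fun y => (1 - y ^ 2) / (-t))
    fun_prop
  have hGX : CI (fun y => G (Xf y / (-t))) := (hGc.comp hXf).continuousOn
  have hX1 : CI (fun y : ℝ => 1 - y ^ 2) := by
    show ContinuousOn (fun y : ℝ => 1 - y ^ 2) (Icc (-1 : ℝ) 1)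
    fun_prop
  have hle : En q (wH 3 52 q t) (slT (Actu A) t) ≤ II (fun y => B * (psi1 y * G (Xf y / (-t)))) := by
    show II (fun y => (1 - y ^ 2) * wH 3 52 q t y * n2 q (slT (Actu A) t) y) ≤ _
    apply ii_mono
    · have : (fun y => (1 - y ^ 2) * wH 3 52 q t y * n2 q (slT (Actu A) t) y)
          = fun y => (1 - y ^ 2) * wH 3 52 q t y * (psi1 y ^ 2 * G (Xf y / (-t)) / (-t) ^ 2) := by
        funext y; rw [hn2e]
      rw [this]
      exact (hX1.mul hwH).mul (((hpsi.pow 2).mul hGX).div_const _)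
    · exact continuousOn_const.mul (hpsi.mul hGX)
    · intro y hy
      rw [hn2e]
      by_cases h0 : psi1 y * G (Xf y / (-t)) = 0
      · have : psi1 y ^ 2 * G (Xf y / (-t)) = 0 := by
          rw [pow_two, mul_assoc, h0, mul_zero]
        rw [this, h0]
        simp
      · -- some component is nonzero
        have hp : psi1 y ≠ 0 := left_ne_zero_of_mul h0
        have hG1 : G (Xf y / (-t)) ≠ 0 := right_ne_zero_of_mul h0
        obtain ⟨l, hl⟩ : ∃ l, A l (Xf y / (-t)) ≠ 0 := by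
          by_contra hcon
          push Not at hcon
          apply hG1
          apply Finset.sum_eq_zero
          intro l _
          rw [hcon l]; ring
        obtain ⟨hp1, hy1, hX1', hX2⟩ := ld_psi1_core (hA l) ht hK (mul_ne_zero hp hl)
        have hyI : y ∈ Icc (19 / 20 : ℝ) 1 := ⟨hy1.le, hy.2⟩
        have hw := ld_wH_core_upper hq 3 52 ht hΛ hyI hX2.le
        have hw0 : 0 ≤ wH 3 52 q t y := by
          have := ld_wH_core_lower (by linarith : (1:ℝ) < q) 3 52 hδ.le ht hyI hX1'.le hX2.le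
          exact le_trans (by positivity) this
        have hXe : (1 - y ^ 2) = Xf y := rfl
        rw [hp1, hXe]
        have hXp : 0 ≤ Xf y := le_trans (by positivity) hX1'.le
        have hGp := (hGM (Xf y / (-t))).1
        have h1 : Xf y * wH 3 52 q t y ≤ K * (-t) * (((1 + K) * (-t)) ^ 3 / (-t) ^ 52) :=
          mul_le_mul hX2.le hw hw0 (by positivity)
        have h2 : 0 ≤ G (Xf y / (-t)) / (-t) ^ 2 := by positivity
        calc Xf y * wH 3 52 q t y * (1 ^ 2 * G (Xf y / (-t)) / (-t) ^ 2)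
            = Xf y * wH 3 52 q t y * (G (Xf y / (-t)) / (-t) ^ 2) := by ring
          _ ≤ K * (-t) * (((1 + K) * (-t)) ^ 3 / (-t) ^ 52) * (G (Xf y / (-t)) / (-t) ^ 2) :=
              mul_le_mul_of_nonneg_right h1 h2
          _ = B * (1 * G (Xf y / (-t))) := by rw [hB]; ring
  rw [ii_const_mul] at hle
  have hm := ld_core_meas hδ hδK hGc hGM hG0 ht hK
  have h3 : En q (wH 3 52 q t) (slT (Actu A) t) ≤ B * (M * K * Real.sqrt (-t) / Real.sqrt δ) :=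
    hle.trans (mul_le_mul_of_nonneg_left hm hB0)
  have hL95 : 0 ≤ (-t) ^ (95 / 2 : ℝ) := by positivity
  refine (mul_le_mul_of_nonneg_left h3 hL95).trans (le_of_eq ?_)
  rw [ld_coreE_rpow95 hL, hB]
  set r := Real.sqrt (-t) with hr
  have hrr : r * r = -t := Real.mul_self_sqrt hL.le
  have e1 : (-t) ^ 47 * r * (K * (-t) * (((1 + K) * (-t)) ^ 3 / (-t) ^ 52) / (-t) ^ 2 * (M * K * r / Real.sqrt δ))
      = (-t) ^ 47 * (r * r) * (K * (-t) * (((1 + K) * (-t)) ^ 3 / (-t) ^ 52) / (-t) ^ 2 * (M * K / Real.sqrt δ)) := by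
    ring
  rw [e1, hrr]
  field_simp

end

end Claimed.Agent.R324.Core
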