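/-
Row 324 (S0582), PDE core, module LD (`linear_solve`), architect helper217.   Blueprint 7.4 (origin/helper232:docs/R324_blueprint.md).   PORT of R325/Core/LD (packed in Claimed/Agent/R325/Pk37..Pk48.lean).      FILE LD/ObsB
   Λ = -t,  X = Xf y = 1 - y²,  Y = X/Λ,  τ = tauOf t = -log Λ;   u-form of a slice u = (σ, h₃, b):  uV u = (σ, h₃, X b);   κ = kapJ q;   𝕀 = II  (Core/W/Ibp.lean);   definitions of this module: Core/LD/Defs.lean.
STATIC LAYER 4:  (O) bound of the observations by the heavy energy B;   (M) mismatch between the actuators and the observations.        `û_l(Y) = uV u l (yOf t Y)`.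
* `ld_core_cs`:  pointwise  `(Σ_l w_l û_l)² ≤ (Σ w_l²)(Σ û_l²) ≤ 3 M² · 2 n2(û)`   (`κ_l ≥ 1/2`: `kapJ`, `q ≥ 1`; `n2_eq_nk`, `nk`, `Fin.sum_univ_three`;  or `abs_le_sqrt_nk`),    Cauchy-Schwarz  `(∫_δ^K f)² ≤ (K-δ) ∫_δ^K f²`   (R325 `ld_Poinc_cs`, Pk39, can be copied).    Continuity of `Y ↦ uV u l (yOf t Y)` on `[δ,K]`: `ld_yOf_continuous`, `ld_yOf_mem` (`yOf ∈ [19/20,1] ⊆ [-1,1]`), `ContinuousOn.comp`.
* `ld_Obs_bound`:  `ld_Obs_scaled`;  `∫_0^K = ∫_δ^K` (`c_l = 0` on `[0,δ]`);  `ld_core_cs` with `w = c`, `M` from `CcB.bdd`;  `ld_core_En`.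
* `ld_ObsV_bound`:  `‖ObsV c U (tauOf s)‖² = Σ_i Obs(c_i)²` (`EuclideanSpace.norm_sq_eq`/`real_norm_sq_eq`, `ld_tOf_tauOf`);  sum of the constants of `ld_Obs_bound`;  `EEB` by definition.      (Copy R325 `ld_ObsV_bound`, Pk44.)
* `ld_rr_bound`:  `e := ℓ²/(ΛY) ∈ [0, (q/100) Λ/δ]` (`ld_ell2_le_sq`; `Λ ≤ 100/q ≤ 1`), in particular `e ≤ 1/δ`;   `φ := yOf t Y ∈ [19/20,1]`,  `1/φ - 1 = ΛY/(φ(1+φ)) ≤ KΛ·(400/361)`…(any constant);    `rr - 1 = ((1+e)³-1)/φ + (1/φ-1)`,  `0 ≤ (1+e)³-1 = e(3+3e+e²) ≤ e (3+3/δ+1/δ²)`.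
* `ld_pairE_Actu`:   `pairE q V u (Ac) = 𝕀[X V Σ_l κ_l (uV u)_l ψ₁ A_l(X/Λ)/Λ] = Σ_l 𝕀[ψ₁ A_l(X/Λ) (κ_l X V (uV u)_l/Λ)]`  (`ld_uV_Actu`, `ii_congr`, `ii_sum`),   `ld_core_ii` for each `l` (`G = A_l = Aof q g₀ c l`, `CcB` by `ccB_Aof`).     In the `Y` integral, for `Y ∈ (0,K]`:   `X = ΛY`, `r̂² = ℓ² + ΛY`, `Θ = Λ(1+Y)` at `yOf t Y` (`ld_Xf_yOf`, `Xt_eq`),   `κ_l A_l = g₀ c_l · 2 (1+Y)⁵²/(Y³ √Y)`:
        `Λ^{95/2} · κ_l A_l(Y) · ΛY (ℓ²+ΛY)³/(Λ(1+Y))⁵² · (1/Λ) · √Λ/(2 √Y φ) = (g₀/Λ) c_l(Y) (1 + ℓ²/(ΛY))³/φ`        (`Λ^{95/2} √Λ = Λ⁴⁸`; `√Y √Y = Y`; `field_simp`).      At `Y = 0` both integrands vanish (`c_l 0 = 0`).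
* `ld_mismatch`:   `2 Λ^ν pairE - (2 g₀/Λ) Obs = (2 g₀/Λ) ∫_δ^K Σ_l c_l (rr-1) û_l dY`  (`ld_pairE_Actu`, `ld_Obs_scaled`, `integral_sub`),   `ld_core_cs` with `w_l = c_l (rr-1)`, `|w_l| ≤ M_c C_r Λ`;   `ld_core_En`.
-/
import Claimed.Agent.R324.Core.LD.CoreE
import Claimed.Agent.R324.Core.LD.BasicT

set_option autoImplicit false

namespace Claimed.Agent.R324.Core

open Set Filter Topology MeasureTheory
open scoped ContDiff

noncomputable section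

variable {N : ℕ} {q δ K t : ℝ}

/-- `rr_t(Y) = (1 + ℓ²/(ΛY))³/√(1-ΛY)`. -/
def rrF (q t Y : ℝ) : ℝ := (1 + ell2 q t / ((-t) * Y)) ^ 3 / yOf t Y

/-- hygiene. -/
theorem core_ld_obsb_hygiene : True := by
  have := @rrF.eq_1
  trivial

/-- Cauchy-Schwarz on an interval, for a function continuous on the closed interval. -/
theorem ld_obsb_cs {s y : ℝ} (hsy : s ≤ y) {f : ℝ → ℝ} (hf : ContinuousOn f (Icc s y)) :
    (∫ x in s..y, f x) ^ 2 ≤ (y - s) * ∫ x in s..y, (f x) ^ 2 := by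
  rcases hsy.eq_or_lt with rfl | hlt
  · simp
  have hpos : 0 < y - s := sub_pos.2 hlt
  set I := ∫ x in s..y, f x with hI
  set c := I / (y - s) with hc
  have h0 : 0 ≤ ∫ x in s..y, (f x - c) ^ 2 :=
    intervalIntegral.integral_nonneg hsy (fun x _ => sq_nonneg _)
  have h1 : ∫ x in s..y, (f x - c) ^ 2 = (∫ x in s..y, (f x) ^ 2) - 2 * c * I + c ^ 2 * (y - s) := by
    have e : ∀ x, (f x - c) ^ 2 = (f x) ^ 2 - 2 * c * f x + c ^ 2 := fun x => by ring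
    simp_rw [e]
    rw [intervalIntegral.integral_add, intervalIntegral.integral_sub,
      intervalIntegral.integral_const_mul, intervalIntegral.integral_const]
    · simp [hI]; ring
    · exact (hf.pow 2).intervalIntegrable_of_Icc hsy
    · exact (continuousOn_const.mul hf).intervalIntegrable_of_Icc hsy
    · exact ((hf.pow 2).sub (continuousOn_const.mul hf)).intervalIntegrable_of_Icc hsy
    · exact continuous_const.intervalIntegrable _ _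
  rw [h1] at h0
  have h2 : c * (y - s) = I := by rw [hc]; field_simp
  have h3 : 2 * c * I = 2 * c ^ 2 * (y - s) := by rw [← h2]; ring
  have h4 : I ^ 2 = c ^ 2 * (y - s) * (y - s) := by rw [← h2]; ring
  rw [h4]
  nlinarith [h0, h3, hpos]

theorem ld_obsb_uV_ci {u : Fin 3 → ℝ → ℝ} (hu : ∀ l, CI (u l)) (l : Fin 3) : CI (uV u l) := by
  have : uV u l = fun y => xJ l y * u l y := funext (uV_eq_xJ u l)
  rw [this]
  exact (xJ_continuous l).continuousOn.mul (hu l)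

theorem ld_obsb_n2_ci (q : ℝ) {u : Fin 3 → ℝ → ℝ} (hu : ∀ l, CI (u l)) : CI (n2 q u) := by
  have : n2 q u = fun y => ∑ i, kapJ q i * (uV u i y) ^ 2 := by
    funext y
    rw [n2_eq_nk]
    rfl
  rw [this]
  exact continuousOn_finsetSum _ (fun i _ => continuousOn_const.mul ((ld_obsb_uV_ci hu i).pow 2))

/-- composition of a `CI` function with `yOf t` on `[δ,K]`. -/
theorem ld_obsb_comp (hδ : 0 ≤ δ) (ht : t < 0) (hK : K * (-t) ≤ 39 / 400) {F : ℝ → ℝ} (hF : CI F) :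
    ContinuousOn (fun Y => F (yOf t Y)) (Icc δ K) := by
  refine hF.comp (ld_yOf_continuous t).continuousOn (fun Y hY => ?_)
  have h1 : (-t) * Y ≤ 39 / 400 := by
    have : (-t) * Y ≤ (-t) * K := mul_le_mul_of_nonneg_left hY.2 (by linarith)
    linarith
  have := ld_yOf_mem ht (le_trans hδ hY.1) h1
  exact ⟨by linarith [this.1], this.2⟩

/-- pointwise Cauchy-Schwarz. -/
theorem ld_obsb_pt (hq : 1 ≤ q) {M : ℝ} (a ξ : Fin 3 → ℝ) (ha : ∀ l, |a l| ≤ M) :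
    (∑ l, a l * ξ l) ^ 2 ≤ 6 * M ^ 2 * nk q ξ := by
  have h := Finset.sum_mul_sq_le_sq_mul_sq (Finset.univ : Finset (Fin 3)) a ξ
  have h1 : ∑ l, a l ^ 2 ≤ 3 * M ^ 2 := by
    have : ∀ l, a l ^ 2 ≤ M ^ 2 := fun l => by
      rw [← sq_abs (a l)]
      exact pow_le_pow_left₀ (abs_nonneg _) (ha l) 2
    rw [Fin.sum_univ_three]
    linarith [this 0, this 1, this 2]
  have h2 : ∑ l, ξ l ^ 2 ≤ 2 * nk q ξ := by
    unfold nk
    rw [Fin.sum_univ_three, Fin.sum_univ_three]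
    have k0 : kapJ q 0 = q + 1 := rfl
    have k1 : kapJ q 1 = 2 := rfl
    have k2 : kapJ q 2 = q / (q + 1) := rfl
    have hk2 : 1 / 2 ≤ q / (q + 1) := by
      rw [div_le_div_iff₀ (by norm_num) (by linarith)]
      linarith
    rw [k0, k1, k2]
    nlinarith [sq_nonneg (ξ 0), sq_nonneg (ξ 1), sq_nonneg (ξ 2)]
  have h3 : 0 ≤ ∑ l, ξ l ^ 2 := Finset.sum_nonneg (fun l _ => sq_nonneg _)
  calc (∑ l, a l * ξ l) ^ 2 ≤ (∑ l, a l ^ 2) * ∑ l, ξ l ^ 2 := h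
    _ ≤ (3 * M ^ 2) * ∑ l, ξ l ^ 2 := mul_le_mul_of_nonneg_right h1 h3
    _ ≤ (3 * M ^ 2) * (2 * nk q ξ) := mul_le_mul_of_nonneg_left h2 (by positivity)
    _ = 6 * M ^ 2 * nk q ξ := by ring

theorem ld_core_cs (hq : 1 ≤ q) (hδ : 0 ≤ δ) (hδK : δ ≤ K) {w : Fin 3 → ℝ → ℝ} {M : ℝ}
    (hw : ∀ l, ContinuousOn (w l) (Icc δ K)) (hM : ∀ l, ∀ Y ∈ Icc δ K, |w l Y| ≤ M) (ht : t < 0)
    (hK : K * (-t) ≤ 39 / 400) {u : Fin 3 → ℝ → ℝ} (hu : ∀ l, CI (u l)) :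
    (∫ Y in δ..K, ∑ l, w l Y * uV u l (yOf t Y)) ^ 2 ≤ 6 * M ^ 2 * (K - δ) * ∫ Y in δ..K, n2 q u (yOf t Y) := by
  have hf : ContinuousOn (fun Y => ∑ l, w l Y * uV u l (yOf t Y)) (Icc δ K) :=
    continuousOn_finsetSum _ (fun l _ => (hw l).mul (ld_obsb_comp hδ ht hK (ld_obsb_uV_ci hu l)))
  have hn : ContinuousOn (fun Y => n2 q u (yOf t Y)) (Icc δ K) := ld_obsb_comp hδ ht hK (ld_obsb_n2_ci q hu)
  have h1 := ld_obsb_cs hδK hf
  have h2 : ∫ Y in δ..K, (∑ l, w l Y * uV u l (yOf t Y)) ^ 2 ≤ ∫ Y in δ..K, 6 * M ^ 2 * n2 q u (yOf t Y) := by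
    refine intervalIntegral.integral_mono_on hδK ((hf.pow 2).intervalIntegrable_of_Icc hδK)
      ((continuousOn_const.mul hn).intervalIntegrable_of_Icc hδK) (fun Y hY => ?_)
    rw [n2_eq_nk]
    exact ld_obsb_pt hq (fun l => w l Y) (fun l => uV u l (yOf t Y)) (fun l => hM l Y hY)
  rw [intervalIntegral.integral_const_mul] at h2
  calc _ ≤ (K - δ) * ∫ Y in δ..K, (∑ l, w l Y * uV u l (yOf t Y)) ^ 2 := h1
    _ ≤ (K - δ) * (6 * M ^ 2 * ∫ Y in δ..K, n2 q u (yOf t Y)) :=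
        mul_le_mul_of_nonneg_left h2 (by linarith)
    _ = _ := by ring

/-- a common bound for three bumps. -/
theorem ld_obsb_bdd {c : Fin 3 → ℝ → ℝ} (hc : ∀ l, CcB δ K (c l)) : ∃ M : ℝ, 0 ≤ M ∧ ∀ l Y, |c l Y| ≤ M := by
  choose Ci hCi hb using fun l => (hc l).bdd
  refine ⟨∑ l, Ci l, Finset.sum_nonneg fun l _ => hCi l, fun l Y => (hb l Y).trans ?_⟩
  exact Finset.single_le_sum (f := Ci) (fun i _ => hCi i) (Finset.mem_univ l)

/-- the integral over `[0,K]` of a function vanishing on `[0,δ]`. -/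
theorem ld_obsb_split (hδ : 0 ≤ δ) (hδK : δ ≤ K) {f : ℝ → ℝ} (hf : ContinuousOn f (Icc 0 K))
    (h0 : ∀ Y ∈ Icc 0 δ, f Y = 0) : ∫ Y in (0 : ℝ)..K, f Y = ∫ Y in δ..K, f Y := by
  have i1 : IntervalIntegrable f volume 0 δ :=
    (hf.mono (Icc_subset_Icc le_rfl hδK)).intervalIntegrable_of_Icc hδ
  have i2 : IntervalIntegrable f volume δ K :=
    (hf.mono (Icc_subset_Icc hδ le_rfl)).intervalIntegrable_of_Icc hδK
  rw [← intervalIntegral.integral_add_adjacent_intervals i1 i2]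
  have : ∫ Y in (0 : ℝ)..δ, f Y = ∫ Y in (0 : ℝ)..δ, (0 : ℝ) :=
    intervalIntegral.integral_congr (fun Y hY => by
      rw [uIcc_of_le hδ] at hY
      exact h0 Y hY)
  rw [this]
  simp

/-- `O_c[u] = ∫_δ^K Σ_l c_l û_l`. -/
theorem ld_obsb_Obs (hδ : 0 ≤ δ) (hδK : δ ≤ K) {c : Fin 3 → ℝ → ℝ} (hc : ∀ l, CcB δ K (c l)) (ht : t < 0)
    (hK : K * (-t) ≤ 39 / 400) {u : Fin 3 → ℝ → ℝ} (hu : ∀ l, CI (u l)) :
    Obs c t u = ∫ Y in δ..K, ∑ l, c l Y * uV u l (yOf t Y) := by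
  rw [ld_Obs_scaled hc (hδ.trans hδK) ht hK hu]
  refine ld_obsb_split hδ hδK ?_ (fun Y hY => ?_)
  · exact continuousOn_finsetSum _ (fun l _ => (hc l).continuous.continuousOn.mul
      (ld_obsb_comp le_rfl ht hK (ld_obsb_uV_ci hu l)))
  · exact Finset.sum_eq_zero (fun l _ => by rw [(hc l).supp Y (Or.inl hY.2)]; simp)

/-- **(O)**. -/
theorem ld_Obs_bound (hq : 100 ≤ q) (hδ : 0 < δ) (hδK : δ < K) {c : Fin 3 → ℝ → ℝ} (hc : ∀ l, CcB δ K (c l)) :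
    ∃ C : ℝ, 0 ≤ C ∧ ∀ t < 0, K * (-t) ≤ 39 / 400 → ∀ u : Fin 3 → ℝ → ℝ, (∀ l, CI (u l)) →
      (Obs c t u) ^ 2 ≤ C * ((-t) ^ (95 / 2 : ℝ) * En q (wH 3 52 q t) u) := by
  obtain ⟨M, hM0, hM⟩ := ld_obsb_bdd hc
  obtain ⟨CE, hCE, hE⟩ := ld_core_En hq hδ hδK
  have hKδ : 0 ≤ K - δ := by linarith
  refine ⟨6 * M ^ 2 * (K - δ) * CE, by positivity, fun t ht hK u hu => ?_⟩
  rw [ld_obsb_Obs hδ.le hδK.le hc ht hK hu]
  have h1 := ld_core_cs (q := q) (by linarith) hδ.le hδK.le (w := c) (M := M)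
    (fun l => (hc l).continuous.continuousOn) (fun l Y _ => hM l Y) ht hK hu
  calc _ ≤ 6 * M ^ 2 * (K - δ) * ∫ Y in δ..K, n2 q u (yOf t Y) := h1
    _ ≤ 6 * M ^ 2 * (K - δ) * (CE * ((-t) ^ (95 / 2 : ℝ) * En q (wH 3 52 q t) u)) :=
        mul_le_mul_of_nonneg_left (hE t ht hK u hu) (by positivity)
    _ = _ := by ring

theorem ld_ObsV_bound (hq : 100 ≤ q) (hδ : 0 < δ) (hδK : δ < K) {c : Fin N → Fin 3 → ℝ → ℝ}
    (hc : ∀ i l, CcB δ K (c i l)) : ∃ C : ℝ, 0 ≤ C ∧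
    ∀ U : Tri, (∀ j, Sm (U j)) → ∀ s < 0, K * (-s) ≤ 39 / 400 → ‖ObsV c U (tauOf s)‖ ^ 2 ≤ C * EEB q U s := by
  choose Ci hCi hb using fun i => ld_Obs_bound hq hδ hδK (hc i)
  refine ⟨∑ i, Ci i, Finset.sum_nonneg fun i _ => hCi i, fun U hU s hs hK => ?_⟩
  have hcU : ∀ l, CI (slT U s l) := fun l => ((hU l).sl hs).continuous.continuousOn
  rw [EuclideanSpace.real_norm_sq_eq, Finset.sum_mul]
  refine Finset.sum_le_sum fun i _ => ?_
  show (Obs (c i) (tOf (tauOf s)) (slT U (tOf (tauOf s)))) ^ 2 ≤ _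
  rw [ld_tOf_tauOf hs]
  exact hb i s hs hK (slT U s) hcU

/-- facts on `φ = yOf t Y` for `Y ∈ [δ,K]`. -/
theorem ld_obsb_phi (hδ : 0 ≤ δ) (ht : t < 0) (hK : K * (-t) ≤ 39 / 400) {Y : ℝ} (hY : Y ∈ Icc δ K) :
    19 / 20 ≤ yOf t Y ∧ yOf t Y ≤ 1 ∧ (yOf t Y) ^ 2 = 1 - (-t) * Y := by
  have h1 : (-t) * Y ≤ 39 / 400 := by
    have : (-t) * Y ≤ (-t) * K := mul_le_mul_of_nonneg_left hY.2 (by linarith)
    linarith
  have hm := ld_yOf_mem ht (le_trans hδ hY.1) h1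
  have hX := ld_Xf_yOf (t := t) (Y := Y) (by linarith)
  unfold Xf at hX
  exact ⟨hm.1, hm.2, by linarith⟩

theorem ld_rr_bound (hq : 100 ≤ q) (hδ : 0 < δ) (hδK : δ < K) : ∃ C : ℝ, 0 ≤ C ∧
    ∀ t < 0, -t ≤ 100 / q → K * (-t) ≤ 39 / 400 → ∀ Y ∈ Icc δ K, |rrF q t Y - 1| ≤ C * (-t) := by
  have hq0 : 0 < q := by linarith
  have hK0 : 0 < K := hδ.trans hδK
  refine ⟨20 / 19 * (q / 100 * (3 + 3 / δ + 1 / δ ^ 2) / δ + K), by positivity, ?_⟩
  intro t ht hΛq hK Y hY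
  have hΛ : 0 < -t := by linarith
  have hΛ1 : -t ≤ 1 := hΛq.trans (by rw [div_le_one hq0]; exact hq)
  have hY0 : 0 < Y := lt_of_lt_of_le hδ hY.1
  obtain ⟨hφ1, hφ2, hφ3⟩ := ld_obsb_phi hδ.le ht hK hY
  set φ := yOf t Y with hφ
  have hφ0 : 0 < φ := by linarith
  have hl0 : 0 < ell2 q t := w0_ell2_pos (by linarith) ht
  have hl1 : ell2 q t ≤ q / 100 * (-t) ^ 2 := ld_ell2_le_sq hq ht hΛ1
  set e := ell2 q t / ((-t) * Y) with he
  have he0 : 0 ≤ e := by positivity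
  have he1 : e ≤ q / 100 * (-t) / δ := by
    rw [he, div_le_div_iff₀ (by positivity) hδ]
    calc ell2 q t * δ ≤ (q / 100 * (-t) ^ 2) * Y :=
          mul_le_mul hl1 hY.1 hδ.le (by positivity)
      _ = q / 100 * (-t) * ((-t) * Y) := by ring
  have hqΛ : q / 100 * (-t) ≤ 1 := by
    have : q * (-t) ≤ 100 := by
      have := mul_le_mul_of_nonneg_left hΛq hq0.le
      rwa [mul_div_cancel₀ _ hq0.ne'] at this
    linarith
  have he2 : e ≤ 1 / δ := he1.trans (div_le_div_of_nonneg_right hqΛ hδ.le)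
  have hcub : (1 + e) ^ 3 - 1 ≤ e * (3 + 3 / δ + 1 / δ ^ 2) := by
    have h1 : (1 + e) ^ 3 - 1 = e * (3 + 3 * e + e ^ 2) := by ring
    rw [h1]
    refine mul_le_mul_of_nonneg_left ?_ he0
    have h2 : e ^ 2 ≤ (1 / δ) ^ 2 := pow_le_pow_left₀ he0 he2 2
    have h3 : (1 / δ) ^ 2 = 1 / δ ^ 2 := by rw [div_pow, one_pow]
    have h4 : 3 * e ≤ 3 / δ := by
      have : 3 * e ≤ 3 * (1 / δ) := by linarith
      calc 3 * e ≤ 3 * (1 / δ) := this
        _ = 3 / δ := by ring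
    linarith
  have hcub0 : 0 ≤ (1 + e) ^ 3 - 1 := by
    have h1 : (1 + e) ^ 3 - 1 = e * (3 + 3 * e + e ^ 2) := by ring
    rw [h1]; positivity
  have hinv : 1 / φ ≤ 20 / 19 := by
    rw [div_le_div_iff₀ hφ0 (by norm_num)]
    linarith
  have hone : 1 - φ ≤ K * (-t) := by
    have h1 : (1 - φ) * (1 + φ) = (-t) * Y := by nlinarith
    have h2 : (-t) * Y ≤ (-t) * K := mul_le_mul_of_nonneg_left hY.2 hΛ.le
    nlinarith
  have hdec : rrF q t Y - 1 = ((1 + e) ^ 3 - 1) * (1 / φ) + (1 - φ) * (1 / φ) := by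
    unfold rrF
    rw [← hφ, ← he]
    field_simp
    ring
  have hpos : 0 ≤ rrF q t Y - 1 := by
    rw [hdec]
    have : 0 ≤ 1 - φ := by linarith
    positivity
  rw [abs_of_nonneg hpos, hdec]
  have hD : 0 ≤ 3 + 3 / δ + 1 / δ ^ 2 := by positivity
  have b1 : ((1 + e) ^ 3 - 1) * (1 / φ) ≤ (q / 100 * (-t) / δ * (3 + 3 / δ + 1 / δ ^ 2)) * (20 / 19) := by
    refine mul_le_mul (hcub.trans (mul_le_mul_of_nonneg_right he1 hD)) hinv (by positivity) (by positivity)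
  have b2 : (1 - φ) * (1 / φ) ≤ (K * (-t)) * (20 / 19) :=
    mul_le_mul hone hinv (by positivity) (by positivity)
  calc _ ≤ (q / 100 * (-t) / δ * (3 + 3 / δ + 1 / δ ^ 2)) * (20 / 19) + (K * (-t)) * (20 / 19) := add_le_add b1 b2
    _ = _ := by ring

/-- the algebra behind `ld_pairE_Actu` (`S = √Λ`, `R = √Y`, `W = 1 + Y`). -/
theorem ld_obsb_alg {S R W κ φ : ℝ} (hS : 0 < S) (hR : 0 < R) (hW : 0 < W) (hκ : 0 < κ) (hφ : 0 < φ)
    (g₀ c e2 û : ℝ) :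
    S ^ 95 * ((g₀ * c / (κ * ((R ^ 2) ^ 3 * R / (2 * W ^ 52))))
        * (κ * (S ^ 2 * R ^ 2) * ((e2 + S ^ 2 * R ^ 2) ^ 3 / (S ^ 2 * W) ^ 52) * û / S ^ 2) * (S / (2 * R * φ)))
      = g₀ / S ^ 2 * ((c * ((1 + e2 / (S ^ 2 * R ^ 2)) ^ 3 / φ)) * û) := by
  field_simp
  ring

theorem ld_obsb_rpow {Λ : ℝ} (hΛ : 0 < Λ) : Λ ^ (95 / 2 : ℝ) = (Real.sqrt Λ) ^ 95 := by
  rw [Real.sqrt_eq_rpow, ← Real.rpow_natCast, ← Real.rpow_mul hΛ.le]
  norm_num

/-- the value of the heavy weight at `yOf t Y`. -/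
theorem ld_obsb_wH (hδ : 0 ≤ δ) (ht : t < 0) (hK : K * (-t) ≤ 39 / 400) {Y : ℝ} (hY : Y ∈ Icc δ K) (a M : ℕ) (q : ℝ) :
    wH a M q t (yOf t Y) = (ell2 q t + (-t) * Y) ^ a / ((-t) * (1 + Y)) ^ M := by
  obtain ⟨hφ1, -, hφ3⟩ := ld_obsb_phi hδ ht hK hY
  have hX : Xt (yOf t Y) = (-t) * Y := by
    rw [Xt_eq (by linarith)]
    unfold Xf
    linarith
  unfold wH rh2 Th
  rw [hX]
  congr 2
  ring

/-- the pairing with an actuator `A = g₀ c/(κ ω_∞)`, exactly. -/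
theorem ld_pairE_Actu (hq : 100 ≤ q) (hδ : 0 < δ) (hδK : δ < K) {c : Fin 3 → ℝ → ℝ} (hc : ∀ l, CcB δ K (c l))
    (g₀ : ℝ) (ht : t < 0) (hK : K * (-t) ≤ 39 / 400) {u : Fin 3 → ℝ → ℝ} (hu : ∀ l, CI (u l)) :
    (-t) ^ (95 / 2 : ℝ) * pairE q (wH 3 52 q t) u (slT (Actu (Aof q g₀ c)) t)
      = g₀ / (-t) * ∫ Y in δ..K, ∑ l, (c l Y * rrF q t Y) * uV u l (yOf t Y) := by
  have hq0 : 0 < q := by linarith
  have hΛ : 0 < -t := by linarith
  have hK0 : 0 ≤ K := (hδ.trans hδK).le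
  have hA : ∀ l, CcB δ K (Aof q g₀ c l) := fun l => ccB_Aof hδ hq0 g₀ (hc l)
  have hV : CI (wH 3 52 q t) := ((smS_wH 3 52 q).smI ht).continuousOn
  have hXf : Continuous Xf := by unfold Xf; fun_prop
  -- the functions `F_l`
  set F : Fin 3 → ℝ → ℝ := fun l y => kapJ q l * Xf y * wH 3 52 q t y * uV u l y / (-t) with hF
  have hFc : ∀ l, CI (F l) := fun l =>
    (((continuousOn_const.mul hXf.continuousOn).mul hV).mul (ld_obsb_uV_ci hu l)).div_const _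
  have hterm : ∀ l, CI (fun y => psi1 y * Aof q g₀ c l (Xf y / (-t)) * F l y) := fun l => by
    have h1 : Continuous psi1 := by unfold psi1; exact Real.smoothTransition.continuous.comp (by fun_prop)
    have h2 : Continuous (fun y => Aof q g₀ c l (Xf y / (-t))) := (hA l).continuous.comp (hXf.div_const _)
    exact (h1.mul h2).continuousOn.mul (hFc l)
  have e1 : pairE q (wH 3 52 q t) u (slT (Actu (Aof q g₀ c)) t)
      = ∑ l, II (fun y => psi1 y * Aof q g₀ c l (Xf y / (-t)) * F l y) := by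
    unfold pairE
    rw [← ii_sum Finset.univ (fun l _ => hterm l)]
    refine ii_congr (fun y _ => ?_)
    unfold ipK
    rw [Finset.mul_sum]
    refine Finset.sum_congr rfl (fun l _ => ?_)
    show Xf y * wH 3 52 q t y * (kapJ q l * uV u l y * uV (slT (Actu (Aof q g₀ c)) t) l y) = _
    rw [ld_uV_Actu hδ hA ht l y]
    simp only [hF]
    ring
  have e2 : ∀ l, II (fun y => psi1 y * Aof q g₀ c l (Xf y / (-t)) * F l y)
      = ∫ Y in δ..K, Aof q g₀ c l Y * F l (yOf t Y) * (Real.sqrt (-t) / (2 * Real.sqrt Y * yOf t Y)) := by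
    intro l
    rw [ld_core_ii (hA l).continuous hδ (hA l).supp hK0 ht hK (hFc l)]
    have i2 : IntervalIntegrable (fun Y => Aof q g₀ c l Y * F l (yOf t Y)
        * (Real.sqrt (-t) / (2 * Real.sqrt Y * yOf t Y))) volume δ K := by
      refine ContinuousOn.intervalIntegrable_of_Icc hδK.le ?_
      refine ((hA l).continuous.continuousOn.mul (ld_obsb_comp hδ.le ht hK (hFc l))).mul ?_
      refine continuousOn_const.div ((continuousOn_const.mul Real.continuous_sqrt.continuousOn).mul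
        (ld_yOf_continuous t).continuousOn) (fun Y hY => ?_)
      have h1 : 0 < Real.sqrt Y := Real.sqrt_pos.2 (lt_of_lt_of_le hδ hY.1)
      have h2 := (ld_obsb_phi hδ.le ht hK hY).1
      have h3 : 0 < yOf t Y := by linarith
      positivity
    have z : ∀ Y ∈ uIcc (0 : ℝ) δ, Aof q g₀ c l Y * F l (yOf t Y)
        * (Real.sqrt (-t) / (2 * Real.sqrt Y * yOf t Y)) = (fun _ => (0 : ℝ)) Y := by
      intro Y hY
      rw [uIcc_of_le hδ.le] at hY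
      rw [(hA l).supp Y (Or.inl hY.2)]
      simp
    have i1 : IntervalIntegrable (fun Y => Aof q g₀ c l Y * F l (yOf t Y)
        * (Real.sqrt (-t) / (2 * Real.sqrt Y * yOf t Y))) volume 0 δ := by
      refine (intervalIntegrable_const (c := (0 : ℝ))).congr ?_
      intro Y hY
      exact (z Y (uIoc_subset_uIcc hY)).symm
    rw [← intervalIntegral.integral_add_adjacent_intervals i1 i2, intervalIntegral.integral_congr z]
    simp
  rw [e1, Finset.mul_sum]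
  simp_rw [e2]
  have i3 : ∀ l ∈ (Finset.univ : Finset (Fin 3)), IntervalIntegrable
      (fun Y => (c l Y * rrF q t Y) * uV u l (yOf t Y)) volume δ K := by
    intro l _
    refine ContinuousOn.intervalIntegrable_of_Icc hδK.le ?_
    refine ((hc l).continuous.continuousOn.mul ?_).mul (ld_obsb_comp hδ.le ht hK (ld_obsb_uV_ci hu l))
    unfold rrF
    refine ContinuousOn.div ?_ (ld_yOf_continuous t).continuousOn (fun Y hY => ?_)
    · refine (continuousOn_const.add (continuousOn_const.div (continuousOn_const.mul continuousOn_id)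
        (fun Y hY => ?_))).pow 3
      have : 0 < Y := lt_of_lt_of_le hδ hY.1
      exact (mul_pos hΛ this).ne'
    · have h2 := (ld_obsb_phi hδ.le ht hK hY).1
      linarith
  rw [intervalIntegral.integral_finsetSum i3, Finset.mul_sum]
  refine Finset.sum_congr rfl (fun l _ => ?_)
  rw [← intervalIntegral.integral_const_mul, ← intervalIntegral.integral_const_mul]
  refine intervalIntegral.integral_congr (fun Y hY => ?_)
  rw [uIcc_of_le hδK.le] at hY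
  have hY0 : 0 < Y := lt_of_lt_of_le hδ hY.1
  obtain ⟨hφ1, -, hφ3⟩ := ld_obsb_phi hδ.le ht hK hY
  have hφ0 : 0 < yOf t Y := by linarith
  have hXY : Xf (yOf t Y) = (-t) * Y := by unfold Xf; linarith
  simp only [hF]
  rw [ld_obsb_wH hδ.le ht hK hY, hXY, ld_obsb_rpow hΛ]
  unfold Aof omInf rrF
  have hS : 0 < Real.sqrt (-t) := Real.sqrt_pos.2 hΛ
  have hR : 0 < Real.sqrt Y := Real.sqrt_pos.2 hY0
  have eS : -t = Real.sqrt (-t) ^ 2 := (Real.sq_sqrt hΛ.le).symm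
  have eR : Y = Real.sqrt Y ^ 2 := (Real.sq_sqrt hY0.le).symm
  have key := ld_obsb_alg hS hR (W := 1 + Y) (by linarith) (kapJ_pos hq0 l) hφ0 g₀ (c l Y) (ell2 q t)
    (uV u l (yOf t Y))
  rw [← eS, ← eR] at key
  exact key

theorem ld_obsb_rr_cont (hδ : 0 < δ) (ht : t < 0) (hK : K * (-t) ≤ 39 / 400) (q : ℝ) :
    ContinuousOn (rrF q t) (Icc δ K) := by
  have hΛ : 0 < -t := by linarith
  unfold rrF
  refine ContinuousOn.div ?_ (ld_yOf_continuous t).continuousOn (fun Y hY => ?_)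
  · refine (continuousOn_const.add (continuousOn_const.div (continuousOn_const.mul continuousOn_id)
      (fun Y hY => ?_))).pow 3
    have : 0 < Y := lt_of_lt_of_le hδ hY.1
    exact (mul_pos hΛ this).ne'
  · have h2 := (ld_obsb_phi hδ.le ht hK hY).1
    linarith

/-- **(M)**. -/
theorem ld_mismatch (hq : 100 ≤ q) (hδ : 0 < δ) (hδK : δ < K) {c : Fin 3 → ℝ → ℝ} (hc : ∀ l, CcB δ K (c l)) :
    ∃ C : ℝ, 0 ≤ C ∧ ∀ g₀ : ℝ, ∀ t < 0, -t ≤ 100 / q → K * (-t) ≤ 39 / 400 →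
    ∀ u : Fin 3 → ℝ → ℝ, (∀ l, CI (u l)) →
      |2 * ((-t) ^ (95 / 2 : ℝ) * pairE q (wH 3 52 q t) u (slT (Actu (Aof q g₀ c)) t)) - 2 * g₀ / (-t) * Obs c t u|
        ≤ |g₀| * C * Real.sqrt ((-t) ^ (95 / 2 : ℝ) * En q (wH 3 52 q t) u) := by
  obtain ⟨Mc, hMc0, hMc⟩ := ld_obsb_bdd hc
  obtain ⟨Cr, hCr0, hCr⟩ := ld_rr_bound hq hδ hδK
  obtain ⟨CE, hCE, hE⟩ := ld_core_En hq hδ hδK
  have hKδ : 0 ≤ K - δ := by linarith
  refine ⟨2 * (Mc * Cr) * Real.sqrt (6 * (K - δ) * CE), by positivity, ?_⟩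
  intro g₀ t ht hΛq hK u hu
  have hΛ : 0 < -t := by linarith
  set B := (-t) ^ (95 / 2 : ℝ) * En q (wH 3 52 q t) u with hB
  set w : Fin 3 → ℝ → ℝ := fun l Y => c l Y * (rrF q t Y - 1) with hw
  have hrc := ld_obsb_rr_cont hδ ht hK q
  have hwc : ∀ l, ContinuousOn (w l) (Icc δ K) := fun l =>
    (hc l).continuous.continuousOn.mul (hrc.sub continuousOn_const)
  have hwM : ∀ l, ∀ Y ∈ Icc δ K, |w l Y| ≤ Mc * Cr * (-t) := by
    intro l Y hY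
    simp only [hw]
    rw [abs_mul]
    calc |c l Y| * |rrF q t Y - 1| ≤ Mc * (Cr * (-t)) :=
          mul_le_mul (hMc l Y) (hCr t ht hΛq hK Y hY) (abs_nonneg _) hMc0
      _ = Mc * Cr * (-t) := by ring
  have hcs := ld_core_cs (q := q) (by linarith) hδ.le hδK.le hwc hwM ht hK hu
  set J := ∫ Y in δ..K, ∑ l, w l Y * uV u l (yOf t Y) with hJ
  have hEn := hE t ht hK u hu
  have hn0 : 0 ≤ ∫ Y in δ..K, n2 q u (yOf t Y) :=
    intervalIntegral.integral_nonneg hδK.le (fun Y _ => n2_nonneg (by linarith) u _)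
  have hB0 : 0 ≤ CE * B := hn0.trans hEn
  have hJ2 : J ^ 2 ≤ (Mc * Cr * (-t)) ^ 2 * ((6 * (K - δ) * CE) * B) := by
    calc J ^ 2 ≤ 6 * (Mc * Cr * (-t)) ^ 2 * (K - δ) * ∫ Y in δ..K, n2 q u (yOf t Y) := hcs
      _ ≤ 6 * (Mc * Cr * (-t)) ^ 2 * (K - δ) * (CE * B) := mul_le_mul_of_nonneg_left hEn (by positivity)
      _ = _ := by ring
  have hJabs : |J| ≤ (Mc * Cr * (-t)) * (Real.sqrt (6 * (K - δ) * CE) * Real.sqrt B) := by
    have h1 : |J| ≤ Real.sqrt ((Mc * Cr * (-t)) ^ 2 * ((6 * (K - δ) * CE) * B)) := Real.abs_le_sqrt hJ2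
    rw [Real.sqrt_mul (sq_nonneg _), Real.sqrt_sq (by positivity),
      Real.sqrt_mul (by positivity)] at h1
    exact h1
  -- the identity
  have hid : 2 * ((-t) ^ (95 / 2 : ℝ) * pairE q (wH 3 52 q t) u (slT (Actu (Aof q g₀ c)) t))
      - 2 * g₀ / (-t) * Obs c t u = 2 * g₀ / (-t) * J := by
    rw [ld_pairE_Actu hq hδ hδK hc g₀ ht hK hu, ld_obsb_Obs hδ.le hδK.le hc ht hK hu, hJ]
    have i1 : IntervalIntegrable (fun Y => ∑ l, (c l Y * rrF q t Y) * uV u l (yOf t Y)) volume δ K :=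
      (continuousOn_finsetSum _ (fun l _ => ((hc l).continuous.continuousOn.mul hrc).mul
        (ld_obsb_comp hδ.le ht hK (ld_obsb_uV_ci hu l)))).intervalIntegrable_of_Icc hδK.le
    have i2 : IntervalIntegrable (fun Y => ∑ l, c l Y * uV u l (yOf t Y)) volume δ K :=
      (continuousOn_finsetSum _ (fun l _ => (hc l).continuous.continuousOn.mul
        (ld_obsb_comp hδ.le ht hK (ld_obsb_uV_ci hu l)))).intervalIntegrable_of_Icc hδK.le
    have e : (∫ Y in δ..K, ∑ l, w l Y * uV u l (yOf t Y))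
        = (∫ Y in δ..K, ∑ l, (c l Y * rrF q t Y) * uV u l (yOf t Y)) - ∫ Y in δ..K, ∑ l, c l Y * uV u l (yOf t Y) := by
      rw [← intervalIntegral.integral_sub i1 i2]
      refine intervalIntegral.integral_congr (fun Y _ => ?_)
      simp only [hw]
      rw [← Finset.sum_sub_distrib]
      refine Finset.sum_congr rfl (fun l _ => ?_)
      ring
    rw [e]
    ring
  rw [hid, abs_mul, abs_div, abs_mul, abs_of_pos hΛ, abs_of_pos (by norm_num : (0 : ℝ) < 2)]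
  calc 2 * |g₀| / (-t) * |J| ≤ 2 * |g₀| / (-t) * ((Mc * Cr * (-t)) * (Real.sqrt (6 * (K - δ) * CE) * Real.sqrt B)) :=
        mul_le_mul_of_nonneg_left hJabs (by positivity)
    _ = |g₀| * (2 * (Mc * Cr) * Real.sqrt (6 * (K - δ) * CE)) * Real.sqrt B := by
        have ht0 : -t ≠ 0 := hΛ.ne'
        generalize -t = L at ht0
        field_simp

end

end Claimed.Agent.R324.Core
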