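/-
Row 324 (S0582), PDE core, module LD.   Blueprint 7.4, tag LD2 (engine wrapper).      FILE LD/Wrap      (helper325)
`engine2` (R324/Engine2.lean) with `T = 0`, `a = g.Z`, `b_j = g.w1`, `c = g.cf q`:   existence of smooth solutions of
      `∂_t U = Lop q g U + Σ_i e_i ∫_{-1}^1 Σ_l k_il U_l dξ + F`,     `U = 0` for `t ≤ t₁`,
for ABSTRACT finite rank data `e, k` (smooth triples).      For `(L_s)` of 7.4 take `g := bgR q g₀`, `e_i := -s Ac_i`, `k_i :=` kernel of `B_i`.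
* `ld2_loc`:  `e2Loc q g.Z (fun _ => g.w1) (g.cf q) U j t y = Lop q g U j (t,y)`:   unfold `e2Loc`, `Lop`, `dY`, `Xf`;   `iteratedDeriv 2 f y = deriv (deriv f) y` (`iteratedDeriv_succ`, `iteratedDeriv_one`; compare `cl_sb_iter2` in Core/CL/Scal.lean);
     `e2dim q j = dimJ q j`, `e2fac j k y = facJ j k y` by `rfl`/`unfold`;  `ring`/`congr`.
-/
import Claimed.Agent.R324.Engine2
import Claimed.Agent.R324.Core.PR.SmBg

set_option autoImplicit false

namespace Claimed.Agent.R324.Core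

open Set Filter Topology MeasureTheory
open scoped ContDiff

theorem ld2_loc (q : ℕ) (g : Bg) (U : Tri) (j : Fin 3) (t y : ℝ) :
    e2Loc q g.Z (fun _ => g.w1) (g.cf q) U j t y = Lop q g U j (t, y) := by
  have h2 : iteratedDeriv 2 (fun z => U j (t, z)) y = dY (dY (U j)) (t, y) := by
    rw [show (2 : ℕ) = 1 + 1 from rfl, iteratedDeriv_succ, iteratedDeriv_one]
    rfl
  unfold e2Loc Lop
  rw [h2]
  have hd : e2dim q j = dimJ q j := rfl
  have hf : ∀ k, e2fac j k y = facJ j k y := fun k => rfl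
  simp only [hd, hf, Xf, dY]

/-- **LD2**: existence for the linear system with a finite rank non local term. -/
theorem ld2_exists (q : ℕ) (hq : Odd q) (g : Bg) (hs : BgSm g) (N : ℕ) (e k : Fin N → Tri)
    (he : ∀ i j, Sm (e i j)) (hk : ∀ i j, Sm (k i j)) (F : Tri) (hF : ∀ j, Sm (F j)) (t₁ : ℝ)
    (hF0 : ∀ j, ∀ t ≤ t₁, ∀ y ∈ Icc (-1 : ℝ) 1, F j (t, y) = 0) :
    ∃ U : Tri, (∀ j, Sm (U j)) ∧ (∀ j, ∀ t ≤ t₁, ∀ y ∈ Icc (-1 : ℝ) 1, U j (t, y) = 0) ∧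
      ∀ j, ∀ t < 0, ∀ y ∈ Icc (-1 : ℝ) 1,
        dT (U j) (t, y) = Lop q g U j (t, y)
          + ∑ i, e i j (t, y) * (∫ ξ in (-1 : ℝ)..1, ∑ l, k i l (t, ξ) * U l (t, ξ)) + F j (t, y) := by
  obtain ⟨U, hU, hU0, hEq⟩ := engine2 q hq t₁ 0 g.Z (fun _ => g.w1) F (g.cf q) N e k hs.smZ (fun _ => hs.smw1) hF
    (fun j l => hs.smcf q j l) he hk (fun t ht y _ => hs.Z_pos ht y) hF0
  refine ⟨U, hU, hU0, fun j t ht y hy => ?_⟩
  have h := hEq j t ht y hy
  rw [ld2_loc] at h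
  exact h

end Claimed.Agent.R324.Core
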