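/-
Row 324 (S0582), PDE core, module LD (`linear_solve`), architect helper217.   Blueprint 7.4 (origin/helper232:docs/R324_blueprint.md).   PORT of R325/Core/LD (packed in Claimed/Agent/R325/Pk37..Pk48.lean).      FILE LD/SmoothB
   Λ = -t,  X = Xf y = 1 - y²,  Y = X/Λ,  τ = tauOf t = -log Λ;   u-form of a slice u = (σ, h₃, b):  uV u = (σ, h₃, X b);   κ = kapJ q;   𝕀 = II  (Core/W/Ibp.lean);   definitions of this module: Core/LD/Defs.lean.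
Smoothness of the actuators, of the observation kernels, of the observations as functions of time;  the engine wrapper `ld_wrapper`.     (R325 analogue: LD/SmoothA.lean in Pk39, LD/WrapD.lean in Pk40.)
Tools: Core/PR/Sm.lean (`Sm.mul`, `Sm.div`, `Sm.comp`, `sm_of_y`, `sm_of_t`, `sm_fst`, `sm_Xf`, `sm_sum`, `sm_of_eventuallyEq`, `sm_of_contDiffAt`), `psi1_contDiff`, `psi1_eq_zero` (Core/PR/SmR.lean), `e2_contDiffOn_integral` (R324/E2/Dui.lean; `Sm f` is `E2Sm 0 f` by `rfl`), LD/BasicT.lean.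
* `ld_int_contDiffOn`:  `∫_{-1}^1 F(t,ξ) dξ = 2 ∫_0^1 F(t, 2x-1) dx`  (`intervalIntegral.integral_comp_mul_add`/`smul_integral_comp_mul_add`), `(t,x) ↦ F(t,2x-1)` is `E2Sm 0` (`ContDiffOn.comp` with the smooth map `(t,x) ↦ (t,2x-1)`);  `e2_contDiffOn_integral`.     `ld_int_hasDerivAt` the same with `e2_hasDerivAt_integral` (`e2Pdt G (t,x) = dT F (t,2x-1)` by `rfl`).
* `ld_Obs_contDiffOn`:  `ld_int_contDiffOn` for `F p = Σ_l kOb c l p * U l p`.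
* `ld_ObsV_contDiff`:  `contDiff_euclidean`/`contDiff_pi`-type + `ContDiffOn.comp_contDiff` with `tOf` (`ld_tOf_contDiff`, `ld_tOf_neg`).   (Copy the R325 proof of `ld_ObsV_contDiff`, Pk39.)
* `ld_wrapper`:  `ld2_exists q hq (bgR q g) (bgR_sm .. hg) N e k .. S hS t₁ hS0` (Core/LD/Wrap.lean) with `e i j := fun p => -σ * Actu (A i) j p`, `k i l := kOb (b i) l`;   `Lt q g = Lop q (bgR q g)`, `Obs (b i) t (slT U t) = ∫ ξ in -1..1, Σ_l kOb (b i) l (t,ξ) * U l (t,ξ)` by `rfl`;   `Σ_i (-σ Actu_i) * O_i = -σ Σ_i O_i Actu_i` (`Finset.mul_sum`, `Finset.sum_congr`, ring).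
-/
import Claimed.Agent.R324.Core.LD.SmoothA
import Claimed.Agent.R324.Core.LD.Wrap

set_option autoImplicit false

namespace Claimed.Agent.R324.Core

open Set Filter Topology MeasureTheory
open scoped ContDiff

noncomputable section

open Claimed.Agent.R325 (CausalSmooth)

variable {N : ℕ} {δ K : ℝ} {c : Fin 3 → ℝ → ℝ} {U : Tri}

/-- `(t,x) ↦ F(t,2x-1)` is smooth. -/
theorem ld_smB_resc {F : Fn} (hF : Sm F) : E2Sm 0 (fun p : ℝ × ℝ => F (p.1, 2 * p.2 + (-1))) := by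
  have hmap : ContDiff ℝ ∞ (fun p : ℝ × ℝ => ((p.1, 2 * p.2 + (-1)) : ℝ × ℝ)) :=
    contDiff_fst.prodMk ((contDiff_const.mul contDiff_snd).add contDiff_const)
  exact ContDiffOn.comp (g := F) (t := Iio (0 : ℝ) ×ˢ (univ : Set ℝ)) hF hmap.contDiffOn
    (fun p hp => ⟨hp.1, mem_univ _⟩)

/-- `∫_{-1}^1 f = 2 ∫_0^1 f(2x-1) dx`. -/
theorem ld_smB_subst (f : ℝ → ℝ) : ∫ ξ in (-1 : ℝ)..1, f ξ = 2 * ∫ x in (0 : ℝ)..1, f (2 * x + (-1)) := by
  rw [intervalIntegral.integral_comp_mul_add f (two_ne_zero) (-1)]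
  norm_num
  ring

theorem ld_int_contDiffOn {F : Fn} (hF : Sm F) : ContDiffOn ℝ ∞ (fun t => ∫ ξ in (-1 : ℝ)..1, F (t, ξ)) (Iio 0) := by
  have h := (contDiffOn_const (c := (2 : ℝ))).mul (e2_contDiffOn_integral (ld_smB_resc hF))
  refine h.congr (fun t _ => ?_)
  exact ld_smB_subst (fun ξ => F (t, ξ))

theorem ld_int_hasDerivAt {F : Fn} (hF : Sm F) {t : ℝ} (ht : t < 0) :
    HasDerivAt (fun s => ∫ ξ in (-1 : ℝ)..1, F (s, ξ)) (∫ ξ in (-1 : ℝ)..1, dT F (t, ξ)) t := by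
  have h := (e2_hasDerivAt_integral (ld_smB_resc hF) ht).const_mul 2
  have e1 : (fun s => ∫ ξ in (-1 : ℝ)..1, F (s, ξ))
      = fun s => 2 * ∫ x in (0 : ℝ)..1, (fun p : ℝ × ℝ => F (p.1, 2 * p.2 + (-1))) (s, x) := by
    funext s
    exact ld_smB_subst (fun ξ => F (s, ξ))
  have e2 : ∫ ξ in (-1 : ℝ)..1, dT F (t, ξ)
      = 2 * ∫ x in (0 : ℝ)..1, e2Pdt (fun p : ℝ × ℝ => F (p.1, 2 * p.2 + (-1))) (t, x) :=
    ld_smB_subst (fun ξ => dT F (t, ξ))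
  rw [e1, e2]
  exact h

/-- the observation is a smooth function of `t < 0`. -/
theorem ld_Obs_contDiffOn (hc : ∀ l, ContDiff ℝ ∞ (c l)) (hU : ∀ j, Sm (U j)) :
    ContDiffOn ℝ ∞ (fun t => Obs c t (slT U t)) (Iio 0) :=
  ld_int_contDiffOn (F := fun p => ∑ l, kOb c l p * U l p)
    (sm_sum Finset.univ fun l _ => (ld_kOb_smooth hc l).mul (hU l))

theorem ld_ObsV_contDiff {c : Fin N → Fin 3 → ℝ → ℝ} (hc : ∀ i l, ContDiff ℝ ∞ (c i l)) (hU : ∀ j, Sm (U j)) :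
    ContDiff ℝ ∞ (ObsV c U) := by
  rw [contDiff_euclidean]
  intro i
  exact (ld_Obs_contDiffOn (hc i) hU).comp_contDiff ld_tOf_contDiff (fun τ => ld_tOf_neg τ)

/-- `Obs` only sees the slice on `[-1,1]`. -/
theorem ld_smB_Obs_congr (c : Fin 3 → ℝ → ℝ) (t : ℝ) {u v : Fin 3 → ℝ → ℝ}
    (h : ∀ l, ∀ y ∈ Icc (-1 : ℝ) 1, u l y = v l y) : Obs c t u = Obs c t v := by
  unfold Obs
  refine intervalIntegral.integral_congr (fun ξ hξ => ?_)
  rw [uIcc_of_le (by norm_num : (-1 : ℝ) ≤ 1)] at hξ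
  exact Finset.sum_congr rfl fun l _ => by rw [h l ξ hξ]

theorem ld_ObsV_van (c : Fin N → Fin 3 → ℝ → ℝ) {τa : ℝ} (hU : VanB (tOf τa) U) : ∀ τ ≤ τa, ObsV c U τ = 0 := by
  intro τ hτ
  have h1 : tOf τ ≤ tOf τa := (ld_tOf_le_iff τ τa).2 hτ
  ext i
  show Obs (c i) (tOf τ) (slT U (tOf τ)) = 0
  rw [ld_smB_Obs_congr (c i) (tOf τ) (u := slT U (tOf τ)) (v := fun _ _ => 0)
    (fun l y hy => hU l (tOf τ) h1 y hy)]
  simp [Obs]

theorem ld_ObsV_causal {c : Fin N → Fin 3 → ℝ → ℝ} (hc : ∀ i l, ContDiff ℝ ∞ (c i l)) (hU : ∀ j, Sm (U j)) {τa : ℝ}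
    (hv : VanB (tOf τa) U) : CausalSmooth τa (ObsV c U) :=
  ⟨ld_ObsV_contDiff hc hU, ld_ObsV_van c hv⟩

theorem ld_ObsV_congr (c : Fin N → Fin 3 → ℝ → ℝ) {U V : Tri}
    (h : ∀ j, ∀ t < 0, ∀ y ∈ Icc (-1 : ℝ) 1, U j (t, y) = V j (t, y)) : ObsV c U = ObsV c V := by
  funext τ
  ext i
  show Obs (c i) (tOf τ) (slT U (tOf τ)) = Obs (c i) (tOf τ) (slT V (tOf τ))
  exact ld_smB_Obs_congr (c i) (tOf τ) (fun l y hy => h l (tOf τ) (ld_tOf_neg τ) y hy)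

/-- **LD2.**  Existence of smooth solutions of `(L_σ)`. -/
theorem ld_wrapper (q : ℕ) (hq : Odd q) (hq1 : 1 < (q : ℝ)) {g : Bg} (hg : BgSm g) (hδ : 0 < δ)
    {b A : Fin N → Fin 3 → ℝ → ℝ} (hb : ∀ i l, CcB δ K (b i l)) (hA : ∀ i l, CcB δ K (A i l)) (σ : ℝ)
    {S : Tri} (hS : ∀ j, Sm (S j)) {t₁ : ℝ} (hS0 : VanB t₁ S) :
    ∃ U : Tri, (∀ j, Sm (U j)) ∧ VanB t₁ U ∧ SolL q g b A σ S U := by
  obtain ⟨U, hU, hU0, hEq⟩ := ld2_exists q hq (bgR q g) (bgR_sm hq1 hg) N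
    (fun i j p => -σ * Actu (A i) j p) (fun i l => kOb (b i) l)
    (fun i j => (ld_Actu_smooth hδ (hA i) j).const_mul (-σ))
    (fun i l => ld_kOb_smooth (fun l => (hb i l).smooth) l) S hS t₁ hS0
  refine ⟨U, hU, hU0, fun j t ht y hy => ?_⟩
  rw [hEq j t ht y hy]
  have e : ∑ i, -σ * Actu (A i) j (t, y) * (∫ ξ in (-1 : ℝ)..1, ∑ l, kOb (b i) l (t, ξ) * U l (t, ξ))
      = -(σ * ∑ i, Obs (b i) t (slT U t) * Actu (A i) j (t, y)) := by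
    rw [Finset.mul_sum, ← Finset.sum_neg_distrib]
    refine Finset.sum_congr rfl fun i _ => ?_
    show -σ * Actu (A i) j (t, y) * Obs (b i) t (slT U t) = _
    ring
  rw [e]
  show Lop q (bgR q g) U j (t, y) + _ + _ = Lop q (bgR q g) U j (t, y) - _ + _
  ring

end

end Claimed.Agent.R324.Core
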