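/-
Row 324 (S0582), PDE core, module LD (`linear_solve`), architect helper217.   Blueprint 7.4 (origin/helper232:docs/R324_blueprint.md).   PORT of R325/Core/LD (packed in Claimed/Agent/R325/Pk37..Pk48.lean).      FILE LD/HeavyS
   Λ = -t,  X = Xf y = 1 - y²,  Y = X/Λ,  τ = tauOf t = -log Λ;   u-form of a slice u = (σ, h₃, b):  uV u = (σ, h₃, X b);   κ = kapJ q;   𝕀 = II  (Core/W/Ibp.lean);   definitions of this module: Core/LD/Defs.lean.
LD1' (heavy estimate B), differential form.      (R325 analogue: LD/HeavyS.lean in Pk42.)      `V = wH 3 52 q t`, `ν = 95/2`, `EEB q U t = Λ^ν En q V (slT U t)`, `DDB q U t = Λ^ν Di q V (slT U t)`  (Core/Defs.lean), `g̃ = bgR q g`.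
* `HeavyData.mono`:  all fields are monotone in `Λ₀` (`Real.sqrt_le_sqrt`, `mul_le_mul_of_nonneg_left`; `K > 0`);  `coer`: `Ico (-Λ₁) 0 ⊆ Ico (-Λ₀) 0`.       `HeavyData.bumpA`: `ccB_Aof` (LD/BasicC.lean).
* `ld_pairE_*`:  `pairE q V u v = 𝕀[X V Σ_k κ_k (uV u)_k (uV v)_k]`;  `uV` is linear in the slice (`uV_eq_xJ`), `ipK` is linear in the second argument;  `ii_congr`, `ii_add`, `ii_const_mul`, `ii_sum` (Core/W/Ibp.lean); all integrands are continuous on `[-1,1]` (`ContinuousOn.mul`, `Finset` sums; `uV u k = xJ k * u k`).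
* `ld_pairE_cs`:  `|ipK ξ η| ≤ √(nk ξ) √(nk η)` (`ipK_abs_le`), `n2_eq_nk`;   `ii_cs` with `f = √(X V n2 u)`, `g = √(X V n2 v)` (or `ii_cs_wt`, Core/W/IiCS.lean);  `En q V u = 𝕀[X V n2 q u]` (`Xf y = 1 - y²` by `rfl`/unfold).
* `ld_heavy_diff`.   `EEB q U = fun s => (-s)^ν * En q (wH 3 52 q s) (slT U s)`:  product rule with `ld_rpow_hasDerivAt` and `ld0_energy q (bgR_sm .. hg.sm) (smS_wH 3 52 q) hU ht` (Core/LD0/Energy.lean; its right hand side is `QH q g̃ 3 52 t u + 2 pairE q V u (slT (dfL q g̃ U) t)` by `rfl`/unfold `QH pairE sl`):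
       `e = -ν Λ^{ν-1} En + Λ^ν (QH + 2 pairE(u, dfL))`,     `Λ^{ν-1} = Λ^ν/Λ` (`Real.rpow_sub_one`).
   On `[-1,1]`:  `dfL q g̃ U j (t,y) = - Σ_i O_i Actu_i j (t,y) + Q j y` (`heq`; `Lt q g = Lop q g̃`), so  `pairE(u, dfL) = - Σ_i O_i pairE(u, Actu_i) + pairE(u, Q)`  (`ld_pairE_congr`, `_add`, `_sum`, `_smul`; the slices of `Actu` are continuous: `ld_Actu_smooth`, `Sm.sl`).      Then `H.coer t ht (slT U t) (smI_slT hU ht.2)` multiplied by `Λ^ν > 0`.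
* `ld_heavy_forceS`:  pointwise  `2 X V |ipK(u,S)| ≤ 2 X V √(n2 u) √(n2 S) ≤ ε q V n2(u) + (1/(ε q)) X² V n2(S)`  (`ipK_abs_le`, `n2_eq_nk`; `2ab ≤ ε q a² + b²/(ε q)`),  `ii_mono`;   `𝕀[V q n2 u] ≤ Di q V u`  (`n2t ≥ 0`).
* `ld_heavy_forceM`:  `pairE(u, Σ ν_i Actu_i) = Σ ν_i pairE(u, Actu_i)`,  `|Λ^ν pairE(u, Actu_i)| ≤ √(EEB-part of u) √(Λ^ν En(Actu_i)) ≤ √E √(C_i)/Λ`  (`ld_pairE_cs`, `ld_EEB_Actu` in LD/CoreE.lean for `A = AofV q g₀ b i`),   `2 |ν_i| √E √C_i/Λ ≤ E/(4 N' Λ) + 4 N' C_i ν_i²/Λ`, `N' = N + 1`; sum over `i`.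
* `ld_heavy_HE`:  `ld_heavy_diff` with `Q j y = S j (t,y) + Σ_i m_i(τ(t)) Actu_i j (t,y)`;  `ld_pairE_add`;  `ld_heavy_forceS` with `ε = cH/2` (times `Λ^ν`), `ld_heavy_forceM` with `ν = m (tauOf t)`,  `Σ ν_i² = ‖m‖²` (`EuclideanSpace.real_norm_sq_eq`/`EuclideanSpace.norm_sq_eq`);   `119/4 - 1/4 = 59/2 ≥ 29`, `EEB ≥ 0`.
-/
import Claimed.Agent.R324.Core.LD.ObsB
import Claimed.Agent.R324.Core.LD.CoerS
import Claimed.Agent.R324.Core.LD.SmoothB
import Claimed.Agent.R324.Core.LD.WE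

set_option autoImplicit false

namespace Claimed.Agent.R324.Core

open Set Filter Topology MeasureTheory
open scoped ContDiff

noncomputable section

variable {N : ℕ} {q : ℝ} {g : Bg} {b : Fin N → Fin 3 → ℝ → ℝ} {δ K g₀ Λ₀ cH : ℝ}

theorem HeavyData.mono (H : HeavyData q g N b δ K g₀ Λ₀ cH) {Λ₁ : ℝ} (h0 : 0 < Λ₁) (h1 : Λ₁ ≤ Λ₀) :
    HeavyData q g N b δ K g₀ Λ₁ cH := by
  exact
    { δpos := H.δpos
      δK := H.δK
      gpos := H.gpos
      cpos := H.cpos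
      Λpos := h0
      Λle := h1.trans H.Λle
      small := (mul_le_mul_of_nonneg_left h1 (H.δpos.trans H.δK).le).trans H.small
      cone1 := lt_of_le_of_lt (mul_le_mul_of_nonneg_left (Real.sqrt_le_sqrt h1) (by norm_num)) H.cone1
      cone2 := lt_of_le_of_lt (mul_le_mul_of_nonneg_left (Real.sqrt_le_sqrt h1) (H.δpos.trans H.δK).le) H.cone2
      bump := H.bump
      coer := fun t ht => H.coer t ⟨by linarith [ht.1], ht.2⟩ }

theorem HeavyData.bumpA (hq : 0 < q) (H : HeavyData q g N b δ K g₀ Λ₀ cH) (i : Fin N) (l : Fin 3) :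
    CcB δ K (AofV q g₀ b i l) :=
  ccB_Aof H.δpos hq g₀ (H.bump i l)

theorem HeavyData.Kpos (H : HeavyData q g N b δ K g₀ Λ₀ cH) : 0 < K := H.δpos.trans H.δK

/-- times `t ∈ [-Λ₀,0)` are core times. -/
theorem HeavyData.core (H : HeavyData q g N b δ K g₀ Λ₀ cH) {t : ℝ} (ht : t ∈ Ico (-Λ₀) 0) : K * (-t) ≤ 39 / 400 :=
  (mul_le_mul_of_nonneg_left (by linarith [ht.1]) H.Kpos.le).trans H.small

section pair

variable {V : ℝ → ℝ} {u v v' : Fin 3 → ℝ → ℝ}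

theorem ld_hs_Xf_ci : CI Xf := by
  have h : Continuous Xf := by
    unfold Xf
    fun_prop
  exact h.continuousOn

theorem ld_hs_uV_ci (hu : ∀ l, CI (u l)) (k : Fin 3) : CI (fun y => uV u k y) := by
  have e : (fun y => uV u k y) = fun y => xJ k y * u k y := funext (uV_eq_xJ u k)
  rw [e]
  refine ContinuousOn.mul ?_ (hu k)
  unfold xJ
  split_ifs
  · exact ld_hs_Xf_ci
  · exact continuousOn_const

theorem ld_hs_n2_ci (q : ℝ) (hu : ∀ l, CI (u l)) : CI (n2 q u) := by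
  have e : n2 q u = fun y => ∑ i, kapJ q i * (uV u i y) ^ 2 := by
    funext y
    rw [n2_eq_nk]
    rfl
  rw [e]
  exact continuousOn_finsetSum _ fun i _ => continuousOn_const.mul ((ld_hs_uV_ci hu i).pow 2)

theorem ld_pairE_ci (q : ℝ) (hV : CI V) (hu : ∀ l, CI (u l)) (hv : ∀ l, CI (v l)) :
    CI (fun y => Xf y * V y * ipK q (fun k => uV u k y) (fun k => uV v k y)) := by
  refine (ld_hs_Xf_ci.mul hV).mul ?_
  unfold ipK
  exact continuousOn_finsetSum _ fun i _ =>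
    (continuousOn_const.mul (ld_hs_uV_ci hu i)).mul (ld_hs_uV_ci hv i)

theorem ld_pairE_congr (q : ℝ) (V : ℝ → ℝ) (u : Fin 3 → ℝ → ℝ) (h : ∀ l, ∀ y ∈ Icc (-1 : ℝ) 1, v l y = v' l y) :
    pairE q V u v = pairE q V u v' := by
  unfold pairE
  refine ii_congr fun y hy => ?_
  have e : (fun k => uV v k y) = fun k => uV v' k y := by
    funext k
    rw [uV_eq_xJ, uV_eq_xJ, h k y hy]
  rw [e]

theorem ld_pairE_add (q : ℝ) (hV : CI V) (hu : ∀ l, CI (u l)) (hv : ∀ l, CI (v l)) (hv' : ∀ l, CI (v' l)) :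
    pairE q V u (fun l y => v l y + v' l y) = pairE q V u v + pairE q V u v' := by
  unfold pairE
  rw [← ii_add (ld_pairE_ci q hV hu hv) (ld_pairE_ci q hV hu hv')]
  refine ii_congr fun y _ => ?_
  simp only [ipK, uV_eq_xJ, Fin.sum_univ_three]
  ring

theorem ld_pairE_smul (q : ℝ) (V : ℝ → ℝ) (u v : Fin 3 → ℝ → ℝ) (a : ℝ) :
    pairE q V u (fun l y => a * v l y) = a * pairE q V u v := by
  unfold pairE
  rw [← ii_const_mul]
  refine ii_congr fun y _ => ?_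
  simp only [ipK, uV_eq_xJ, Fin.sum_univ_three]
  ring

theorem ld_pairE_sum (q : ℝ) (hV : CI V) (hu : ∀ l, CI (u l)) {ι : Type} (s : Finset ι) {F : ι → Fin 3 → ℝ → ℝ}
    (hF : ∀ k ∈ s, ∀ l, CI (F k l)) :
    pairE q V u (fun l y => ∑ k ∈ s, F k l y) = ∑ k ∈ s, pairE q V u (F k) := by
  unfold pairE
  rw [← ii_sum s (fun k hk => ld_pairE_ci q hV hu (hF k hk))]
  refine ii_congr fun y _ => ?_
  simp only [ipK, uV_eq_xJ]
  rw [← Finset.mul_sum, Finset.sum_comm]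
  congr 1
  refine Finset.sum_congr rfl fun i _ => ?_
  rw [Finset.mul_sum, Finset.mul_sum]

theorem ld_pairE_cs (hq : 0 < q) (hV : CI V) (hV0 : ∀ y ∈ Icc (-1 : ℝ) 1, 0 ≤ V y) (hu : ∀ l, CI (u l))
    (hv : ∀ l, CI (v l)) : |pairE q V u v| ≤ Real.sqrt (En q V u) * Real.sqrt (En q V v) := by
  have hX0 : ∀ y ∈ Icc (-1 : ℝ) 1, 0 ≤ Xf y := by
    intro y hy
    unfold Xf
    nlinarith [hy.1, hy.2]
  have cu : CI (fun y => Xf y * V y * n2 q u y) := (ld_hs_Xf_ci.mul hV).mul (ld_hs_n2_ci q hu)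
  have cv : CI (fun y => Xf y * V y * n2 q v y) := (ld_hs_Xf_ci.mul hV).mul (ld_hs_n2_ci q hv)
  have hF : CI (fun y => Real.sqrt (Xf y * V y * n2 q u y)) := cu.sqrt
  have hG : CI (fun y => Real.sqrt (Xf y * V y * n2 q v y)) := cv.sqrt
  have h1 : II (fun y => |Xf y * V y * ipK q (fun k => uV u k y) (fun k => uV v k y)|)
      ≤ II (fun y => Real.sqrt (Xf y * V y * n2 q u y) * Real.sqrt (Xf y * V y * n2 q v y)) := by
    refine ii_mono (ld_pairE_ci q hV hu hv).abs (hF.mul hG) (fun y hy => ?_)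
    have ha : 0 ≤ Xf y * V y := mul_nonneg (hX0 y hy) (hV0 y hy)
    rw [abs_mul, abs_of_nonneg ha, Real.sqrt_mul ha, Real.sqrt_mul ha, n2_eq_nk, n2_eq_nk]
    have h2 := ipK_abs_le hq (fun k => uV u k y) (fun k => uV v k y)
    have h3 := Real.mul_self_sqrt ha
    calc Xf y * V y * |ipK q (fun k => uV u k y) (fun k => uV v k y)|
        ≤ Xf y * V y * (Real.sqrt (nk q fun k => uV u k y) * Real.sqrt (nk q fun k => uV v k y)) :=
          mul_le_mul_of_nonneg_left h2 ha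
      _ = (Real.sqrt (Xf y * V y) * Real.sqrt (Xf y * V y))
            * (Real.sqrt (nk q fun k => uV u k y) * Real.sqrt (nk q fun k => uV v k y)) := by rw [h3]
      _ = _ := by ring
  have h3 := ii_cs hF hG
  have e1 : II (fun y => Real.sqrt (Xf y * V y * n2 q u y) ^ 2) = En q V u :=
    ii_congr (fun y hy => Real.sq_sqrt
      (mul_nonneg (mul_nonneg (hX0 y hy) (hV0 y hy)) (n2_nonneg hq u y)))
  have e2 : II (fun y => Real.sqrt (Xf y * V y * n2 q v y) ^ 2) = En q V v :=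
    ii_congr (fun y hy => Real.sq_sqrt
      (mul_nonneg (mul_nonneg (hX0 y hy) (hV0 y hy)) (n2_nonneg hq v y)))
  rw [e1, e2] at h3
  unfold pairE
  exact ((ii_abs_le _).trans h1).trans ((le_abs_self _).trans h3)

/-- forcing `S`. -/
theorem ld_heavy_forceS (hq : 0 < q) {ε : ℝ} (hε : 0 < ε) (hV : CI V) (hV0 : ∀ y ∈ Icc (-1 : ℝ) 1, 0 ≤ V y)
    (hu : ∀ l, SmI (u l)) (hv : ∀ l, CI (v l)) :
    2 * pairE q V u v ≤ ε * Di q V u + 1 / (ε * q) * II (fun y => (1 - y ^ 2) ^ 2 * V y * n2 q v y) := by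
  have hu' : ∀ l, CI (u l) := fun l => (hu l).continuousOn
  have hεq : 0 < ε * q := mul_pos hε hq
  have c1 : CI (fun y => V y * (q * n2 q u y)) := hV.mul (continuousOn_const.mul (ld_hs_n2_ci q hu'))
  have c2 : CI (fun y => (1 - y ^ 2) ^ 2 * V y * n2 q v y) :=
    ((ld_hs_Xf_ci.pow 2).mul hV).mul (ld_hs_n2_ci q hv)
  have c3 : CI (fun y => V y * (n2t q u y + q * n2 q u y)) :=
    hV.mul ((ci_n2t hu).add (continuousOn_const.mul (ld_hs_n2_ci q hu')))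
  have d1 : CI (fun y => ε * (V y * (q * n2 q u y))) := continuousOn_const.mul c1
  have d2 : CI (fun y => 1 / (ε * q) * ((1 - y ^ 2) ^ 2 * V y * n2 q v y)) := continuousOn_const.mul c2
  have h1 : II (fun y => 2 * (Xf y * V y * ipK q (fun k => uV u k y) (fun k => uV v k y)))
      ≤ II (fun y => ε * (V y * (q * n2 q u y)) + 1 / (ε * q) * ((1 - y ^ 2) ^ 2 * V y * n2 q v y)) := by
    refine ii_mono (continuousOn_const.mul (ld_pairE_ci q hV hu' hv)) (d1.add d2) (fun y hy => ?_)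
    have hX : 0 ≤ Xf y := by
      unfold Xf
      nlinarith [hy.1, hy.2]
    have hVy := hV0 y hy
    have h2 := (le_abs_self _).trans (ipK_abs_le hq (fun k => uV u k y) (fun k => uV v k y))
    rw [← n2_eq_nk, ← n2_eq_nk] at h2
    set A := Real.sqrt (n2 q u y) with hA
    set B := Real.sqrt (n2 q v y) with hB
    have eA : n2 q u y = A ^ 2 := (Real.sq_sqrt (n2_nonneg hq u y)).symm
    have eB : n2 q v y = B ^ 2 := (Real.sq_sqrt (n2_nonneg hq v y)).symm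
    have eX : (1 - y ^ 2) = Xf y := rfl
    rw [eA, eB, eX]
    have h4 : ε * q * A ^ 2 + 1 / (ε * q) * (Xf y ^ 2 * B ^ 2) - 2 * (Xf y * (A * B))
        = (ε * q * A - Xf y * B) ^ 2 / (ε * q) := by
      field_simp
      ring
    have h5 : 0 ≤ (ε * q * A - Xf y * B) ^ 2 / (ε * q) := by positivity
    have h6 : 2 * (Xf y * (A * B)) ≤ ε * q * A ^ 2 + 1 / (ε * q) * (Xf y ^ 2 * B ^ 2) := by linarith
    calc 2 * (Xf y * V y * ipK q (fun k => uV u k y) (fun k => uV v k y))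
        ≤ 2 * (Xf y * V y * (A * B)) := by
          have := mul_le_mul_of_nonneg_left h2 (mul_nonneg hX hVy)
          linarith
      _ = V y * (2 * (Xf y * (A * B))) := by ring
      _ ≤ V y * (ε * q * A ^ 2 + 1 / (ε * q) * (Xf y ^ 2 * B ^ 2)) := mul_le_mul_of_nonneg_left h6 hVy
      _ = _ := by ring
  rw [ii_const_mul, ii_add d1 d2, ii_const_mul, ii_const_mul] at h1
  have h7 : II (fun y => V y * (q * n2 q u y)) ≤ Di q V u := by
    unfold Di
    refine ii_mono c1 c3 (fun y hy => ?_)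
    exact mul_le_mul_of_nonneg_left (by linarith [n2t_nonneg hq u y]) (hV0 y hy)
  have h8 := mul_le_mul_of_nonneg_left h7 hε.le
  unfold pairE
  linarith

end pair

/-- The heavy differential inequality with an arbitrary forcing `Q` at time `t`. -/
theorem ld_heavy_diff (hq : 100 ≤ q) (hg : BgGood q g) (H : HeavyData q g N b δ K g₀ Λ₀ cH) {U : Tri}
    (hU : ∀ j, Sm (U j)) {Q : Fin 3 → ℝ → ℝ} (hQ : ∀ j, CI (Q j)) {t : ℝ} (ht : t ∈ Ico (-Λ₀) 0)
    (heq : ∀ j, ∀ y ∈ Icc (-1 : ℝ) 1, dT (U j) (t, y) = Lt q g U j (t, y)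
      - ∑ i, Obs (b i) t (slT U t) * Actu (AofV q g₀ b i) j (t, y) + Q j y) :
    ∃ e : ℝ, HasDerivAt (EEB q U) e t ∧
      e + cH * DDB q U t + 119 / 4 / (-t) * EEB q U t
        ≤ 2 * (-t) ^ (95 / 2 : ℝ) * pairE q (wH 3 52 q t) (slT U t) Q := by
  have ht0 : t < 0 := ht.2
  have hΛ : 0 < -t := by linarith
  have hq1 : 1 < q := by linarith
  have hq0 : 0 < q := by linarith
  have hE := ld0_energy q (bgR_sm hq1 hg.sm) (smS_wH 3 52 q) hU ht0
  have hR := ld_rpow_hasDerivAt (95 / 2) ht0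
  have hprod := hR.mul hE
  have hu : ∀ j, SmI (slT U t j) := smI_slT hU ht0
  have hco := H.coer t ht (slT U t) hu
  have hV : CI (wH 3 52 q t) := ((smS_wH 3 52 q).smI ht0).continuousOn
  have huc : ∀ l, CI (slT U t l) := fun l => (hu l).continuousOn
  have hAc : ∀ i l, CI (slT (Actu (AofV q g₀ b i)) t l) := fun i l =>
    ((ld_Actu_smooth H.δpos (H.bumpA hq0 i) l).sl ht0).continuous.continuousOn
  -- the forcing
  have hJ : pairE q (wH 3 52 q t) (slT U t) (slT (dfL q (bgR q g) U) t)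
      = - ∑ i, Obs (b i) t (slT U t) * pairE q (wH 3 52 q t) (slT U t) (slT (Actu (AofV q g₀ b i)) t)
        + pairE q (wH 3 52 q t) (slT U t) Q := by
    have h1 : pairE q (wH 3 52 q t) (slT U t) (slT (dfL q (bgR q g) U) t)
        = pairE q (wH 3 52 q t) (slT U t) (fun l y =>
            (∑ i ∈ (Finset.univ : Finset (Fin N)),
              (-Obs (b i) t (slT U t)) * slT (Actu (AofV q g₀ b i)) t l y) + Q l y) := by
      refine ld_pairE_congr q _ _ fun l y hy => ?_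
      have := heq l y hy
      simp only [slT, dfL]
      rw [this]
      unfold Lt
      rw [Finset.sum_congr rfl (fun i _ => neg_mul _ _), Finset.sum_neg_distrib]
      ring
    have hF : ∀ i ∈ (Finset.univ : Finset (Fin N)), ∀ l,
        CI ((fun i l y => (-Obs (b i) t (slT U t)) * slT (Actu (AofV q g₀ b i)) t l y) i l) :=
      fun i _ l => continuousOn_const.mul (hAc i l)
    have hS : ∀ l, CI (fun y => ∑ i ∈ (Finset.univ : Finset (Fin N)),
        (-Obs (b i) t (slT U t)) * slT (Actu (AofV q g₀ b i)) t l y) :=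
      fun l => continuousOn_finsetSum _ fun i hi => hF i hi l
    rw [h1, ld_pairE_add q hV huc hS hQ, ld_pairE_sum q hV huc Finset.univ hF]
    congr 1
    rw [← Finset.sum_neg_distrib]
    refine Finset.sum_congr rfl fun i _ => ?_
    rw [ld_pairE_smul]
    ring
  refine ⟨_, hprod, ?_⟩
  have hpw : (-t) ^ (95 / 2 - 1 : ℝ) = (-t) ^ (95 / 2 : ℝ) / (-t) := Real.rpow_sub_one hΛ.ne' _
  have hR0 : 0 < (-t) ^ (95 / 2 : ℝ) := Real.rpow_pos_of_pos hΛ _
  rw [hpw]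
  unfold DDB EEB
  show -(95 / 2) * ((-t) ^ (95 / 2 : ℝ) / -t) * En q (wH 3 52 q t) (slT U t)
      + (-t) ^ (95 / 2 : ℝ) * (QH q (bgR q g) 3 52 t (slT U t)
          + 2 * pairE q (wH 3 52 q t) (slT U t) (slT (dfL q (bgR q g) U) t))
      + cH * ((-t) ^ (95 / 2 : ℝ) * Di q (wH 3 52 q t) (slT U t))
      + 119 / 4 / -t * ((-t) ^ (95 / 2 : ℝ) * En q (wH 3 52 q t) (slT U t))
    ≤ 2 * (-t) ^ (95 / 2 : ℝ) * pairE q (wH 3 52 q t) (slT U t) Q
  rw [hJ]
  set R := (-t) ^ (95 / 2 : ℝ) with hRdef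
  set E := En q (wH 3 52 q t) (slT U t) with hEdef
  set D := Di q (wH 3 52 q t) (slT U t) with hDdef
  set QQ := QH q (bgR q g) 3 52 t (slT U t) with hQQ
  set JQ := pairE q (wH 3 52 q t) (slT U t) Q with hJQ
  set OO := ∑ i, Obs (b i) t (slT U t) * pairE q (wH 3 52 q t) (slT U t) (slT (Actu (AofV q g₀ b i)) t)
    with hOO
  have hm := mul_le_mul_of_nonneg_left hco hR0.le
  have e1 : -(95 / 2) * (R / -t) * E + R * (QQ + 2 * (-OO + JQ)) + cH * (R * D) + 119 / 4 / (-t) * (R * E)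
      = R * (QQ - 95 / 2 / (-t) * E - 2 * OO + cH * D + 119 / 4 / (-t) * E) + 2 * R * JQ := by
    field_simp
    ring
  rw [e1]
  linarith

theorem ld_heavyS_En_nonneg (hq : 0 < q) {V : ℝ → ℝ} (h0 : ∀ y ∈ Icc (-1 : ℝ) 1, 0 ≤ V y)
    (u : Fin 3 → ℝ → ℝ) : 0 ≤ En q V u := by
  unfold En
  refine ii_nonneg (fun y hy => mul_nonneg (mul_nonneg ?_ (h0 y hy)) (n2_nonneg hq _ y))
  have := w0_Xf_nonneg hy
  unfold Xf at this
  exact this

theorem ld_heavyS_young {P a c' ν c : ℝ} (hc : 0 < c) (hP : |P| ≤ a * c') :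
    2 * (ν * P) ≤ c * a ^ 2 + ν ^ 2 * c' ^ 2 / c := by
  have h1 : ν * P ≤ |ν| * (a * c') := by
    calc ν * P ≤ |ν * P| := le_abs_self _
      _ = |ν| * |P| := abs_mul _ _
      _ ≤ |ν| * (a * c') := mul_le_mul_of_nonneg_left hP (abs_nonneg _)
  have h2 : 0 ≤ (c * a - |ν| * c') ^ 2 / c := by positivity
  have e : (c * a - |ν| * c') ^ 2 / c = c * a ^ 2 + |ν| ^ 2 * c' ^ 2 / c - 2 * (|ν| * (a * c')) := by
    field_simp
    ring
  rw [sq_abs] at e
  linarith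

/-- forcing `Σ ν_i Ac_i`. -/
theorem ld_heavy_forceM (hq : 100 ≤ q) (H : HeavyData q g N b δ K g₀ Λ₀ cH) : ∃ C : ℝ, 0 ≤ C ∧
    ∀ t ∈ Ico (-Λ₀) 0, ∀ u : Fin 3 → ℝ → ℝ, (∀ l, CI (u l)) → ∀ ν : Fin N → ℝ,
    2 * (-t) ^ (95 / 2 : ℝ) * pairE q (wH 3 52 q t) u (fun l y => ∑ i, ν i * Actu (AofV q g₀ b i) l (t, y))
      ≤ 1 / 4 / (-t) * ((-t) ^ (95 / 2 : ℝ) * En q (wH 3 52 q t) u) + C / (-t) * ∑ i, (ν i) ^ 2 := by
  have hq1 : 1 < q := by linarith
  have hq0 : 0 < q := by linarith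
  choose Cb hCb0 hCb using fun i => ld_EEB_Actu hq H.δpos H.δK (H.bumpA hq0 i)
  set SC := ∑ i, Cb i with hSC
  have hSC0 : 0 ≤ SC := Finset.sum_nonneg fun i _ => hCb0 i
  set N' : ℝ := (N : ℝ) + 1 with hN'
  have hN0 : 0 < N' := by positivity
  refine ⟨4 * N' * SC, by positivity, fun t ht u hu ν => ?_⟩
  have ht0 : t < 0 := ht.2
  have hΛ : 0 < -t := by linarith
  have hΛq : -t ≤ 100 / q := by linarith [ht.1, H.Λle]
  have hV : CI (wH 3 52 q t) := ((smS_wH 3 52 q).smI ht0).continuousOn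
  have hV0 : ∀ y ∈ Icc (-1 : ℝ) 1, 0 ≤ wH 3 52 q t y := fun y hy => (w0_wH_pos hq1 ht0 hy).le
  have hAc : ∀ i l, CI (slT (Actu (AofV q g₀ b i)) t l) := fun i l =>
    ((ld_Actu_smooth H.δpos (H.bumpA hq0 i) l).sl ht0).continuous.continuousOn
  have hR0 : 0 < (-t) ^ (95 / 2 : ℝ) := Real.rpow_pos_of_pos hΛ _
  set R := (-t) ^ (95 / 2 : ℝ) with hRdef
  set Eu := En q (wH 3 52 q t) u with hEu
  have hEu0 : 0 ≤ Eu := ld_heavyS_En_nonneg hq0 hV0 u
  have hsum : pairE q (wH 3 52 q t) u (fun l y => ∑ i, ν i * Actu (AofV q g₀ b i) l (t, y))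
      = ∑ i, ν i * pairE q (wH 3 52 q t) u (slT (Actu (AofV q g₀ b i)) t) := by
    have hF : ∀ i ∈ (Finset.univ : Finset (Fin N)), ∀ l,
        CI ((fun i l y => ν i * slT (Actu (AofV q g₀ b i)) t l y) i l) :=
      fun i _ l => continuousOn_const.mul (hAc i l)
    have := ld_pairE_sum q hV hu Finset.univ hF
    refine this.trans (Finset.sum_congr rfl fun i _ => ?_)
    exact ld_pairE_smul q _ u (slT (Actu (AofV q g₀ b i)) t) (ν i)
  rw [hsum]
  have hterm : ∀ i, 2 * R * (ν i * pairE q (wH 3 52 q t) u (slT (Actu (AofV q g₀ b i)) t))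
      ≤ 1 / (4 * N' * (-t)) * (R * Eu) + 4 * N' * SC / (-t) * (ν i) ^ 2 := by
    intro i
    set Ei := En q (wH 3 52 q t) (slT (Actu (AofV q g₀ b i)) t) with hEi
    have hEi0 : 0 ≤ Ei := ld_heavyS_En_nonneg hq0 hV0 _
    have hcs := ld_pairE_cs hq0 hV hV0 hu (hAc i)
    have hc : 0 < 1 / (4 * N' * (-t)) := by positivity
    have hy := ld_heavyS_young (ν := ν i) hc hcs
    rw [Real.sq_sqrt hEu0, Real.sq_sqrt hEi0] at hy
    have hb := hCb i t ht0 hΛq (H.core ht)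
    have hbi : Cb i ≤ SC := Finset.single_le_sum (fun j _ => hCb0 j) (Finset.mem_univ i)
    have hb' : R * Ei ≤ SC / (-t) ^ 2 := hb.trans (by gcongr)
    have hm := mul_le_mul_of_nonneg_left hy hR0.le
    have h3 : R * ((ν i) ^ 2 * Ei / (1 / (4 * N' * (-t)))) ≤ 4 * N' * SC / (-t) * (ν i) ^ 2 := by
      have e1 : R * ((ν i) ^ 2 * Ei / (1 / (4 * N' * (-t)))) = ((ν i) ^ 2 * (4 * N' * (-t))) * (R * Ei) := by
        field_simp
      have e2 : 4 * N' * SC / (-t) * (ν i) ^ 2 = ((ν i) ^ 2 * (4 * N' * (-t))) * (SC / (-t) ^ 2) := by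
        field_simp
      rw [e1, e2]
      exact mul_le_mul_of_nonneg_left hb' (by positivity)
    calc 2 * R * (ν i * pairE q (wH 3 52 q t) u (slT (Actu (AofV q g₀ b i)) t))
        = R * (2 * (ν i * pairE q (wH 3 52 q t) u (slT (Actu (AofV q g₀ b i)) t))) := by ring
      _ ≤ R * (1 / (4 * N' * (-t)) * Eu + (ν i) ^ 2 * Ei / (1 / (4 * N' * (-t)))) := hm
      _ = 1 / (4 * N' * (-t)) * (R * Eu) + R * ((ν i) ^ 2 * Ei / (1 / (4 * N' * (-t)))) := by ring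
      _ ≤ _ := by linarith
  have hs : 2 * R * ∑ i, ν i * pairE q (wH 3 52 q t) u (slT (Actu (AofV q g₀ b i)) t)
      ≤ ∑ i : Fin N, (1 / (4 * N' * (-t)) * (R * Eu) + 4 * N' * SC / (-t) * (ν i) ^ 2) := by
    rw [Finset.mul_sum]
    exact Finset.sum_le_sum fun i _ => hterm i
  rw [Finset.sum_add_distrib, Finset.sum_const, Finset.card_univ, Fintype.card_fin,
    nsmul_eq_mul, ← Finset.mul_sum] at hs
  have h4 : (N : ℝ) * (1 / (4 * N' * (-t)) * (R * Eu)) ≤ 1 / 4 / (-t) * (R * Eu) := by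
    have e1 : (N : ℝ) * (1 / (4 * N' * (-t)) * (R * Eu)) = ((N : ℝ) / N') * (1 / 4 / (-t) * (R * Eu)) := by
      field_simp
    rw [e1]
    have h5 : (N : ℝ) / N' ≤ 1 := by
      rw [div_le_one hN0]
      linarith
    have h6 : 0 ≤ 1 / 4 / (-t) * (R * Eu) := by positivity
    nlinarith
  linarith

/-- **(HE_B)**, differential form, along `(L_1)` with forcing `S + Σ m_i Ac_i`. -/
theorem ld_heavy_HE (hq : 100 ≤ q) (hg : BgGood q g) (H : HeavyData q g N b δ K g₀ Λ₀ cH) : ∃ C : ℝ, 0 ≤ C ∧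
    ∀ (U S : Tri) (m : ℝ → EuclideanSpace ℝ (Fin N)), (∀ j, Sm (U j)) → (∀ j, Sm (S j)) →
    SolL q g b (AofV q g₀ b) 1 (fun j p => S j p + Fmc (AofV q g₀ b) m j p) U →
    ∀ t ∈ Ico (-Λ₀) 0, ∃ e : ℝ, HasDerivAt (EEB q U) e t ∧
      e + cH / 2 * DDB q U t + 29 / (-t) * EEB q U t
        ≤ C / (-t) * ‖m (tauOf t)‖ ^ 2
          + C * ((-t) ^ (95 / 2 : ℝ) * II (fun y => (1 - y ^ 2) ^ 2 * wH 3 52 q t y * n2 q (slT S t) y)) := by
  have hq1 : 1 < q := by linarith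
  have hq0 : 0 < q := by linarith
  have hcH := H.cpos
  obtain ⟨C2, hC20, hC2⟩ := ld_heavy_forceM hq H
  set C1 : ℝ := 1 / (cH / 2 * q) with hC1
  have hC10 : 0 ≤ C1 := by positivity
  refine ⟨C1 + C2, by linarith, fun U S m hU hS hsol t ht => ?_⟩
  have ht0 : t < 0 := ht.2
  have hΛ : 0 < -t := by linarith
  have hV : CI (wH 3 52 q t) := ((smS_wH 3 52 q).smI ht0).continuousOn
  have hV0 : ∀ y ∈ Icc (-1 : ℝ) 1, 0 ≤ wH 3 52 q t y := fun y hy => (w0_wH_pos hq1 ht0 hy).le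
  have hu : ∀ j, SmI (slT U t j) := smI_slT hU ht0
  have huc : ∀ l, CI (slT U t l) := fun l => (hu l).continuousOn
  have hSc : ∀ l, CI (slT S t l) := fun l => (smI_slT hS ht0 l).continuousOn
  have hAc : ∀ i l, CI (slT (Actu (AofV q g₀ b i)) t l) := fun i l =>
    ((ld_Actu_smooth H.δpos (H.bumpA hq0 i) l).sl ht0).continuous.continuousOn
  set ν : Fin N → ℝ := fun i => m (tauOf t) i with hν
  set M : Fin 3 → ℝ → ℝ := fun l y => ∑ i, ν i * Actu (AofV q g₀ b i) l (t, y) with hM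
  have cM : ∀ l, CI (M l) := fun l =>
    continuousOn_finsetSum _ fun i _ => continuousOn_const.mul (hAc i l)
  have hQ : ∀ l, CI (fun y => slT S t l y + M l y) := fun l => (hSc l).add (cM l)
  obtain ⟨e, he, hle⟩ := ld_heavy_diff hq hg H hU hQ ht (fun j y hy => by
    have := hsol j t ht0 y hy
    rw [this]
    simp only [one_mul, Fmc, slT, hM, hν])
  refine ⟨e, he, ?_⟩
  have hR0 : 0 < (-t) ^ (95 / 2 : ℝ) := Real.rpow_pos_of_pos hΛ _
  rw [ld_pairE_add q hV huc hSc cM] at hle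
  have h1 := ld_heavy_forceS hq0 (ε := cH / 2) (by positivity) hV hV0 hu hSc
  have h2 := hC2 t ht (slT U t) huc ν
  have hnorm : ‖m (tauOf t)‖ ^ 2 = ∑ i, (ν i) ^ 2 := by
    rw [EuclideanSpace.real_norm_sq_eq]
  rw [hnorm]
  have h1' := mul_le_mul_of_nonneg_left h1 hR0.le
  have hIS0 : 0 ≤ II (fun y => (1 - y ^ 2) ^ 2 * wH 3 52 q t y * n2 q (slT S t) y) :=
    ii_nonneg fun y hy => mul_nonneg (mul_nonneg (sq_nonneg _) (hV0 y hy)) (n2_nonneg hq0 _ y)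
  have hE0 : 0 ≤ En q (wH 3 52 q t) (slT U t) := ld_heavyS_En_nonneg hq0 hV0 _
  have hν0 : 0 ≤ (∑ i, (ν i) ^ 2) / (-t) :=
    div_nonneg (Finset.sum_nonneg fun i _ => sq_nonneg _) hΛ.le
  unfold DDB EEB at hle ⊢
  set R := (-t) ^ (95 / 2 : ℝ) with hRdef
  set E := En q (wH 3 52 q t) (slT U t) with hEdef
  set D := Di q (wH 3 52 q t) (slT U t) with hDdef
  set IS := II (fun y => (1 - y ^ 2) ^ 2 * wH 3 52 q t y * n2 q (slT S t) y) with hISdef
  set J1 := pairE q (wH 3 52 q t) (slT U t) (slT S t)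
  set J2' := pairE q (wH 3 52 q t) (slT U t) M
  set nn := ∑ i, (ν i) ^ 2
  have a1 : 119 / 4 / (-t) * (R * E) = 29 / (-t) * (R * E) + 1 / 4 / (-t) * (R * E) + 1 / 2 / (-t) * (R * E) := by
    field_simp
    ring
  have a5 : 0 ≤ 1 / 2 / (-t) * (R * E) := by positivity
  have a2 : (C1 + C2) / (-t) * nn = C1 * (nn / (-t)) + C2 / (-t) * nn := by
    ring
  have a3 : 0 ≤ C1 * (nn / (-t)) := mul_nonneg hC10 hν0
  have a4 : 0 ≤ C2 * (R * IS) := mul_nonneg hC20 (mul_nonneg hR0.le hIS0)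
  rw [a2]
  nlinarith [hle, h1', h2, a1, a3, a4, a5]

end

end Claimed.Agent.R324.Core
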