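/-
Row 324 (S0582), PDE core, module LD (`linear_solve`), architect helper217.   Blueprint 7.4 (origin/helper232:docs/R324_blueprint.md).   PORT of R325/Core/LD (packed in Claimed/Agent/R325/Pk37..Pk48.lean).      FILE LD/HeavyA
   Λ = -t,  X = Xf y = 1 - y²,  Y = X/Λ,  τ = tauOf t = -log Λ;   u-form of a slice u = (σ, h₃, b):  uV u = (σ, h₃, X b);   κ = kapJ q;   𝕀 = II  (Core/W/Ibp.lean);   definitions of this module: Core/LD/Defs.lean.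
LD1' (heavy estimate A), differential form.      `V_A = wH 2 34 q t`, `ν_A = 61/2` (`EEA`, `DDA`),   `V_B = wH 3 52 q t`, `ν_B = 95/2`,   `ν_B - ν_A = 17`,   `g̃ = bgR q g`.
* `ld_heavyA_wt`:  where `y ∈ [19/20,1]`, `d Λ ≤ X ≤ D Λ` (`0 < d`):   `V_A = V_B Θ¹⁸/r̂²`  (unfold `wH`; `r̂², Θ > 0`),  `Θ = Λ + X ≤ (1+D) Λ`, `r̂² ≥ X ≥ d Λ` (`Xt_eq`, `w0_ell2_pos`):     `Λ^{ν_A} V_A ≤ ((1+D)¹⁸/d) Λ^{ν_A+17} V_B`   (`Real.rpow_add`, `Real.rpow_natCast`).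
* `ld_heavyA_diff`.   `(Λc, C)` from `wc_coefB_R hq hg` (Core/W/Coef.lean);   `(δ₀,K₀,Kh,Λ₁)` from `ld_coerH_static hq (bgR_sm .. hg.sm) .. 2 34 (61/2) hg.coerHA` (LD/CoerS.lean);   `cA := min (1/4) (2/C)`.
   Product rule + `ld0_energy` as in `ld_heavy_diff` (LD/HeavyS.lean):   `e = -ν_A Λ^{ν_A-1} En + Λ^{ν_A} (QH q g̃ 2 34 t u + 2 pairE q V_A u (slT (dfL q g̃ U) t))`,   `Λ^{ν_A-1} = Λ^{ν_A}/Λ`;    so by `ld_coerH_static` (times `Λ^{ν_A}`)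
        `e + cA DDA + (30/Λ) EEA ≤ Kh Λ^{ν_A} 𝕀[ψ₁ cutG(X/Λ) (X/Λ) V_A n2] + 2 Λ^{ν_A} pairE(..)`.
   Core term, pointwise on `[-1,1]`:   `ψ₁ cutG(X/Λ) (X/Λ) Λ^{ν_A} V_A n2 ≤ (C'/Λ) X Λ^{ν_B} V_B n2`,  `C' = (1+2K₀)¹⁸/(δ₀/2)`:   where `ψ₁ cutG ≠ 0`:  `y > 3/4`, `δ₀/2 Λ < X < 2K₀ Λ ≤ 39/400` (`cutG_zero`, `psi1_eq_zero`), so `y ≥ 19/20` (`ld_core_y`) and `ld_heavyA_wt` applies;  `ψ₁ cutG ≤ 1`;   elsewhere the left side is `0 ≤` right side.     `ii_mono`, `ii_const_mul`;  `EEB = Λ^{ν_B} 𝕀[X V_B n2]`.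
* `ld_heavyA_force`:  `uV (Actu A) = ψ₁ A(X/Λ)/Λ` (`ld_uV_Actu`) vanishes unless `y ≥ 19/20`, `δΛ < X < KΛ` (`ld_psi1_core`), there `Λ^{ν_A} V_A ≤ C Λ^{ν_B} V_B`:
        `Λ^{ν_A} |X V_A ipK(u, Ac)| ≤ C Λ^{ν_B} X V_B √(n2 u) √(n2 Ac)`,  `ii_abs_le`, `ii_mono`, `ii_cs`  ⟹  `Λ^{ν_A} |pairE q V_A u Ac| ≤ C √(EEB(u)) √(Λ^{ν_B} En_B(Ac)) ≤ (C/Λ) √(EEB(u))`   (`ld_EEB_Actu`).
* `ld_heavyA_HE`:   `dfL = Σ_i n_i Actu_i` on `[-1,1]`, `n_i = m_i(τ(t)) - O_i`  (`SolL`),  `O_i² ≤ C EEB` (`ld_Obs_bound`),   `2 Σ |n_i| (C/Λ) √EEB ≤ (C''/Λ)(EEB + |m|²)`.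
-/
import Claimed.Agent.R324.Core.LD.HeavyS

set_option autoImplicit false

namespace Claimed.Agent.R324.Core

open Set Filter Topology MeasureTheory
open scoped ContDiff

noncomputable section

variable {N : ℕ} {q : ℝ} {g : Bg} {b : Fin N → Fin 3 → ℝ → ℝ} {δ K g₀ Λ₀ cH : ℝ}

/-- comparison of the two heavy weights in the core. -/
theorem ld_heavyA_wt (hq : 100 ≤ q) {d D : ℝ} (hd : 0 < d) {t y : ℝ} (ht : t < 0) (hy : y ∈ Icc (19 / 20 : ℝ) 1)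
    (h1 : d * (-t) ≤ Xf y) (h2 : Xf y ≤ D * (-t)) :
    (-t) ^ (61 / 2 : ℝ) * wH 2 34 q t y ≤ (1 + D) ^ 18 / d * ((-t) ^ (95 / 2 : ℝ) * wH 3 52 q t y) := by
  have hΛ : 0 < -t := by linarith
  have hq1 : (1 : ℝ) < q := by linarith
  have hy2 : (1 / 2 : ℝ) ≤ y := by linarith [hy.1]
  have hdΛ : 0 < d * (-t) := mul_pos hd hΛ
  have hl := w0_ell2_pos hq1 ht
  have hR : rh2 q t y = ell2 q t + Xf y := by unfold rh2; rw [Xt_eq hy2]
  have hT : Th t y = -t + Xf y := by unfold Th; rw [Xt_eq hy2]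
  have hD : 0 < D := by
    by_contra hcon
    have : D * (-t) ≤ 0 := mul_nonpos_of_nonpos_of_nonneg (not_lt.mp hcon) hΛ.le
    linarith
  obtain ⟨R, hRe⟩ : ∃ R, R = rh2 q t y := ⟨_, rfl⟩
  obtain ⟨Θ, hΘe⟩ : ∃ Θ, Θ = Th t y := ⟨_, rfl⟩
  have hRd : d * (-t) ≤ R := by rw [hRe, hR]; linarith
  have hR0 : 0 < R := lt_of_lt_of_le hdΛ hRd
  have hΘ0 : 0 < Θ := by rw [hΘe, hT]; linarith
  have hΘD : Θ ≤ (1 + D) * (-t) := by rw [hΘe, hT]; linarith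
  have e : (-t) ^ (95 / 2 : ℝ) = (-t) ^ (61 / 2 : ℝ) * (-t) ^ 17 := by
    rw [← Real.rpow_natCast, ← Real.rpow_add hΛ]
    norm_num
  have hL : 0 < (-t) ^ (61 / 2 : ℝ) := Real.rpow_pos_of_pos hΛ _
  unfold wH
  rw [← hRe, ← hΘe, e]
  have key : R ^ 2 / Θ ^ 34 ≤ (1 + D) ^ 18 / d * ((-t) ^ 17 * (R ^ 3 / Θ ^ 52)) := by
    have h18 : Θ ^ 18 ≤ ((1 + D) * (-t)) ^ 18 := pow_le_pow_left₀ hΘ0.le hΘD 18
    have h3 : Θ ^ 18 * d ≤ (1 + D) ^ 18 * (-t) ^ 17 * R := by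
      calc Θ ^ 18 * d ≤ ((1 + D) * (-t)) ^ 18 * d := mul_le_mul_of_nonneg_right h18 hd.le
        _ = (1 + D) ^ 18 * (-t) ^ 17 * (d * (-t)) := by ring
        _ ≤ (1 + D) ^ 18 * (-t) ^ 17 * R := mul_le_mul_of_nonneg_left hRd (by positivity)
    have e2 : (1 + D) ^ 18 / d * ((-t) ^ 17 * (R ^ 3 / Θ ^ 52))
        = ((1 + D) ^ 18 * (-t) ^ 17 * R) * R ^ 2 / (d * Θ ^ 52) := by
      field_simp
    have e3 : R ^ 2 / Θ ^ 34 = (Θ ^ 18 * d) * R ^ 2 / (d * Θ ^ 52) := by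
      field_simp
    rw [e2, e3]
    exact div_le_div_of_nonneg_right (mul_le_mul_of_nonneg_right h3 (by positivity)) (by positivity)
  calc (-t) ^ (61 / 2 : ℝ) * (R ^ 2 / Θ ^ 34)
      ≤ (-t) ^ (61 / 2 : ℝ) * ((1 + D) ^ 18 / d * ((-t) ^ 17 * (R ^ 3 / Θ ^ 52))) :=
        mul_le_mul_of_nonneg_left key hL.le
    _ = (1 + D) ^ 18 / d * ((-t) ^ (61 / 2 : ℝ) * (-t) ^ 17 * (R ^ 3 / Θ ^ 52)) := by ring

/-- the core term of `ld_heavyA_diff`. -/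
theorem ld_heavyA_core (hq : 100 ≤ q) {δ₀ K₀ : ℝ} (hδ₀ : 0 < δ₀) (hK₀ : 0 < K₀) {t : ℝ} (ht : t < 0)
    (hsmall : 2 * K₀ * (-t) ≤ 39 / 400) {u : Fin 3 → ℝ → ℝ} (hu : ∀ j, SmI (u j)) :
    (-t) ^ (61 / 2 : ℝ) * II (fun y => psi1 y * cutG δ₀ K₀ (Xf y / (-t)) * (Xf y / (-t) * wH 2 34 q t y * n2 q u y))
      ≤ (1 + 2 * K₀) ^ 18 / (δ₀ / 2) / (-t) * ((-t) ^ (95 / 2 : ℝ) * En q (wH 3 52 q t) u) := by
  have hq1 : (1 : ℝ) < q := by linarith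
  have hq0 : (0 : ℝ) < q := by linarith
  have hΛ : 0 < -t := by linarith
  have hL : 0 < (-t) ^ (61 / 2 : ℝ) := Real.rpow_pos_of_pos hΛ _
  have hLB : 0 < (-t) ^ (95 / 2 : ℝ) := Real.rpow_pos_of_pos hΛ _
  have hC' : 0 < (1 + 2 * K₀) ^ 18 / (δ₀ / 2) := by positivity
  have cψ : CI psi1 := psi1_contDiff.continuous.continuousOn
  have cXd : CI (fun y => Xf y / (-t)) := (pr_continuous_Xf.div_const _).continuousOn
  have cG : CI (fun y => cutG δ₀ K₀ (Xf y / (-t))) :=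
    ((cutG_continuous δ₀ K₀).comp (pr_continuous_Xf.div_const _)).continuousOn
  have cVA : CI (wH 2 34 q t) := ((smS_wH 2 34 q).smI ht).continuousOn
  have cVB : CI (wH 3 52 q t) := ((smS_wH 3 52 q).smI ht).continuousOn
  have cn : CI (n2 q u) := ci_n2 hu
  have c1 : CI (fun y : ℝ => 1 - y ^ 2) := pr_continuous_Xf.continuousOn
  unfold En
  rw [← ii_const_mul, ← ii_const_mul, ← ii_const_mul]
  refine ii_mono (continuousOn_const.mul ((cψ.mul cG).mul ((cXd.mul cVA).mul cn)))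
    (continuousOn_const.mul (continuousOn_const.mul ((c1.mul cVB).mul cn))) fun y hy => ?_
  have hX : 0 ≤ Xf y := w0_Xf_nonneg hy
  have hXe : (1 : ℝ) - y ^ 2 = Xf y := rfl
  have hn : 0 ≤ n2 q u y := n2_nonneg hq0 u y
  have hVA : 0 < wH 2 34 q t y := w0_wH_pos hq1 ht hy
  have hVB : 0 < wH 3 52 q t y := w0_wH_pos hq1 ht hy
  have hψ0 := psi1_nonneg y
  have hψ1 := psi1_le_one y
  have hG := cutG_mem δ₀ K₀ (Xf y / (-t))
  rw [hXe]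
  by_cases hz : psi1 y * cutG δ₀ K₀ (Xf y / (-t)) = 0
  · rw [hz, zero_mul, mul_zero]
    positivity
  · have hψne : psi1 y ≠ 0 := left_ne_zero_of_mul hz
    have hGne : cutG δ₀ K₀ (Xf y / (-t)) ≠ 0 := right_ne_zero_of_mul hz
    have hy34 : 3 / 4 < y := by
      by_contra hcon
      exact hψne (psi1_eq_zero (not_lt.mp hcon))
    have hrange : ¬ (Xf y / (-t) ≤ δ₀ / 2 ∨ 2 * K₀ ≤ Xf y / (-t)) := fun h => hGne (cutG_zero hδ₀ hK₀ h)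
    rw [not_or, not_le, not_le] at hrange
    have h1 : δ₀ / 2 * (-t) ≤ Xf y := ((lt_div_iff₀ hΛ).1 hrange.1).le
    have h2 : Xf y ≤ 2 * K₀ * (-t) := ((div_lt_iff₀ hΛ).1 hrange.2).le
    have hy19 : 19 / 20 ≤ y := ld_core_y hsmall (by linarith) h2
    have hwt := ld_heavyA_wt hq (by positivity : 0 < δ₀ / 2) ht ⟨hy19, hy.2⟩ h1 h2
    have hpg : psi1 y * cutG δ₀ K₀ (Xf y / (-t)) ≤ 1 := mul_le_one₀ hψ1 hG.1 hG.2
    have hXn : 0 ≤ Xf y / (-t) * n2 q u y := mul_nonneg (div_nonneg hX hΛ.le) hn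
    calc (-t) ^ (61 / 2 : ℝ) * (psi1 y * cutG δ₀ K₀ (Xf y / (-t)) * (Xf y / (-t) * wH 2 34 q t y * n2 q u y))
        = (psi1 y * cutG δ₀ K₀ (Xf y / (-t))) * ((Xf y / (-t) * n2 q u y) * ((-t) ^ (61 / 2 : ℝ) * wH 2 34 q t y)) := by
          ring
      _ ≤ 1 * ((Xf y / (-t) * n2 q u y) * ((-t) ^ (61 / 2 : ℝ) * wH 2 34 q t y)) :=
          mul_le_mul_of_nonneg_right hpg (mul_nonneg hXn (mul_pos hL hVA).le)
      _ ≤ 1 * ((Xf y / (-t) * n2 q u y) * ((1 + 2 * K₀) ^ 18 / (δ₀ / 2) * ((-t) ^ (95 / 2 : ℝ) * wH 3 52 q t y))) :=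
          mul_le_mul_of_nonneg_left (mul_le_mul_of_nonneg_left hwt hXn) zero_le_one
      _ = (1 + 2 * K₀) ^ 18 / (δ₀ / 2) / (-t) * ((-t) ^ (95 / 2 : ℝ) * (Xf y * wH 3 52 q t y * n2 q u y)) := by
          ring

/-- energy identity + `coerHA`, for an arbitrary smooth triple (the forcing term is kept). -/
theorem ld_heavyA_diff (hq : 100 ≤ q) (hg : BgGood q g) : ∃ C cA Λ₁ : ℝ, 0 ≤ C ∧ 0 < cA ∧ 0 < Λ₁ ∧
    ∀ U : Tri, (∀ j, Sm (U j)) → ∀ t ∈ Ico (-Λ₁) 0, ∃ e : ℝ, HasDerivAt (EEA q U) e t ∧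
      e + cA * DDA q U t + 30 / (-t) * EEA q U t
        ≤ C / (-t) * EEB q U t
          + 2 * (-t) ^ (61 / 2 : ℝ) * pairE q (wH 2 34 q t) (slT U t) (slT (dfL q (bgR q g) U) t) := by
  have hq1 : (1 : ℝ) < q := by linarith
  obtain ⟨Λc, C₁, hΛc, _, hC₁, hc⟩ := wc_coefB_R hq hg
  have hC₁0 : 0 < C₁ := by linarith
  have hs := bgR_sm hq1 hg.sm
  obtain ⟨δ₀, K₀, Kh, Λ₁, hδ₀, hδK, hKh, hΛ₁, _, hsmall, hco⟩ :=
    ld_coerH_static hq hs hC₁0 hΛc hc 2 34 (61 / 2) hg.coerHA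
  have hK₀ : 0 < K₀ := hδ₀.trans hδK
  refine ⟨Kh * ((1 + 2 * K₀) ^ 18 / (δ₀ / 2)), min (1 / 4) (2 / C₁), Λ₁, by positivity,
    lt_min (by norm_num) (by positivity), hΛ₁, ?_⟩
  intro U hU t ht
  have ht0 : t < 0 := ht.2
  have hΛ : 0 < -t := by linarith
  have hu : ∀ j, SmI (slT U t j) := smI_slT hU ht0
  have hL : 0 < (-t) ^ (61 / 2 : ℝ) := Real.rpow_pos_of_pos hΛ _
  have hd1 := ld_rpow_hasDerivAt (61 / 2) ht0
  have hd2 := ld0_energy q hs (smS_wH 2 34 q) hU ht0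
  have hd : HasDerivAt (EEA q U)
      (-(61 / 2) * (-t) ^ ((61 / 2 : ℝ) - 1) * En q (wH 2 34 q t) (slT U t)
        + (-t) ^ (61 / 2 : ℝ) * (QH q (bgR q g) 2 34 t (slT U t)
          + 2 * pairE q (wH 2 34 q t) (slT U t) (slT (dfL q (bgR q g) U) t))) t :=
    hd1.mul hd2
  refine ⟨_, hd, ?_⟩
  have hco' := hco t ht (slT U t) hu
  have hpow : (-t) ^ ((61 / 2 : ℝ) - 1) = (-t) ^ (61 / 2 : ℝ) / (-t) := Real.rpow_sub_one hΛ.ne' _
  have hsm : 2 * K₀ * (-t) ≤ 39 / 400 :=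
    (mul_le_mul_of_nonneg_left (by linarith [ht.1]) (by positivity)).trans hsmall
  have hcore := ld_heavyA_core hq hδ₀ hK₀ ht0 hsm hu
  have hm := mul_le_mul_of_nonneg_left hco' hL.le
  have hk := mul_le_mul_of_nonneg_left hcore hKh
  rw [hpow]
  unfold DDA EEA EEB
  have e1 : -(61 / 2) * ((-t) ^ (61 / 2 : ℝ) / (-t)) * En q (wH 2 34 q t) (slT U t)
        + (-t) ^ (61 / 2 : ℝ) * (QH q (bgR q g) 2 34 t (slT U t)
          + 2 * pairE q (wH 2 34 q t) (slT U t) (slT (dfL q (bgR q g) U) t))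
        + min (1 / 4) (2 / C₁) * ((-t) ^ ((61 : ℝ) / 2) * Di q (wH 2 34 q t) (slT U t))
        + 30 / (-t) * ((-t) ^ ((61 : ℝ) / 2) * En q (wH 2 34 q t) (slT U t))
      = (-t) ^ (61 / 2 : ℝ) * (QH q (bgR q g) 2 34 t (slT U t) - 61 / 2 / (-t) * En q (wH 2 34 q t) (slT U t)
          + min (1 / 4) (2 / C₁) * Di q (wH 2 34 q t) (slT U t) + 30 / (-t) * En q (wH 2 34 q t) (slT U t))
        + 2 * (-t) ^ (61 / 2 : ℝ) * pairE q (wH 2 34 q t) (slT U t) (slT (dfL q (bgR q g) U) t) := by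
    ring
  rw [e1]
  have e2 : Kh * ((1 + 2 * K₀) ^ 18 / (δ₀ / 2)) / (-t) * ((-t) ^ ((95 : ℝ) / 2) * En q (wH 3 52 q t) (slT U t))
      = Kh * ((1 + 2 * K₀) ^ 18 / (δ₀ / 2) / (-t) * ((-t) ^ (95 / 2 : ℝ) * En q (wH 3 52 q t) (slT U t))) := by
    ring
  rw [e2]
  have e3 : (-t) ^ (61 / 2 : ℝ) * (Kh * II (fun y => psi1 y * cutG δ₀ K₀ (Xf y / (-t))
        * (Xf y / (-t) * wH 2 34 q t y * n2 q (slT U t) y)))
      = Kh * ((-t) ^ (61 / 2 : ℝ) * II (fun y => psi1 y * cutG δ₀ K₀ (Xf y / (-t))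
        * (Xf y / (-t) * wH 2 34 q t y * n2 q (slT U t) y))) := by
    ring
  rw [e3] at hm
  linarith

theorem ld_heavyA_ci_n2 (q : ℝ) {u : Fin 3 → ℝ → ℝ} (hu : ∀ l, CI (u l)) : CI (n2 q u) := by
  have c1 : CI (fun y : ℝ => 1 - y ^ 2) := pr_continuous_Xf.continuousOn
  unfold n2
  exact ((continuousOn_const.mul ((hu 0).pow 2)).add (continuousOn_const.mul ((hu 1).pow 2))).add
    (continuousOn_const.mul ((c1.mul (hu 2)).pow 2))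

theorem ld_heavyA_En_nonneg (hq : 1 < q) {t : ℝ} (ht : t < 0) (a M : ℕ) (u : Fin 3 → ℝ → ℝ) :
    0 ≤ En q (wH a M q t) u := by
  unfold En
  refine ii_nonneg fun y hy => ?_
  have hX : 0 ≤ 1 - y ^ 2 := w0_Xf_nonneg hy
  exact mul_nonneg (mul_nonneg hX (w0_wH_pos hq ht hy).le) (n2_nonneg (by linarith) u y)

theorem ld_heavyA_force (hq : 100 ≤ q) (hδ : 0 < δ) (hδK : δ < K) {A : Fin 3 → ℝ → ℝ} (hA : ∀ l, CcB δ K (A l)) :
    ∃ C : ℝ, 0 ≤ C ∧ ∀ t < 0, -t ≤ 100 / q → K * (-t) ≤ 39 / 400 → ∀ u : Fin 3 → ℝ → ℝ, (∀ l, CI (u l)) →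
      (-t) ^ (61 / 2 : ℝ) * |pairE q (wH 2 34 q t) u (slT (Actu A) t)|
        ≤ C / (-t) * Real.sqrt ((-t) ^ (95 / 2 : ℝ) * En q (wH 3 52 q t) u) := by
  have hq1 : (1 : ℝ) < q := by linarith
  have hq0 : (0 : ℝ) < q := by linarith
  have hK : 0 < K := hδ.trans hδK
  obtain ⟨CE, hCE, hE⟩ := ld_EEB_Actu hq hδ hδK hA
  refine ⟨(1 + K) ^ 18 / δ * Real.sqrt CE, by positivity, ?_⟩
  intro t ht htq hKt u hu
  have hΛ : 0 < -t := by linarith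
  have hLA : 0 < (-t) ^ (61 / 2 : ℝ) := Real.rpow_pos_of_pos hΛ _
  have hLB : 0 < (-t) ^ (95 / 2 : ℝ) := Real.rpow_pos_of_pos hΛ _
  have hC₁ : 0 < (1 + K) ^ 18 / δ := by positivity
  have hv : ∀ l, CI (slT (Actu A) t l) := fun l => ((ld_Actu_smooth hδ hA l).sl ht).continuous.continuousOn
  have cVA : CI (wH 2 34 q t) := ((smS_wH 2 34 q).smI ht).continuousOn
  have cVB : CI (wH 3 52 q t) := ((smS_wH 3 52 q).smI ht).continuousOn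
  have cX : CI Xf := pr_continuous_Xf.continuousOn
  have cP := ld_pairE_ci q cVA hu hv
  have cnu : CI (n2 q u) := ld_heavyA_ci_n2 q hu
  have cnv : CI (n2 q (slT (Actu A) t)) := ld_heavyA_ci_n2 q hv
  have cF : CI (fun y => Real.sqrt (Xf y * wH 3 52 q t y * n2 q u y)) := ((cX.mul cVB).mul cnu).sqrt
  have cG : CI (fun y => Real.sqrt (Xf y * wH 3 52 q t y * n2 q (slT (Actu A) t) y)) := ((cX.mul cVB).mul cnv).sqrt
  have s1 : (-t) ^ (61 / 2 : ℝ) * |pairE q (wH 2 34 q t) u (slT (Actu A) t)|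
      ≤ (-t) ^ (61 / 2 : ℝ) * II (fun y => |Xf y * wH 2 34 q t y
          * ipK q (fun k => uV u k y) (fun k => uV (slT (Actu A) t) k y)|) :=
    mul_le_mul_of_nonneg_left (ii_abs_le _) hLA.le
  have s2 : (-t) ^ (61 / 2 : ℝ) * II (fun y => |Xf y * wH 2 34 q t y
          * ipK q (fun k => uV u k y) (fun k => uV (slT (Actu A) t) k y)|)
      ≤ ((1 + K) ^ 18 / δ * (-t) ^ (95 / 2 : ℝ)) * II (fun y => Real.sqrt (Xf y * wH 3 52 q t y * n2 q u y)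
          * Real.sqrt (Xf y * wH 3 52 q t y * n2 q (slT (Actu A) t) y)) := by
    rw [← ii_const_mul, ← ii_const_mul]
    refine ii_mono (continuousOn_const.mul cP.abs) (continuousOn_const.mul (cF.mul cG)) fun y hy => ?_
    have hX : 0 ≤ Xf y := w0_Xf_nonneg hy
    have hVA : 0 < wH 2 34 q t y := w0_wH_pos hq1 ht hy
    have hVB : 0 < wH 3 52 q t y := w0_wH_pos hq1 ht hy
    have hnu : 0 ≤ n2 q u y := n2_nonneg hq0 u y
    have hnv : 0 ≤ n2 q (slT (Actu A) t) y := n2_nonneg hq0 _ y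
    have ha : 0 ≤ Xf y * wH 3 52 q t y := mul_nonneg hX hVB.le
    have eFG : Real.sqrt (Xf y * wH 3 52 q t y * n2 q u y)
          * Real.sqrt (Xf y * wH 3 52 q t y * n2 q (slT (Actu A) t) y)
        = Xf y * wH 3 52 q t y * (Real.sqrt (n2 q u y) * Real.sqrt (n2 q (slT (Actu A) t) y)) := by
      rw [Real.sqrt_mul ha, Real.sqrt_mul ha]
      have := Real.mul_self_sqrt ha
      calc Real.sqrt (Xf y * wH 3 52 q t y) * Real.sqrt (n2 q u y)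
            * (Real.sqrt (Xf y * wH 3 52 q t y) * Real.sqrt (n2 q (slT (Actu A) t) y))
          = (Real.sqrt (Xf y * wH 3 52 q t y) * Real.sqrt (Xf y * wH 3 52 q t y))
            * (Real.sqrt (n2 q u y) * Real.sqrt (n2 q (slT (Actu A) t) y)) := by ring
        _ = _ := by rw [this]
    rw [eFG]
    have hss : 0 ≤ Real.sqrt (n2 q u y) * Real.sqrt (n2 q (slT (Actu A) t) y) :=
      mul_nonneg (Real.sqrt_nonneg _) (Real.sqrt_nonneg _)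
    by_cases h0 : ∀ k, uV (slT (Actu A) t) k y = 0
    · have hz : ipK q (fun k => uV u k y) (fun k => uV (slT (Actu A) t) k y) = 0 := by
        unfold ipK
        refine Finset.sum_eq_zero fun i _ => ?_
        show kapJ q i * uV u i y * uV (slT (Actu A) t) i y = 0
        rw [h0 i, mul_zero]
      rw [hz, mul_zero, abs_zero, mul_zero]
      positivity
    · rw [not_forall] at h0
      obtain ⟨k, hk⟩ := h0
      rw [ld_uV_Actu hδ hA ht k y] at hk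
      have hk' : psi1 y * A k (Xf y / (-t)) ≠ 0 := fun h => hk (by rw [h, zero_div])
      obtain ⟨_, hy19, h1, h2⟩ := ld_psi1_core (hA k) ht hKt hk'
      have hwt := ld_heavyA_wt hq hδ ht ⟨hy19.le, hy.2⟩ h1.le h2.le
      have hip := ipK_abs_le hq0 (fun k => uV u k y) (fun k => uV (slT (Actu A) t) k y)
      rw [← n2_eq_nk, ← n2_eq_nk] at hip
      rw [abs_mul, abs_of_nonneg (mul_nonneg hX hVA.le)]
      calc (-t) ^ (61 / 2 : ℝ) * (Xf y * wH 2 34 q t y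
            * |ipK q (fun k => uV u k y) (fun k => uV (slT (Actu A) t) k y)|)
          = Xf y * ((-t) ^ (61 / 2 : ℝ) * wH 2 34 q t y)
            * |ipK q (fun k => uV u k y) (fun k => uV (slT (Actu A) t) k y)| := by ring
        _ ≤ Xf y * ((1 + K) ^ 18 / δ * ((-t) ^ (95 / 2 : ℝ) * wH 3 52 q t y))
            * (Real.sqrt (n2 q u y) * Real.sqrt (n2 q (slT (Actu A) t) y)) :=
          mul_le_mul (mul_le_mul_of_nonneg_left hwt hX) hip (abs_nonneg _)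
            (mul_nonneg hX (mul_nonneg hC₁.le (mul_nonneg hLB.le hVB.le)))
        _ = _ := by ring
  have s3 := (le_abs_self _).trans (ii_cs cF cG)
  have eF : II (fun y => Real.sqrt (Xf y * wH 3 52 q t y * n2 q u y) ^ 2) = En q (wH 3 52 q t) u :=
    ii_congr fun y hy => Real.sq_sqrt
      (mul_nonneg (mul_nonneg (w0_Xf_nonneg hy) (w0_wH_pos hq1 ht hy).le) (n2_nonneg hq0 u y))
  have eG : II (fun y => Real.sqrt (Xf y * wH 3 52 q t y * n2 q (slT (Actu A) t) y) ^ 2)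
      = En q (wH 3 52 q t) (slT (Actu A) t) :=
    ii_congr fun y hy => Real.sq_sqrt
      (mul_nonneg (mul_nonneg (w0_Xf_nonneg hy) (w0_wH_pos hq1 ht hy).le) (n2_nonneg hq0 _ y))
  rw [eF, eG] at s3
  have hEv := hE t ht htq hKt
  have s5 : Real.sqrt ((-t) ^ (95 / 2 : ℝ) * En q (wH 3 52 q t) (slT (Actu A) t)) ≤ Real.sqrt CE / (-t) := by
    have := Real.sqrt_le_sqrt hEv
    rwa [Real.sqrt_div hCE, Real.sqrt_sq hΛ.le] at this
  have e4 : (-t) ^ (95 / 2 : ℝ) * (Real.sqrt (En q (wH 3 52 q t) u) * Real.sqrt (En q (wH 3 52 q t) (slT (Actu A) t)))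
      = Real.sqrt ((-t) ^ (95 / 2 : ℝ) * En q (wH 3 52 q t) u)
        * Real.sqrt ((-t) ^ (95 / 2 : ℝ) * En q (wH 3 52 q t) (slT (Actu A) t)) := by
    rw [Real.sqrt_mul hLB.le, Real.sqrt_mul hLB.le]
    have := Real.mul_self_sqrt hLB.le
    calc (-t) ^ (95 / 2 : ℝ) * (Real.sqrt (En q (wH 3 52 q t) u) * Real.sqrt (En q (wH 3 52 q t) (slT (Actu A) t)))
        = (Real.sqrt ((-t) ^ (95 / 2 : ℝ)) * Real.sqrt ((-t) ^ (95 / 2 : ℝ)))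
          * (Real.sqrt (En q (wH 3 52 q t) u) * Real.sqrt (En q (wH 3 52 q t) (slT (Actu A) t))) := by rw [this]
      _ = _ := by ring
  calc (-t) ^ (61 / 2 : ℝ) * |pairE q (wH 2 34 q t) u (slT (Actu A) t)|
      ≤ ((1 + K) ^ 18 / δ * (-t) ^ (95 / 2 : ℝ)) * II (fun y => Real.sqrt (Xf y * wH 3 52 q t y * n2 q u y)
          * Real.sqrt (Xf y * wH 3 52 q t y * n2 q (slT (Actu A) t) y)) := s1.trans s2
    _ ≤ ((1 + K) ^ 18 / δ * (-t) ^ (95 / 2 : ℝ))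
          * (Real.sqrt (En q (wH 3 52 q t) u) * Real.sqrt (En q (wH 3 52 q t) (slT (Actu A) t))) :=
        mul_le_mul_of_nonneg_left s3 (mul_nonneg hC₁.le hLB.le)
    _ = (1 + K) ^ 18 / δ * (Real.sqrt ((-t) ^ (95 / 2 : ℝ) * En q (wH 3 52 q t) u)
          * Real.sqrt ((-t) ^ (95 / 2 : ℝ) * En q (wH 3 52 q t) (slT (Actu A) t))) := by
        rw [← e4]; ring
    _ ≤ (1 + K) ^ 18 / δ * (Real.sqrt ((-t) ^ (95 / 2 : ℝ) * En q (wH 3 52 q t) u) * (Real.sqrt CE / (-t))) :=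
        mul_le_mul_of_nonneg_left (mul_le_mul_of_nonneg_left s5 (Real.sqrt_nonneg _)) hC₁.le
    _ = (1 + K) ^ 18 / δ * Real.sqrt CE / (-t) * Real.sqrt ((-t) ^ (95 / 2 : ℝ) * En q (wH 3 52 q t) u) := by
        ring

/-- **(HE_A)**, differential form, along `(L_1)` with forcing `Σ m_i Ac_i`. -/
theorem ld_heavyA_HE (hq : 100 ≤ q) (hg : BgGood q g) (H : HeavyData q g N b δ K g₀ Λ₀ cH) :
    ∃ C cA Λ₁ : ℝ, 0 ≤ C ∧ 0 < cA ∧ 0 < Λ₁ ∧ Λ₁ ≤ Λ₀ ∧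
    ∀ (U : Tri) (m : ℝ → EuclideanSpace ℝ (Fin N)), (∀ j, Sm (U j)) →
    SolL q g b (AofV q g₀ b) 1 (Fmc (AofV q g₀ b) m) U →
    ∀ t ∈ Ico (-Λ₁) 0, ∃ e : ℝ, HasDerivAt (EEA q U) e t ∧
      e + cA * DDA q U t + 30 / (-t) * EEA q U t ≤ C / (-t) * (EEB q U t + ‖m (tauOf t)‖ ^ 2) := by
  have hq1 : (1 : ℝ) < q := by linarith
  have hq0 : (0 : ℝ) < q := by linarith
  obtain ⟨Cd, cA, Λd, hCd, hcA, hΛd, hdiff⟩ := ld_heavyA_diff hq hg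
  have hF := fun i => ld_heavyA_force hq H.δpos H.δK (H.bumpA hq0 i)
  choose CF hCF hforce using hF
  have hO := fun i => ld_Obs_bound hq H.δpos H.δK (H.bump i)
  choose CO hCO hobs using hO
  have hSF : 0 ≤ ∑ i, CF i := Finset.sum_nonneg fun i _ => hCF i
  have hSO : 0 ≤ ∑ i, CO i := Finset.sum_nonneg fun i _ => hCO i
  refine ⟨Cd + (∑ i, CF i) * (2 * (∑ i, CO i) + 1) + 2 * (∑ i, CF i), cA, min Λd Λ₀, by positivity, hcA,
    lt_min hΛd H.Λpos, min_le_right _ _, ?_⟩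
  intro U m hU hsol t ht
  have ht0 : t < 0 := ht.2
  have hΛ : 0 < -t := by linarith
  have htd : t ∈ Ico (-Λd) 0 := ⟨by have := min_le_left Λd Λ₀; linarith [ht.1], ht0⟩
  have htΛ : t ∈ Ico (-Λ₀) 0 := ⟨by have := min_le_right Λd Λ₀; linarith [ht.1], ht0⟩
  have htq : -t ≤ 100 / q := by linarith [htΛ.1, H.Λle]
  have hKt : K * (-t) ≤ 39 / 400 := H.core htΛ
  obtain ⟨e, he, hineq⟩ := hdiff U hU t htd
  refine ⟨e, he, hineq.trans ?_⟩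
  have hu : ∀ l, CI (slT U t l) := fun l => (smI_slT hU ht0 l).continuousOn
  have hv : ∀ i l, CI (slT (Actu (AofV q g₀ b i)) t l) := fun i l =>
    ((ld_Actu_smooth H.δpos (H.bumpA hq0 i) l).sl ht0).continuous.continuousOn
  have cVA : CI (wH 2 34 q t) := ((smS_wH 2 34 q).smI ht0).continuousOn
  have hLA : 0 < (-t) ^ (61 / 2 : ℝ) := Real.rpow_pos_of_pos hΛ _
  have hLB : 0 < (-t) ^ (95 / 2 : ℝ) := Real.rpow_pos_of_pos hΛ _
  obtain ⟨n, hn⟩ : ∃ n : Fin N → ℝ, n = fun i => m (tauOf t) i - Obs (b i) t (slT U t) := ⟨_, rfl⟩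
  have hcong : pairE q (wH 2 34 q t) (slT U t) (slT (dfL q (bgR q g) U) t)
      = pairE q (wH 2 34 q t) (slT U t)
          (fun l y => ∑ i ∈ Finset.univ, n i * slT (Actu (AofV q g₀ b i)) t l y) := by
    refine ld_pairE_congr q _ _ fun l y hy => ?_
    show dT (U l) (t, y) - Lop q (bgR q g) U l (t, y) = ∑ i, n i * Actu (AofV q g₀ b i) l (t, y)
    rw [hsol l t ht0 y hy, hn]
    show Lop q (bgR q g) U l (t, y) - 1 * ∑ i, Obs (b i) t (slT U t) * Actu (AofV q g₀ b i) l (t, y)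
        + ∑ i, m (tauOf t) i * Actu (AofV q g₀ b i) l (t, y) - Lop q (bgR q g) U l (t, y) = _
    simp only [sub_mul, Finset.sum_sub_distrib]
    ring
  have hsum : pairE q (wH 2 34 q t) (slT U t)
        (fun l y => ∑ i ∈ Finset.univ, n i * slT (Actu (AofV q g₀ b i)) t l y)
      = ∑ i, n i * pairE q (wH 2 34 q t) (slT U t) (slT (Actu (AofV q g₀ b i)) t) := by
    rw [ld_pairE_sum q cVA hu Finset.univ (F := fun i l y => n i * slT (Actu (AofV q g₀ b i)) t l y)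
      (fun i _ l => continuousOn_const.mul (hv i l))]
    exact Finset.sum_congr rfl fun i _ => ld_pairE_smul q _ _ _ (n i)
  have hE0 : 0 ≤ EEB q U t := mul_nonneg hLB.le (ld_heavyA_En_nonneg hq1 ht0 3 52 _)
  have hEe : EEB q U t = (-t) ^ (95 / 2 : ℝ) * En q (wH 3 52 q t) (slT U t) := rfl
  have hm0 : 0 ≤ ‖m (tauOf t)‖ ^ 2 := sq_nonneg _
  have hterm : ∀ i, 2 * (-t) ^ (61 / 2 : ℝ) * (n i * pairE q (wH 2 34 q t) (slT U t) (slT (Actu (AofV q g₀ b i)) t))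
      ≤ CF i / (-t) * (2 * ‖m (tauOf t)‖ ^ 2 + (2 * (∑ i, CO i) + 1) * EEB q U t) := by
    intro i
    have h1 := hforce i t ht0 htq hKt (slT U t) hu
    rw [← hEe] at h1
    have h2 := hobs i t ht0 hKt (slT U t) hu
    rw [← hEe] at h2
    have hCOi : CO i ≤ ∑ i, CO i := Finset.single_le_sum (fun j _ => hCO j) (Finset.mem_univ i)
    have hmi : (m (tauOf t) i) ^ 2 ≤ ‖m (tauOf t)‖ ^ 2 := by
      have := PiLp.norm_apply_le (m (tauOf t)) i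
      rw [Real.norm_eq_abs] at this
      calc (m (tauOf t) i) ^ 2 = |m (tauOf t) i| ^ 2 := (sq_abs _).symm
        _ ≤ ‖m (tauOf t)‖ ^ 2 := pow_le_pow_left₀ (abs_nonneg _) this 2
    have hs : Real.sqrt (EEB q U t) ^ 2 = EEB q U t := Real.sq_sqrt hE0
    have hni : (n i) ^ 2 ≤ 2 * ‖m (tauOf t)‖ ^ 2 + 2 * (∑ i, CO i) * EEB q U t := by
      have e1 : n i = m (tauOf t) i - Obs (b i) t (slT U t) := by rw [hn]
      have h3 : (n i) ^ 2 ≤ 2 * (m (tauOf t) i) ^ 2 + 2 * (Obs (b i) t (slT U t)) ^ 2 := by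
        rw [e1]; nlinarith [sq_nonneg (m (tauOf t) i + Obs (b i) t (slT U t))]
      have h4 : CO i * EEB q U t ≤ (∑ i, CO i) * EEB q U t := mul_le_mul_of_nonneg_right hCOi hE0
      linarith
    have h5 : 2 * (|n i| * Real.sqrt (EEB q U t)) ≤ (n i) ^ 2 + EEB q U t := by
      have := sq_nonneg (|n i| - Real.sqrt (EEB q U t))
      have e2 : |n i| ^ 2 = (n i) ^ 2 := sq_abs _
      nlinarith
    have hCFΛ : 0 ≤ CF i / (-t) := div_nonneg (hCF i) hΛ.le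
    calc 2 * (-t) ^ (61 / 2 : ℝ) * (n i * pairE q (wH 2 34 q t) (slT U t) (slT (Actu (AofV q g₀ b i)) t))
        ≤ 2 * (-t) ^ (61 / 2 : ℝ) * (|n i| * |pairE q (wH 2 34 q t) (slT U t) (slT (Actu (AofV q g₀ b i)) t)|) := by
          refine mul_le_mul_of_nonneg_left ?_ (by positivity)
          rw [← abs_mul]
          exact le_abs_self _
      _ = 2 * |n i| * ((-t) ^ (61 / 2 : ℝ) * |pairE q (wH 2 34 q t) (slT U t) (slT (Actu (AofV q g₀ b i)) t)|) := by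
          ring
      _ ≤ 2 * |n i| * (CF i / (-t) * Real.sqrt (EEB q U t)) :=
          mul_le_mul_of_nonneg_left h1 (by positivity)
      _ = CF i / (-t) * (2 * (|n i| * Real.sqrt (EEB q U t))) := by ring
      _ ≤ CF i / (-t) * (2 * ‖m (tauOf t)‖ ^ 2 + (2 * (∑ i, CO i) + 1) * EEB q U t) :=
          mul_le_mul_of_nonneg_left (by linarith) hCFΛ
  have hpair : 2 * (-t) ^ (61 / 2 : ℝ) * pairE q (wH 2 34 q t) (slT U t) (slT (dfL q (bgR q g) U) t)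
      ≤ (∑ i, CF i) / (-t) * (2 * ‖m (tauOf t)‖ ^ 2 + (2 * (∑ i, CO i) + 1) * EEB q U t) := by
    rw [hcong, hsum, Finset.mul_sum, Finset.sum_div, Finset.sum_mul]
    exact Finset.sum_le_sum fun i _ => hterm i
  have hfin : Cd / (-t) * EEB q U t
        + (∑ i, CF i) / (-t) * (2 * ‖m (tauOf t)‖ ^ 2 + (2 * (∑ i, CO i) + 1) * EEB q U t)
      ≤ (Cd + (∑ i, CF i) * (2 * (∑ i, CO i) + 1) + 2 * (∑ i, CF i)) / (-t) * (EEB q U t + ‖m (tauOf t)‖ ^ 2) := by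
    have e3 : (Cd + (∑ i, CF i) * (2 * (∑ i, CO i) + 1) + 2 * (∑ i, CF i)) / (-t) * (EEB q U t + ‖m (tauOf t)‖ ^ 2)
        - (Cd / (-t) * EEB q U t
          + (∑ i, CF i) / (-t) * (2 * ‖m (tauOf t)‖ ^ 2 + (2 * (∑ i, CO i) + 1) * EEB q U t))
        = (Cd * ‖m (tauOf t)‖ ^ 2 + (∑ i, CF i) * (2 * (∑ i, CO i) + 1) * ‖m (tauOf t)‖ ^ 2
            + 2 * (∑ i, CF i) * EEB q U t) / (-t) := by
      field_simp
      ring
    have h6 : 0 ≤ (Cd * ‖m (tauOf t)‖ ^ 2 + (∑ i, CF i) * (2 * (∑ i, CO i) + 1) * ‖m (tauOf t)‖ ^ 2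
            + 2 * (∑ i, CF i) * EEB q U t) / (-t) := by positivity
    linarith
  linarith

end

end Claimed.Agent.R324.Core
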