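/-
Row 324 (S0582), PDE core, module LD (`linear_solve`), architect helper217.   Blueprint 7.4 (origin/helper232:docs/R324_blueprint.md).   PORT of R325/Core/LD (packed in Claimed/Agent/R325/Pk37..Pk48.lean).      FILE LD/HeavyI
   Λ = -t,  X = Xf y = 1 - y²,  Y = X/Λ,  τ = tauOf t = -log Λ;   u-form of a slice u = (σ, h₃, b):  uV u = (σ, h₃, X b);   κ = kapJ q;   𝕀 = II  (Core/W/Ibp.lean);   definitions of this module: Core/LD/Defs.lean.
LD1' (heavy estimates), integrated form; uniqueness for `(L_1)`.      (R325 analogue: LD/HeavyI.lean in Pk44: the proofs can be adapted almost literally.)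
* continuity in time:  `EEB q U = fun s => (-s)^ν * En q (sl Vp s) (slT U s)` with `Vp p = wH 3 52 q p.1 p.2`: `ld0_En_contOn`, `ld0_Di_contOn` (Core/LD0/Int.lean), `smS_wH`, `ld_rpow_contDiffOn .. |>.continuousOn`;   `HY`: the integrand `X² V n2(S)` is the slice of an `SmS` function (`ld0_II_contOn`, `ld0_n2_sm`, `sm_Xf`);   `ld_WE_contOn` (LD/WE.lean) for `Λ^c |m(τ(s))|²`.
* nonnegativity: `ld0_xb_En_nonneg`, `w2_Di_nonneg`, `w0_wH_pos`, `Real.rpow_nonneg`.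
* `ld_heavy_int`.   `f(s) = (-s)^{-2η} EEB q U s` has the derivative `2η Λ^{-2η-1} EEB + Λ^{-2η} e` (`ld_rpow_hasDerivAt`, `e` from `ld_heavy_HE`), so
      `f' + Λ^{-2η} (cH/2) DDB + (29 - 2η) Λ^{-2η-1} EEB ≤ C Λ^{-2η-1}|m|² + C Λ^{ν-2η} 𝕀[X² V n2(S)]`,    `29 - 2η ≥ 1`, `EEB ≥ 0`.
   `ld_integrate` on `[t₁,t]`,  `f(t₁) = 0` (`ld_EEB_zero`).    `HY q η S s = Λ^{ν-2η} 𝕀[..]` by definition (`Real.rpow_add`/`rpow_sub`: `Λ^{-2η} Λ^ν = Λ^{ν-2η}`).
* `ld_heavyA_int`:  the same with `ld_heavyA_HE`:  `f_A' + cA Λ^{-2η} DDA + (30-2η) Λ^{-2η-1} EEA ≤ C Λ^{-2η-1} (EEB + |m|²)`;   `∫ Λ^{-2η-1} EEB ≤ C mEn η m t₁ t` by `ld_heavy_int` with `S = 0` (`HY q η 0 = 0`; `SolL.congr_S`).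
* `ld_EEB_eq_zero`:  the integrand `ϑ ↦ (X V n2)(cos ϑ)` is continuous, `≥ 0`, with zero integral on `[0,π]`, so it vanishes (`intervalIntegral.integral_eq_zero_iff_of_nonneg`-type / `Continuous.integral_pos_of_hasCompactSupport..`; R325 `ld_EHv_eq_zero` is the model);  `X V > 0` for `y ∈ (-1,1)`, so `n2 = 0`, i.e. `U 0 = U 1 = X U 2 = 0` on `(-1,1)`;  the end points by continuity.
* `ld_unique`:  `t ≤ -Λ₀`: `VanB`.   `t ∈ (-Λ₀,0)`: `ld_heavy_int` with `η = 0`, `S = 0`, `m = 0`, `t₁ = -Λ₀`  (`ld_Fmc_zero`, `mEn η 0 = 0`, `HY = 0`)  ⟹ `EEB q U t ≤ 0`.     `ld_unique2`: `SolL.sub`.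
-/
import Claimed.Agent.R324.Core.LD.HeavyA
import Claimed.Agent.R324.Core.LD0.Int

set_option autoImplicit false

namespace Claimed.Agent.R324.Core

open Set Filter Topology MeasureTheory
open scoped ContDiff

noncomputable section

variable {N : ℕ} {q : ℝ} {g : Bg} {b : Fin N → Fin 3 → ℝ → ℝ} {δ K g₀ Λ₀ cH : ℝ}

theorem ld_EEB_cont (q : ℝ) {U : Tri} (hU : ∀ j, Sm (U j)) : ContinuousOn (EEB q U) (Iio 0) :=
  (ld_rpow_contDiffOn ((95 : ℝ) / 2)).continuousOn.mul (ld0_En_contOn q (smS_wH 3 52 q) hU)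

theorem ld_DDB_cont (q : ℝ) {U : Tri} (hU : ∀ j, Sm (U j)) : ContinuousOn (DDB q U) (Iio 0) :=
  (ld_rpow_contDiffOn ((95 : ℝ) / 2)).continuousOn.mul (ld0_Di_contOn q (smS_wH 3 52 q) hU)

theorem ld_EEA_cont (q : ℝ) {U : Tri} (hU : ∀ j, Sm (U j)) : ContinuousOn (EEA q U) (Iio 0) :=
  (ld_rpow_contDiffOn ((61 : ℝ) / 2)).continuousOn.mul (ld0_En_contOn q (smS_wH 2 34 q) hU)

theorem ld_DDA_cont (q : ℝ) {U : Tri} (hU : ∀ j, Sm (U j)) : ContinuousOn (DDA q U) (Iio 0) :=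
  (ld_rpow_contDiffOn ((61 : ℝ) / 2)).continuousOn.mul (ld0_Di_contOn q (smS_wH 2 34 q) hU)

theorem ld_HY_cont (q η : ℝ) {S : Tri} (hS : ∀ j, Sm (S j)) : ContinuousOn (HY q η S) (Iio 0) := by
  have hX : Sm (fun p => 1 - p.2 ^ 2) := (sm_const 1).sub (sm_snd.pow 2)
  have hG : SmS (fun p => (1 - p.2 ^ 2) ^ 2 * wH 3 52 q p.1 p.2 * n2 q (slT S p.1) p.2) :=
    ((hX.pow 2).smS.mul (smS_wH 3 52 q)).mul (ld0_n2_sm q hS).1.smS
  exact (ld_rpow_contDiffOn ((95 : ℝ) / 2 - 2 * η)).continuousOn.mul (ld0_II_contOn hG)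

theorem ld_EEB_nonneg (hq : 1 < q) (U : Tri) {t : ℝ} (ht : t < 0) : 0 ≤ EEB q U t :=
  mul_nonneg (Real.rpow_nonneg (by linarith) _)
    (ld0_xb_En_nonneg (by linarith) (fun _ hy => (w0_wH_pos hq ht hy).le) _)

theorem ld_DDB_nonneg (hq : 1 < q) (U : Tri) {t : ℝ} (ht : t < 0) : 0 ≤ DDB q U t :=
  mul_nonneg (Real.rpow_nonneg (by linarith) _)
    (w2_Di_nonneg hq.le (fun _ hy => (w0_wH_pos hq ht hy).le) _)

theorem ld_EEA_nonneg (hq : 1 < q) (U : Tri) {t : ℝ} (ht : t < 0) : 0 ≤ EEA q U t :=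
  mul_nonneg (Real.rpow_nonneg (by linarith) _)
    (ld0_xb_En_nonneg (by linarith) (fun _ hy => (w0_wH_pos hq ht hy).le) _)

theorem ld_DDA_nonneg (hq : 1 < q) (U : Tri) {t : ℝ} (ht : t < 0) : 0 ≤ DDA q U t :=
  mul_nonneg (Real.rpow_nonneg (by linarith) _)
    (w2_Di_nonneg hq.le (fun _ hy => (w0_wH_pos hq ht hy).le) _)

theorem ld_HY_nonneg (hq : 1 < q) (η : ℝ) (S : Tri) {t : ℝ} (ht : t < 0) : 0 ≤ HY q η S t :=
  mul_nonneg (Real.rpow_nonneg (by linarith) _)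
    (ii_nonneg fun y hy => mul_nonneg (mul_nonneg (sq_nonneg _) (w0_wH_pos hq ht hy).le)
      (n2_nonneg (by linarith) _ y))

/-- `En` of a slice which vanishes on `[-1,1]`. -/
theorem ld_hvI_En_zero (q : ℝ) (V : ℝ → ℝ) {u : Fin 3 → ℝ → ℝ} (h : ∀ j, ∀ y ∈ Icc (-1 : ℝ) 1, u j y = 0) :
    En q V u = 0 := by
  unfold En
  rw [ii_congr (g := fun _ => 0) (fun y hy => by simp [n2, h 0 y hy, h 1 y hy, h 2 y hy]), ii_const, mul_zero]

theorem ld_EEB_zero (q : ℝ) {U : Tri} {t : ℝ} (h : ∀ j, ∀ y ∈ Icc (-1 : ℝ) 1, U j (t, y) = 0) : EEB q U t = 0 := by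
  unfold EEB
  rw [ld_hvI_En_zero q _ (u := slT U t) h, mul_zero]

theorem ld_EEA_zero (q : ℝ) {U : Tri} {t : ℝ} (h : ∀ j, ∀ y ∈ Icc (-1 : ℝ) 1, U j (t, y) = 0) : EEA q U t = 0 := by
  unfold EEA
  rw [ld_hvI_En_zero q _ (u := slT U t) h, mul_zero]

theorem ld_HY_zero (q η t : ℝ) : HY q η (fun _ _ => 0) t = 0 := by
  unfold HY
  rw [ii_congr (g := fun _ => 0) (fun y _ => by simp [n2, slT]), ii_const, mul_zero, mul_zero]

theorem ld_mEn_zero (η t₁ t : ℝ) : mEn η (fun _ => (0 : EuclideanSpace ℝ (Fin N))) t₁ t = 0 := by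
  unfold mEn
  simp

/-- **(HE_B) integrated.** -/
theorem ld_heavy_int (hq : 100 ≤ q) (hg : BgGood q g) (H : HeavyData q g N b δ K g₀ Λ₀ cH) : ∃ C : ℝ, 0 ≤ C ∧
    ∀ η ∈ Icc (0 : ℝ) 14, ∀ (U S : Tri) (m : ℝ → EuclideanSpace ℝ (Fin N)) (t₁ : ℝ),
    (∀ j, Sm (U j)) → (∀ j, Sm (S j)) → Continuous m → t₁ ∈ Ico (-Λ₀) 0 → VanB t₁ U →
    SolL q g b (AofV q g₀ b) 1 (fun j p => S j p + Fmc (AofV q g₀ b) m j p) U →
    ∀ t ∈ Ico t₁ 0,
      (-t) ^ (-2 * η) * EEB q U t + cH / 2 * (∫ s in t₁..t, (-s) ^ (-2 * η) * DDB q U s)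
        + (∫ s in t₁..t, (-s) ^ (-2 * η - 1) * EEB q U s)
        ≤ C * mEn η m t₁ t + C * ∫ s in t₁..t, HY q η S s := by
  have hq1 : 1 < q := by linarith
  obtain ⟨C, hC0, hC⟩ := ld_heavy_HE hq hg H
  refine ⟨C, hC0, ?_⟩
  intro η hη U S m t₁ hU hS hm ht₁ hvan hsol t ht
  have hsub : Icc t₁ t ⊆ Iio (0 : ℝ) := fun s hs => lt_of_le_of_lt hs.2 ht.2
  have c0 : ContinuousOn (fun s : ℝ => (-s) ^ (-2 * η)) (Icc t₁ t) :=
    (ld_rpow_contDiffOn (-2 * η)).continuousOn.mono hsub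
  have c1 : ContinuousOn (fun s : ℝ => (-s) ^ (-2 * η - 1)) (Icc t₁ t) :=
    (ld_rpow_contDiffOn (-2 * η - 1)).continuousOn.mono hsub
  have cE : ContinuousOn (EEB q U) (Icc t₁ t) := (ld_EEB_cont q hU).mono hsub
  have cD : ContinuousOn (DDB q U) (Icc t₁ t) := (ld_DDB_cont q hU).mono hsub
  have cH' : ContinuousOn (HY q η S) (Icc t₁ t) := (ld_HY_cont q η hS).mono hsub
  have cg1 : ContinuousOn (fun s : ℝ => (-s) ^ (-2 * η) * DDB q U s) (Icc t₁ t) := c0.mul cD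
  have cg2 : ContinuousOn (fun s : ℝ => (-s) ^ (-2 * η - 1) * EEB q U s) (Icc t₁ t) := c1.mul cE
  have ch1 : ContinuousOn (fun s : ℝ => (-s) ^ (-2 * η - 1) * ‖m (tauOf s)‖ ^ 2) (Icc t₁ t) :=
    (ld_WE_contOn (-2 * η - 1) hm).mono hsub
  have key := ld_integrate (f := fun s : ℝ => (-s) ^ (-2 * η) * EEB q U s)
    (g := fun s : ℝ => cH / 2 * ((-s) ^ (-2 * η) * DDB q U s) + (-s) ^ (-2 * η - 1) * EEB q U s)
    (h := fun s : ℝ => C * ((-s) ^ (-2 * η - 1) * ‖m (tauOf s)‖ ^ 2) + C * HY q η S s)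
    (a := t₁) (t := t) ht.1 ?_
    ((continuousOn_const.mul cg1).add cg2)
    ((continuousOn_const.mul ch1).add (continuousOn_const.mul cH'))
  · have hf0 : EEB q U t₁ = 0 := ld_EEB_zero q (fun j => hvan j t₁ le_rfl)
    have i1 := cg1.intervalIntegrable_of_Icc (μ := volume) ht.1
    have i2 := cg2.intervalIntegrable_of_Icc (μ := volume) ht.1
    have i3 := ch1.intervalIntegrable_of_Icc (μ := volume) ht.1
    have i4 := cH'.intervalIntegrable_of_Icc (μ := volume) ht.1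
    rw [intervalIntegral.integral_add (i1.const_mul _) i2,
      intervalIntegral.integral_add (i3.const_mul _) (i4.const_mul _),
      intervalIntegral.integral_const_mul, intervalIntegral.integral_const_mul,
      intervalIntegral.integral_const_mul] at key
    simp only [hf0, mul_zero, zero_add] at key
    unfold mEn
    linarith
  · intro s hs
    have hs0 : s < 0 := hsub hs
    have hsI : s ∈ Ico (-Λ₀) 0 := ⟨le_trans ht₁.1 hs.1, hs0⟩
    obtain ⟨e, he, hle⟩ := hC U S m hU hS hsol s hsI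
    have hpos : 0 < -s := by linarith
    have hd := (ld_rpow_hasDerivAt (-2 * η) hs0).mul he
    refine ⟨_, hd, ?_⟩
    set L0 : ℝ := (-s) ^ (-2 * η) with hL0
    set L1 : ℝ := (-s) ^ (-2 * η - 1) with hL1
    have hL0pos : 0 < L0 := Real.rpow_pos_of_pos hpos _
    have hL1pos : 0 < L1 := Real.rpow_pos_of_pos hpos _
    have hL01 : L0 / (-s) = L1 := by
      rw [hL0, hL1, Real.rpow_sub_one hpos.ne']
    have hHY : HY q η S s
        = L0 * ((-s) ^ (95 / 2 : ℝ) * II (fun y => (1 - y ^ 2) ^ 2 * wH 3 52 q s y * n2 q (slT S s) y)) := by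
      unfold HY
      rw [hL0, ← mul_assoc, ← Real.rpow_add hpos]
      congr 2
      ring
    have hEH : 0 ≤ EEB q U s := ld_EEB_nonneg hq1 U hs0
    have hmul := mul_le_mul_of_nonneg_left hle hL0pos.le
    have e1 : L0 * (29 / (-s) * EEB q U s) = 29 * (L1 * EEB q U s) := by
      rw [← hL01]; field_simp
    have e2 : L0 * (C / (-s) * ‖m (tauOf s)‖ ^ 2) = C * (L1 * ‖m (tauOf s)‖ ^ 2) := by
      rw [← hL01]; field_simp
    have hLE : 0 ≤ L1 * EEB q U s := mul_nonneg hL1pos.le hEH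
    have hη1 : η ≤ 14 := hη.2
    rw [hHY]
    have h3 : (28 - 2 * η) * (L1 * EEB q U s) ≥ 0 := mul_nonneg (by linarith) hLE
    nlinarith [hmul, e1, e2, h3]

/-- **(HE_A) integrated.** -/
theorem ld_heavyA_int (hq : 100 ≤ q) (hg : BgGood q g) (H : HeavyData q g N b δ K g₀ Λ₀ cH) :
    ∃ C cA Λ₁ : ℝ, 0 ≤ C ∧ 0 < cA ∧ 0 < Λ₁ ∧ Λ₁ ≤ Λ₀ ∧
    ∀ η ∈ Icc (0 : ℝ) 14, ∀ (U : Tri) (m : ℝ → EuclideanSpace ℝ (Fin N)) (t₁ : ℝ),
    (∀ j, Sm (U j)) → Continuous m → t₁ ∈ Ico (-Λ₁) 0 → VanB t₁ U →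
    SolL q g b (AofV q g₀ b) 1 (Fmc (AofV q g₀ b) m) U →
    ∀ t ∈ Ico t₁ 0,
      (-t) ^ (-2 * η) * EEA q U t + cA * (∫ s in t₁..t, (-s) ^ (-2 * η) * DDA q U s) ≤ C * mEn η m t₁ t := by
  have hq1 : 1 < q := by linarith
  obtain ⟨C, cA, Λ₁, hC0, hcA, hΛ₁, hΛ₁₀, hC⟩ := ld_heavyA_HE hq hg H
  obtain ⟨CB, hCB0, hCB⟩ := ld_heavy_int hq hg H
  refine ⟨C * (CB + 1), cA, Λ₁, by positivity, hcA, hΛ₁, hΛ₁₀, ?_⟩
  intro η hη U m t₁ hU hm ht₁ hvan hsol t ht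
  have hsub : Icc t₁ t ⊆ Iio (0 : ℝ) := fun s hs => lt_of_le_of_lt hs.2 ht.2
  have c0 : ContinuousOn (fun s : ℝ => (-s) ^ (-2 * η)) (Icc t₁ t) :=
    (ld_rpow_contDiffOn (-2 * η)).continuousOn.mono hsub
  have c1 : ContinuousOn (fun s : ℝ => (-s) ^ (-2 * η - 1)) (Icc t₁ t) :=
    (ld_rpow_contDiffOn (-2 * η - 1)).continuousOn.mono hsub
  have cE : ContinuousOn (EEB q U) (Icc t₁ t) := (ld_EEB_cont q hU).mono hsub
  have cDB : ContinuousOn (DDB q U) (Icc t₁ t) := (ld_DDB_cont q hU).mono hsub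
  have cD : ContinuousOn (DDA q U) (Icc t₁ t) := (ld_DDA_cont q hU).mono hsub
  have cg1 : ContinuousOn (fun s : ℝ => (-s) ^ (-2 * η) * DDA q U s) (Icc t₁ t) := c0.mul cD
  have cg2 : ContinuousOn (fun s : ℝ => (-s) ^ (-2 * η - 1) * EEB q U s) (Icc t₁ t) := c1.mul cE
  have ch1 : ContinuousOn (fun s : ℝ => (-s) ^ (-2 * η - 1) * ‖m (tauOf s)‖ ^ 2) (Icc t₁ t) :=
    (ld_WE_contOn (-2 * η - 1) hm).mono hsub
  -- the heavy estimate B with `S = 0`
  have hsolB : SolL q g b (AofV q g₀ b) 1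
      (fun j p => (fun _ _ => (0 : ℝ)) j p + Fmc (AofV q g₀ b) m j p) U :=
    hsol.congr_S (fun j s _ y _ => (zero_add _).symm)
  have hB := hCB η hη U (fun _ _ => 0) m t₁ hU (fun _ => sm_const 0) hm
    ⟨le_trans (neg_le_neg hΛ₁₀) ht₁.1, ht₁.2⟩ hvan hsolB t ht
  simp only [ld_HY_zero, intervalIntegral.integral_zero, mul_zero, add_zero] at hB
  have hB1 : 0 ≤ (-t) ^ (-2 * η) * EEB q U t :=
    mul_nonneg (Real.rpow_nonneg (by linarith [ht.2]) _) (ld_EEB_nonneg hq1 U ht.2)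
  have hB2 : 0 ≤ ∫ s in t₁..t, (-s) ^ (-2 * η) * DDB q U s := by
    refine intervalIntegral.integral_nonneg ht.1 fun s hs => ?_
    have hs0 : s < 0 := hsub hs
    exact mul_nonneg (Real.rpow_nonneg (by linarith) _) (ld_DDB_nonneg hq1 U hs0)
  have hB3 : (∫ s in t₁..t, (-s) ^ (-2 * η - 1) * EEB q U s) ≤ CB * mEn η m t₁ t := by
    have := mul_nonneg (half_pos H.cpos).le hB2
    linarith
  have key := ld_integrate (f := fun s : ℝ => (-s) ^ (-2 * η) * EEA q U s)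
    (g := fun s : ℝ => cA * ((-s) ^ (-2 * η) * DDA q U s))
    (h := fun s : ℝ => C * ((-s) ^ (-2 * η - 1) * EEB q U s) + C * ((-s) ^ (-2 * η - 1) * ‖m (tauOf s)‖ ^ 2))
    (a := t₁) (t := t) ht.1 ?_
    (continuousOn_const.mul cg1)
    ((continuousOn_const.mul cg2).add (continuousOn_const.mul ch1))
  · have hf0 : EEA q U t₁ = 0 := ld_EEA_zero q (fun j => hvan j t₁ le_rfl)
    have i2 := cg2.intervalIntegrable_of_Icc (μ := volume) ht.1
    have i3 := ch1.intervalIntegrable_of_Icc (μ := volume) ht.1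
    rw [intervalIntegral.integral_add (i2.const_mul _) (i3.const_mul _),
      intervalIntegral.integral_const_mul, intervalIntegral.integral_const_mul,
      intervalIntegral.integral_const_mul] at key
    simp only [hf0, mul_zero, zero_add] at key
    have h4 := mul_le_mul_of_nonneg_left hB3 hC0
    have h5 : (∫ s in t₁..t, (-s) ^ (-2 * η - 1) * ‖m (tauOf s)‖ ^ 2) = mEn η m t₁ t := rfl
    rw [h5] at key
    linarith
  · intro s hs
    have hs0 : s < 0 := hsub hs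
    have hsI : s ∈ Ico (-Λ₁) 0 := ⟨le_trans ht₁.1 hs.1, hs0⟩
    obtain ⟨e, he, hle⟩ := hC U m hU hsol s hsI
    have hpos : 0 < -s := by linarith
    have hd := (ld_rpow_hasDerivAt (-2 * η) hs0).mul he
    refine ⟨_, hd, ?_⟩
    set L0 : ℝ := (-s) ^ (-2 * η) with hL0
    set L1 : ℝ := (-s) ^ (-2 * η - 1) with hL1
    have hL0pos : 0 < L0 := Real.rpow_pos_of_pos hpos _
    have hL1pos : 0 < L1 := Real.rpow_pos_of_pos hpos _
    have hL01 : L0 / (-s) = L1 := by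
      rw [hL0, hL1, Real.rpow_sub_one hpos.ne']
    have hEH : 0 ≤ EEA q U s := ld_EEA_nonneg hq1 U hs0
    have hmul := mul_le_mul_of_nonneg_left hle hL0pos.le
    have e1 : L0 * (30 / (-s) * EEA q U s) = 30 * (L1 * EEA q U s) := by
      rw [← hL01]; field_simp
    have e2 : L0 * (C / (-s) * (EEB q U s + ‖m (tauOf s)‖ ^ 2))
        = C * (L1 * EEB q U s) + C * (L1 * ‖m (tauOf s)‖ ^ 2) := by
      rw [← hL01]; field_simp; ring
    have hLE : 0 ≤ L1 * EEA q U s := mul_nonneg hL1pos.le hEH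
    have hη1 : η ≤ 14 := hη.2
    have h3 : (30 - 2 * η) * (L1 * EEA q U s) ≥ 0 := mul_nonneg (by linarith) hLE
    nlinarith [hmul, e1, e2, h3]

theorem ld_EEB_eq_zero (hq : 1 < q) {U : Tri} (hU : ∀ j, Sm (U j)) {t : ℝ} (ht : t < 0) (h : EEB q U t = 0) :
    ∀ j, ∀ y ∈ Icc (-1 : ℝ) 1, U j (t, y) = 0 := by
  have hpos : 0 < -t := by linarith
  have hq0 : 0 < q := by linarith
  have hEn : En q (wH 3 52 q t) (slT U t) = 0 := by
    unfold EEB at h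
    rcases mul_eq_zero.1 h with h1 | h1
    · exact absurd h1 (Real.rpow_pos_of_pos hpos _).ne'
    · exact h1
  have hV : CI (wH 3 52 q t) := fun y hy =>
    (((smS_wH 3 52 q).smI ht) y hy).continuousAt.continuousWithinAt
  have hX : CI (fun y : ℝ => 1 - y ^ 2) := (continuous_const.sub (continuous_id.pow 2)).continuousOn
  have hf : CI (fun y => (1 - y ^ 2) * wH 3 52 q t y * n2 q (slT U t) y) :=
    (hX.mul hV).mul (ci_n2 (smI_slT hU ht))
  have hcont := ii_continuous hf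
  have hnn : ∀ ϑ : ℝ, 0 ≤ (fun y => (1 - y ^ 2) * wH 3 52 q t y * n2 q (slT U t) y) (Real.cos ϑ) := fun ϑ => by
    have hc := cos_mem_Icc ϑ
    have h1 : 0 ≤ 1 - Real.cos ϑ ^ 2 := by nlinarith [hc.1, hc.2]
    exact mul_nonneg (mul_nonneg h1 (w0_wH_pos hq ht hc).le) (n2_nonneg hq0 _ _)
  unfold En II at hEn
  rw [intervalIntegral.integral_of_le Real.pi_pos.le] at hEn
  have hae := (setIntegral_eq_zero_iff_of_nonneg_ae (Eventually.of_forall hnn)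
    hcont.integrableOn_Ioc).1 hEn
  have hae' : (fun ϑ : ℝ => (fun y => (1 - y ^ 2) * wH 3 52 q t y * n2 q (slT U t) y) (Real.cos ϑ))
      =ᵐ[volume.restrict (Icc (0 : ℝ) Real.pi)] (fun _ => (0 : ℝ)) := by
    rw [← restrict_Ioc_eq_restrict_Icc]
    exact hae
  have heq := Measure.eqOn_Icc_of_ae_eq volume Real.pi_pos.ne hae' hcont.continuousOn continuousOn_const
  have hIoo : ∀ y ∈ Ioo (-1 : ℝ) 1, ∀ j, U j (t, y) = 0 := by
    intro y hy
    have hyI : y ∈ Icc (-1 : ℝ) 1 := Ioo_subset_Icc_self hy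
    have h1 := heq (⟨Real.arccos_nonneg y, Real.arccos_le_pi y⟩ : Real.arccos y ∈ Icc (0 : ℝ) Real.pi)
    simp only [Real.cos_arccos hyI.1 hyI.2] at h1
    have hXp : 0 < 1 - y ^ 2 := by nlinarith [hy.1, hy.2]
    have hW := w0_wH_pos (a := 3) (M := 52) hq ht hyI
    have h2 : n2 q (slT U t) y = 0 := by
      rcases mul_eq_zero.1 h1 with h3 | h3
      · exact absurd h3 (mul_pos hXp hW).ne'
      · exact h3
    unfold n2 slT at h2
    have hq1 : 0 < q + 1 := by linarith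
    have hqq : 0 < q / (q + 1) := div_pos hq0 hq1
    have a0 : 0 ≤ (q + 1) * (U 0 (t, y)) ^ 2 := by positivity
    have a1 : 0 ≤ 2 * (U 1 (t, y)) ^ 2 := by positivity
    have a2 : 0 ≤ q / (q + 1) * ((1 - y ^ 2) * U 2 (t, y)) ^ 2 := by positivity
    have b0 : (q + 1) * (U 0 (t, y)) ^ 2 = 0 := by linarith
    have b1 : 2 * (U 1 (t, y)) ^ 2 = 0 := by linarith
    have b2 : q / (q + 1) * ((1 - y ^ 2) * U 2 (t, y)) ^ 2 = 0 := by linarith
    have d0 : U 0 (t, y) = 0 := by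
      rcases mul_eq_zero.1 b0 with h3 | h3
      · exact absurd h3 hq1.ne'
      · exact pow_eq_zero_iff two_ne_zero |>.1 h3
    have d1 : U 1 (t, y) = 0 := by
      rcases mul_eq_zero.1 b1 with h3 | h3
      · exact absurd h3 two_ne_zero
      · exact pow_eq_zero_iff two_ne_zero |>.1 h3
    have d2 : U 2 (t, y) = 0 := by
      rcases mul_eq_zero.1 b2 with h3 | h3
      · exact absurd h3 hqq.ne'
      · rcases mul_eq_zero.1 (pow_eq_zero_iff two_ne_zero |>.1 h3) with h4 | h4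
        · exact absurd h4 hXp.ne'
        · exact h4
    intro j
    fin_cases j
    · exact d0
    · exact d1
    · exact d2
  intro j
  have hwc : Continuous (fun y : ℝ => U j (t, y)) := ((hU j).sl ht).continuous
  have hclosed : IsClosed {y : ℝ | U j (t, y) = 0} := isClosed_eq hwc continuous_const
  have hsub : closure (Ioo (-1 : ℝ) 1) ⊆ {y : ℝ | U j (t, y) = 0} :=
    hclosed.closure_subset_iff.2 (fun y hy => hIoo y hy j)
  rw [closure_Ioo (by norm_num : (-1 : ℝ) ≠ 1)] at hsub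
  exact fun y hy => hsub hy

/-- uniqueness for `(L_1)`. -/
theorem ld_unique (hq : 100 ≤ q) (hg : BgGood q g) (H : HeavyData q g N b δ K g₀ Λ₀ cH) {U : Tri}
    (hU : ∀ j, Sm (U j)) (hv : VanB (-Λ₀) U) (hs : SolL q g b (AofV q g₀ b) 1 (fun _ _ => 0) U) :
    ∀ j, ∀ t < 0, ∀ y ∈ Icc (-1 : ℝ) 1, U j (t, y) = 0 := by
  have hq1 : 1 < q := by linarith
  intro j t ht
  rcases le_or_gt t (-Λ₀) with hle | hgt
  · exact hv j t hle
  obtain ⟨C, hC0, hC⟩ := ld_heavy_int hq hg H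
  have hsol : SolL q g b (AofV q g₀ b) 1
      (fun j p => (fun _ _ => (0 : ℝ)) j p
        + Fmc (AofV q g₀ b) (fun _ => (0 : EuclideanSpace ℝ (Fin N))) j p) U := by
    refine hs.congr_S ?_
    intro j s _ y _
    rw [ld_Fmc_zero, add_zero]
  have hΛ : -Λ₀ ∈ Ico (-Λ₀) 0 := ⟨le_rfl, by linarith [H.Λpos]⟩
  have key := hC 0 ⟨le_rfl, by norm_num⟩ U (fun _ _ => 0) (fun _ => 0) (-Λ₀) hU (fun _ => sm_const 0)
    continuous_const hΛ hv hsol t ⟨hgt.le, ht⟩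
  have hI1 : 0 ≤ ∫ s in (-Λ₀)..t, (-s) ^ (-2 * (0 : ℝ)) * DDB q U s := by
    refine intervalIntegral.integral_nonneg hgt.le fun s hs => ?_
    have hs0 : s < 0 := lt_of_le_of_lt hs.2 ht
    exact mul_nonneg (Real.rpow_nonneg (by linarith) _) (ld_DDB_nonneg hq1 U hs0)
  have hI2 : 0 ≤ ∫ s in (-Λ₀)..t, (-s) ^ (-2 * (0 : ℝ) - 1) * EEB q U s := by
    refine intervalIntegral.integral_nonneg hgt.le fun s hs => ?_
    have hs0 : s < 0 := lt_of_le_of_lt hs.2 ht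
    exact mul_nonneg (Real.rpow_nonneg (by linarith) _) (ld_EEB_nonneg hq1 U hs0)
  rw [ld_mEn_zero] at key
  simp only [ld_HY_zero, intervalIntegral.integral_zero] at key
  have hE0 : EEB q U t = 0 := by
    have h1 := ld_EEB_nonneg hq1 U ht
    have h2 : (-t) ^ (-2 * (0 : ℝ)) = 1 := by simp
    rw [h2] at key
    have h3 : C * 0 + C * 0 = 0 := by ring
    rw [h3] at key
    have h4 := mul_nonneg (half_pos H.cpos).le hI1
    generalize (∫ s in (-Λ₀)..t, (-s) ^ (-2 * (0 : ℝ)) * DDB q U s) = A at key hI1 h4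
    generalize (∫ s in (-Λ₀)..t, (-s) ^ (-2 * (0 : ℝ) - 1) * EEB q U s) = B at key hI2
    linarith
  exact ld_EEB_eq_zero hq1 hU ht hE0 j

theorem ld_unique2 (hq : 100 ≤ q) (hg : BgGood q g) (H : HeavyData q g N b δ K g₀ Λ₀ cH) {S U V : Tri}
    (hU : ∀ j, Sm (U j)) (hV : ∀ j, Sm (V j)) (hU0 : VanB (-Λ₀) U) (hV0 : VanB (-Λ₀) V)
    (hsU : SolL q g b (AofV q g₀ b) 1 S U) (hsV : SolL q g b (AofV q g₀ b) 1 S V) :
    ∀ j, ∀ t < 0, ∀ y ∈ Icc (-1 : ℝ) 1, U j (t, y) = V j (t, y) := by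
  have hb : ∀ i l, Continuous (b i l) := fun i l => (H.bump i l).smooth.continuous
  have hsub := SolL.sub hb hU hV hsU hsV
  have hsub' : SolL q g b (AofV q g₀ b) 1 (fun _ _ => 0) (fun j p => U j p - V j p) :=
    hsub.congr_S (fun j t _ y _ => sub_self _)
  have hsm : ∀ j, Sm (fun p => U j p - V j p) := fun j => (hU j).sub (hV j)
  have hvan : VanB (-Λ₀) (fun j p => U j p - V j p) := by
    intro j t ht y hy
    show U j (t, y) - V j (t, y) = 0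
    rw [hU0 j t ht y hy, hV0 j t ht y hy, sub_self]
  intro j t ht y hy
  have := ld_unique hq hg H hsm hvan hsub' j t ht y hy
  exact sub_eq_zero.1 this

end

end Claimed.Agent.R324.Core
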