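/-
Row 324 (S0582), PDE core, module LD (`linear_solve`), step LD6 (`deriv`; helper489).      FILE LD/ObDerA
Part A: the class `CcB` is stable under `Ldag`;  time derivative of the kernel of an observation;  differentiation of `t ↦ O_c[U](t)` under the integral sign.      (R325 analogue: LD/ObDerA.lean in Pk43, first part of ObDerB in Pk44.)
   `cSh q c` = the part of `L† c` which comes from `L̃`:   `c♯_l = z₀ (θ+2)²(c_l/Y) - (q-1) (θ+2)(c_l/Y) + (Σ_k 𝐦_cone,kl c_k)/Y`.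
-/
import Claimed.Agent.R324.Core.LD.ActId
import Claimed.Agent.R324.Core.LD.SmoothB

set_option autoImplicit false

namespace Claimed.Agent.R324.Core

open Set Filter Topology MeasureTheory
open scoped ContDiff

noncomputable section

variable {N : ℕ} {δ K : ℝ}

/-- the adjoint (in `L²(dY)`) of the cone form of `Λ L̃`. -/
def cSh (q : ℝ) (c : Fin 3 → ℝ → ℝ) : Fin 3 → ℝ → ℝ := fun l Y =>
  z0F q * thp (thp (fun s => c l s / s)) Y - (q - 1) * thp (fun s => c l s / s) Y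
    + (∑ k, mCone q k l * c k Y) / Y

/-- hygiene. -/
theorem core_ld_obdera_hygiene : True := by
  have := @cSh.eq_1
  trivial

theorem ld_Ldag_eq (q : ℝ) (b A : Fin N → Fin 3 → ℝ → ℝ) (K : ℝ) (c : Fin 3 → ℝ → ℝ) (l : Fin 3) (Y : ℝ) :
    Ldag q b A K c l Y = cSh q c l Y + thp (c l) Y / 2 - ∑ i, pairY K c (A i) * b i l Y := rfl

theorem ld_cSh_CcB (q : ℝ) (hδ : 0 < δ) {c : Fin 3 → ℝ → ℝ} (hc : ∀ l, CcB δ K (c l)) (l : Fin 3) :
    CcB δ K (cSh q c l) := by
  have hG : CcB δ K (fun s => c l s / s) := (hc l).div_id hδ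
  have t1 : CcB δ K (fun Y => z0F q * thp (thp (fun s => c l s / s)) Y) := hG.thp.thp.const_mul _
  have t2 : CcB δ K (fun Y => (q - 1) * thp (fun s => c l s / s) Y) := hG.thp.const_mul _
  have t3 : CcB δ K (fun Y => (∑ k, mCone q k l * c k Y) / Y) :=
    (CcB.sum Finset.univ (fun k _ => (hc k).const_mul (mCone q k l))).div_id hδ
  exact (t1.sub t2).add t3

theorem ld_Ldag_CcB (q : ℝ) (hδ : 0 < δ) {b : Fin N → Fin 3 → ℝ → ℝ} (A : Fin N → Fin 3 → ℝ → ℝ)
    (hb : ∀ i l, CcB δ K (b i l)) {c : Fin 3 → ℝ → ℝ} (hc : ∀ l, CcB δ K (c l)) (l : Fin 3) :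
    CcB δ K (Ldag q b A K c l) := by
  have t4 : CcB δ K (fun Y => thp (c l) Y / 2) := (hc l).thp.div_const 2
  have t5 : CcB δ K (fun Y => ∑ i, pairY K c (A i) * b i l Y) :=
    CcB.sum Finset.univ (fun i _ => (hb i l).const_mul _)
  exact ((ld_cSh_CcB q hδ hc l).add t4).sub t5

theorem ld_cLev_CcB (q : ℝ) (hδ : 0 < δ) {b : Fin N → Fin 3 → ℝ → ℝ} (A : Fin N → Fin 3 → ℝ → ℝ)
    (hb : ∀ i l, CcB δ K (b i l)) (n : ℕ) (i : Fin N) (l : Fin 3) : CcB δ K (cLev q b A K n i l) := by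
  induction n generalizing l with
  | zero => exact hb i l
  | succ n ih => exact ld_Ldag_CcB q hδ A hb ih l

/-- `∂_t [ψ₁ (2ξ/Λ) c(X/Λ) x_l] = ψ₁ (2ξ/Λ) ((θ+2)c/2)(X/Λ) x_l / Λ`. -/
theorem ld_kOb_hasDerivAt {c : Fin 3 → ℝ → ℝ} (hc : ∀ l, Differentiable ℝ (c l)) (l : Fin 3) {t : ℝ}
    (ht : t < 0) (ξ : ℝ) :
    HasDerivAt (fun s => kOb c l (s, ξ)) (kOb (fun l Y => thp (c l) Y / 2) l (t, ξ) / (-t)) t := by
  have hΛ : (-t) ≠ 0 := by
    have : 0 < -t := by linarith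
    exact this.ne'
  have h1 : HasDerivAt (fun s : ℝ => -s) (-1) t := (hasDerivAt_id t).neg
  have hinv : ∀ a : ℝ, HasDerivAt (fun s : ℝ => a / (-s)) (a / (-t) ^ 2) t := by
    intro a
    have := (hasDerivAt_const t a).div h1 hΛ
    refine this.congr_deriv ?_
    ring
  have hcomp : HasDerivAt (fun s => c l (Xf ξ / (-s)))
      (deriv (c l) (Xf ξ / (-t)) * (Xf ξ / (-t) ^ 2)) t :=
    (hc l (Xf ξ / (-t))).hasDerivAt.comp t (hinv (Xf ξ))
  have h := ((((hinv (2 * ξ)).const_mul (psi1 ξ)).mul hcomp).mul_const (xJ l ξ))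
  refine h.congr_deriv ?_
  simp only [kOb, thp]
  generalize deriv (c l) (Xf ξ / (-t)) = d
  generalize c l (Xf ξ / (-t)) = e
  generalize (-t) = Λ at hΛ
  field_simp
  ring

/-- differentiation under the integral sign, valid for every `t < 0`:    `d/dt O_c[U] = Λ⁻¹ O_{(θ+2)c/2}[U] + O_c[∂_t U]`. -/
theorem ld_Obs_dt_raw {c : Fin 3 → ℝ → ℝ} (hc : ∀ l, CcB δ K (c l)) {U : Tri} (hU : ∀ j, Sm (U j)) {t : ℝ}
    (ht : t < 0) :
    HasDerivAt (fun s => Obs c s (slT U s))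
      (Obs (fun l Y => thp (c l) Y / 2) t (slT U t) / (-t) + Obs c t (slT (dTT U) t)) t := by
  have hcs : ∀ l, ContDiff ℝ ∞ (c l) := fun l => (hc l).smooth
  have hF : Sm (fun p => ∑ l, kOb c l p * U l p) :=
    sm_sum Finset.univ fun l _ => (ld_kOb_smooth hcs l).mul (hU l)
  have h := ld_int_hasDerivAt hF ht
  refine h.congr_deriv ?_
  have i1 := ld_Obs_intble (c := fun l Y => thp (c l) Y / 2)
    (fun l => ((hc l).thp.div_const 2).continuous) t (u := slT U t)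
    (fun l => ((hU l).sl ht).continuous.continuousOn)
  have i2 := ld_Obs_intble (c := c) (fun l => (hc l).continuous) t (u := slT (dTT U) t)
    (fun l => ((hU l).dT.sl ht).continuous.continuousOn)
  unfold Obs
  rw [← intervalIntegral.integral_div, ← intervalIntegral.integral_add (i1.div_const _) i2]
  refine intervalIntegral.integral_congr fun ξ _ => ?_
  have hd : HasDerivAt (fun s => ∑ l, kOb c l (s, ξ) * U l (s, ξ))
      (∑ l, (kOb (fun l Y => thp (c l) Y / 2) l (t, ξ) / (-t) * U l (t, ξ)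
        + kOb c l (t, ξ) * dT (U l) (t, ξ))) t :=
    HasDerivAt.fun_sum fun l _ =>
      (ld_kOb_hasDerivAt (fun l => (hcs l).differentiable (by simp)) l ht ξ).mul
        ((hU l).hasDerivAt_t ht ξ)
  show dT (fun p => ∑ l, kOb c l p * U l p) (t, ξ) = _
  rw [dT_of_hasDerivAt hd, Finset.sum_add_distrib, Finset.sum_div]
  congr 1
  refine Finset.sum_congr rfl fun l _ => ?_
  simp only [slT]
  ring

end

end Claimed.Agent.R324.Core
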