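/-
Row 324 (S0582), PDE core, module LD (`linear_solve`), step LD6 (`deriv`; helper489).      FILE LD/ObDerB
Part B: the spatial part.   In the variable `Y = X/Λ` (`ld_Obs_scaled`: `O_c[u] = ∫_0^K Σ_l c_l(Y) (uV u)_l(y(Y)) dY`, `y(Y) = yOf t Y = √(1-ΛY)`):
 * `θ F = thF F = tt F/y` becomes `2Y d/dY`  (`ld_ob_chain`);     * `∫_0^K G (2Y f') dY = - ∫_0^K ((θ+2)G) f dY`  (`ld_ob_ibp`);
 * in the cone zone `X (L̃ U)_l = z₀ θ² u_l + (q-1) θ u_l + Σ_k 𝐦_cone,lk u_k` (`lt_cone`, Core/PR/Germ.lean), `X = ΛY`:      `Λ O_c[L̃ U] = O_{c♯}[U]`  (`ld_Obs_Lt`).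
-/
import Claimed.Agent.R324.Core.LD.ObDerA
import Claimed.Agent.R324.Core.LD.HeavyS

set_option autoImplicit false

namespace Claimed.Agent.R324.Core

open Set Filter Topology MeasureTheory
open scoped ContDiff

noncomputable section

variable {N : ℕ} {q : ℝ} {g : Bg} {b : Fin N → Fin 3 → ℝ → ℝ} {δ K g₀ Λ₀ cH : ℝ}

/-- integration by parts in `Y`. -/
theorem ld_ob_ibp (hK0 : 0 ≤ K) {G : ℝ → ℝ} (hG : CcB δ K G) {f f' : ℝ → ℝ}
    (hf : ∀ Y ∈ Icc (0 : ℝ) K, HasDerivAt f (f' Y) Y) (hf' : ContinuousOn f' (Icc 0 K)) :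
    ∫ Y in (0 : ℝ)..K, G Y * (2 * Y * f' Y) = - ∫ Y in (0 : ℝ)..K, thp G Y * f Y := by
  have hu : ∀ Y ∈ uIcc (0 : ℝ) K, HasDerivAt (fun Y => 2 * Y * G Y) (thp G Y) Y := by
    intro Y _
    have h1 : HasDerivAt (fun Y : ℝ => 2 * Y) 2 Y := by
      simpa using (hasDerivAt_id Y).const_mul (2 : ℝ)
    have h2 : HasDerivAt G (deriv G Y) Y := ((hG.smooth.differentiable (by simp)) Y).hasDerivAt
    refine (h1.mul h2).congr_deriv ?_
    unfold thp
    ring
  have hv : ∀ Y ∈ uIcc (0 : ℝ) K, HasDerivAt f (f' Y) Y := by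
    intro Y hY
    rw [uIcc_of_le hK0] at hY
    exact hf Y hY
  have h := intervalIntegral.integral_mul_deriv_eq_deriv_mul hu hv
    (hG.thp.continuous.intervalIntegrable _ _) (hf'.intervalIntegrable_of_Icc hK0)
  have e : ∫ Y in (0 : ℝ)..K, G Y * (2 * Y * f' Y) = ∫ Y in (0 : ℝ)..K, 2 * Y * G Y * f' Y :=
    intervalIntegral.integral_congr fun Y _ => by ring
  rw [e, h, hG.supp K (Or.inr le_rfl)]
  simp

/-- `F(t, y(Y))` as a function of `Y`. -/
theorem ld_ob_chain {F : Fn} {t : ℝ} (ht : t < 0) (hF : ContDiffOn ℝ ∞ (fun z => F (t, z)) (Ioi 0)) {Y : ℝ}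
    (hY0 : 0 ≤ Y) (hY : (-t) * Y ≤ 39 / 400) :
    HasDerivAt (fun Z => F (t, yOf t Z)) (dY F (t, yOf t Y) * (t / (2 * yOf t Y))) Y ∧
      2 * Y * (dY F (t, yOf t Y) * (t / (2 * yOf t Y))) = thF F (t, yOf t Y) := by
  have hy := ld_yOf_mem ht hY0 hY
  have hy0 : 0 < yOf t Y := lt_of_lt_of_le (by norm_num) hy.1
  have h1 : HasDerivAt (fun z => F (t, z)) (dY F (t, yOf t Y)) (yOf t Y) :=
    ((hF.contDiffAt (Ioi_mem_nhds hy0)).differentiableAt (by simp)).hasDerivAt
  refine ⟨h1.comp Y (ld_yOf_hasDerivAt (by linarith)), ?_⟩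
  rw [thF_apply, ttF_apply]
  show _ = -(Xf (yOf t Y)) * dY F (t, yOf t Y) / yOf t Y
  rw [ld_Xf_yOf (by linarith)]
  field_simp

theorem ld_ob_maps {t : ℝ} (ht : t < 0) (hK : K * (-t) ≤ 39 / 400) :
    MapsTo (yOf t) (Icc 0 K) (Ioi 0) := by
  intro Y hY
  have h : (-t) * Y ≤ 39 / 400 :=
    le_trans (by nlinarith [hY.2, neg_pos.2 ht]) hK
  exact lt_of_lt_of_le (by norm_num) (ld_yOf_mem ht hY.1 h).1

theorem ld_ob_le {t Y : ℝ} (ht : t < 0) (hK : K * (-t) ≤ 39 / 400) (hY : Y ∈ Icc (0 : ℝ) K) :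
    (-t) * Y ≤ 39 / 400 := le_trans (by nlinarith [hY.2, neg_pos.2 ht]) hK

/-- continuity of `Y ↦ G(Y) F(t,y(Y))` on `[0,K]`. -/
theorem ld_ob_intble {G : ℝ → ℝ} (hG : Continuous G) (hK0 : 0 ≤ K) {F : Fn} {t : ℝ} (ht : t < 0)
    (hK : K * (-t) ≤ 39 / 400) (hF : ContinuousOn (fun z => F (t, z)) (Ioi 0)) :
    IntervalIntegrable (fun Y => G Y * F (t, yOf t Y)) volume 0 K :=
  (hG.continuousOn.mul (hF.comp (ld_yOf_continuous t).continuousOn
    (ld_ob_maps ht hK))).intervalIntegrable_of_Icc hK0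

/-- `θ F` is smooth on `y > 0`. -/
theorem ld_ob_thF_smooth {F : Fn} {t : ℝ} (hF : ContDiffOn ℝ ∞ (fun z => F (t, z)) (Ioi 0)) :
    ContDiffOn ℝ ∞ (fun z => thF F (t, z)) (Ioi 0) := by
  have h1 : ContDiffOn ℝ ∞ (deriv (fun z => F (t, z))) (Ioi 0) :=
    hF.deriv_of_isOpen isOpen_Ioi (by simp)
  have hX : ContDiffOn ℝ ∞ (fun z : ℝ => -(Xf z)) (Ioi 0) := by
    unfold Xf
    fun_prop
  exact (hX.mul h1).div contDiffOn_id (fun z hz => ne_of_gt hz)

/-- `∫ G θF = - ∫ ((θ+2)G) F`. -/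
theorem ld_ob_th (hK0 : 0 ≤ K) {G : ℝ → ℝ} (hG : CcB δ K G) {F : Fn} {t : ℝ} (ht : t < 0)
    (hK : K * (-t) ≤ 39 / 400) (hF : ContDiffOn ℝ ∞ (fun z => F (t, z)) (Ioi 0)) :
    ∫ Y in (0 : ℝ)..K, G Y * thF F (t, yOf t Y) = - ∫ Y in (0 : ℝ)..K, thp G Y * F (t, yOf t Y) := by
  have hd : ContinuousOn (deriv (fun z => F (t, z))) (Ioi 0) :=
    hF.continuousOn_deriv_of_isOpen isOpen_Ioi (by simp)
  have hc : ContinuousOn (fun Y => dY F (t, yOf t Y) * (t / (2 * yOf t Y))) (Icc 0 K) := by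
    have h1 : ContinuousOn (fun Y => dY F (t, yOf t Y)) (Icc 0 K) :=
      hd.comp (ld_yOf_continuous t).continuousOn (ld_ob_maps ht hK)
    refine h1.mul (continuousOn_const.div (continuousOn_const.mul (ld_yOf_continuous t).continuousOn) ?_)
    intro Y hY
    have : 0 < yOf t Y := ld_ob_maps ht hK hY
    positivity
  have h := ld_ob_ibp hK0 hG (f := fun Z => F (t, yOf t Z))
    (f' := fun Y => dY F (t, yOf t Y) * (t / (2 * yOf t Y)))
    (fun Y hY => (ld_ob_chain ht hF hY.1 (ld_ob_le ht hK hY)).1) hc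
  rw [← h]
  refine intervalIntegral.integral_congr fun Y hY => ?_
  rw [uIcc_of_le hK0] at hY
  rw [(ld_ob_chain ht hF hY.1 (ld_ob_le ht hK hY)).2]

/-- `O_c[V] = Σ_l ∫_0^K c_l(Y) v_l(t,y(Y)) dY`, `v = uT V`. -/
theorem ld_ob_Obs_uT {c : Fin 3 → ℝ → ℝ} (hc : ∀ l, CcB δ K (c l)) (hK0 : 0 ≤ K) {t : ℝ} (ht : t < 0)
    (hK : K * (-t) ≤ 39 / 400) {V : Tri} (hV : ∀ j, Sm (V j)) :
    Obs c t (slT V t) = ∑ l, ∫ Y in (0 : ℝ)..K, c l Y * uT V l (t, yOf t Y) := by
  rw [ld_Obs_scaled hc hK0 ht hK (u := slT V t) (fun l => ((hV l).sl ht).continuous.continuousOn)]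
  simp only [uV_slT, sl]
  exact intervalIntegral.integral_finsetSum fun l _ =>
    ld_ob_intble (hc l).continuous hK0 ht hK ((sm_uT hV l).sl ht).continuous.continuousOn

/-- **the spatial part**:   `Λ O_c[L̃ U] = O_{c♯}[U]`  at core times. -/
theorem ld_Obs_Lt (hq : 1 < q) (hg : BgSm g) (H : HeavyData q g N b δ K g₀ Λ₀ cH) {c : Fin 3 → ℝ → ℝ}
    (hc : ∀ l, CcB δ K (c l)) {U : Tri} (hU : ∀ j, Sm (U j)) {t : ℝ} (ht : t ∈ Ico (-Λ₀) 0) :
    (-t) * Obs c t (slT (Lt q g U) t) = Obs (cSh q c) t (slT U t) := by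
  have ht0 : t < 0 := ht.2
  have hK := H.core ht
  have hK0 : 0 ≤ K := H.Kpos.le
  have hδ := H.δpos
  have hG : ∀ l, CcB δ K (fun s => c l s / s) := fun l => (hc l).div_id hδ
  have hus : ∀ l, ContDiffOn ℝ ∞ (fun z => uT U l (t, z)) (Ioi 0) := fun l =>
    ((sm_uT hU l).sl ht0).contDiffOn
  have hth : ∀ l, ContDiffOn ℝ ∞ (fun z => thF (uT U l) (t, z)) (Ioi 0) := fun l =>
    ld_ob_thF_smooth (hus l)
  have hth2 : ∀ l, ContDiffOn ℝ ∞ (fun z => thF (thF (uT U l)) (t, z)) (Ioi 0) := fun l =>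
    ld_ob_thF_smooth (hth l)
  rw [ld_ob_Obs_uT hc hK0 ht0 hK (sm_Lt hq hg hU), ld_ob_Obs_uT (ld_cSh_CcB q hδ hc) hK0 ht0 hK hU,
    Finset.mul_sum]
  -- the left side, component `l`
  have L : ∀ l, (-t) * ∫ Y in (0 : ℝ)..K, c l Y * uT (Lt q g U) l (t, yOf t Y)
      = z0F q * (∫ Y in (0 : ℝ)..K, thp (thp (fun s => c l s / s)) Y * uT U l (t, yOf t Y))
        - (q - 1) * (∫ Y in (0 : ℝ)..K, thp (fun s => c l s / s) Y * uT U l (t, yOf t Y))
        + ∑ k, mCone q l k * ∫ Y in (0 : ℝ)..K, c l Y / Y * uT U k (t, yOf t Y) := by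
    intro l
    have e1 : (-t) * ∫ Y in (0 : ℝ)..K, c l Y * uT (Lt q g U) l (t, yOf t Y)
        = ∫ Y in (0 : ℝ)..K, (z0F q * (c l Y / Y * thF (thF (uT U l)) (t, yOf t Y))
            + (q - 1) * (c l Y / Y * thF (uT U l) (t, yOf t Y))
            + ∑ k, mCone q l k * (c l Y / Y * uT U k (t, yOf t Y))) := by
      rw [← intervalIntegral.integral_const_mul]
      refine intervalIntegral.integral_congr fun Y hY => ?_
      rw [uIcc_of_le hK0] at hY
      by_cases h0 : c l Y = 0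
      · simp [h0]
      · have hyY := ld_ob_le ht0 hK hY
        have hmem := ld_yOf_mem ht0 hY.1 hyY
        have hX : Xf (yOf t Y) = (-t) * Y := ld_Xf_yOf (by linarith)
        have hYpos : 0 < Y := by
          by_contra hcon
          exact h0 ((hc l).supp Y (Or.inl ((not_lt.1 hcon).trans hδ.le)))
        have hcone : ConeZ t (yOf t Y) := H.coneZ (hc l) ht (by
          rw [psi1_eq_one hmem.1, hX, mul_div_cancel_left₀ _ (ne_of_gt (neg_pos.2 ht0)), one_mul]
          exact h0)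
        have hl := lt_cone hq g hU hcone l
        rw [hX] at hl
        have e : (-t) * (c l Y * uT (Lt q g U) l (t, yOf t Y))
            = c l Y / Y * ((-t) * Y * uT (Lt q g U) l (t, yOf t Y)) := by
          field_simp
        show (-t) * (c l Y * uT (Lt q g U) l (t, yOf t Y)) = _
        rw [e, hl, mul_add, mul_add, Finset.mul_sum]
        congr 1
        · ring
        · exact Finset.sum_congr rfl fun k _ => by ring
    have iA := ld_ob_intble (hG l).continuous hK0 ht0 hK (hth2 l).continuousOn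
    have iB := ld_ob_intble (hG l).continuous hK0 ht0 hK (hth l).continuousOn
    have iC := fun k => ld_ob_intble (hG l).continuous hK0 ht0 hK (hus k).continuousOn
    have iS : IntervalIntegrable (fun Y => ∑ k, mCone q l k * (c l Y / Y * uT U k (t, yOf t Y)))
        volume 0 K := by
      have := IntervalIntegrable.sum (μ := volume) (a := 0) (b := K) Finset.univ
        (f := fun k Y => mCone q l k * (c l Y / Y * uT U k (t, yOf t Y)))
        (fun k _ => (iC k).const_mul _)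
      refine this.congr ?_
      intro Y _
      simp
    rw [e1, intervalIntegral.integral_add ((iA.const_mul _).add (iB.const_mul _)) iS,
      intervalIntegral.integral_add (iA.const_mul _) (iB.const_mul _),
      intervalIntegral.integral_const_mul, intervalIntegral.integral_const_mul,
      intervalIntegral.integral_finsetSum (fun k _ => (iC k).const_mul _)]
    simp only [intervalIntegral.integral_const_mul]
    rw [ld_ob_th hK0 (hG l) ht0 hK (hth l), ld_ob_th hK0 (hG l).thp ht0 hK (hus l),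
      ld_ob_th hK0 (hG l) ht0 hK (hus l)]
    ring
  -- the right side, component `l`
  have R : ∀ l, ∫ Y in (0 : ℝ)..K, cSh q c l Y * uT U l (t, yOf t Y)
      = z0F q * (∫ Y in (0 : ℝ)..K, thp (thp (fun s => c l s / s)) Y * uT U l (t, yOf t Y))
        - (q - 1) * (∫ Y in (0 : ℝ)..K, thp (fun s => c l s / s) Y * uT U l (t, yOf t Y))
        + ∑ k, mCone q k l * ∫ Y in (0 : ℝ)..K, c k Y / Y * uT U l (t, yOf t Y) := by
    intro l
    have e1 : ∫ Y in (0 : ℝ)..K, cSh q c l Y * uT U l (t, yOf t Y)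
        = ∫ Y in (0 : ℝ)..K, (z0F q * (thp (thp (fun s => c l s / s)) Y * uT U l (t, yOf t Y))
            - (q - 1) * (thp (fun s => c l s / s) Y * uT U l (t, yOf t Y))
            + ∑ k, mCone q k l * (c k Y / Y * uT U l (t, yOf t Y))) := by
      refine intervalIntegral.integral_congr fun Y _ => ?_
      show cSh q c l Y * uT U l (t, yOf t Y) = _
      unfold cSh
      rw [add_mul, sub_mul, Finset.sum_div, Finset.sum_mul]
      congr 1
      · ring
      · exact Finset.sum_congr rfl fun k _ => by ring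
    have iA := ld_ob_intble (hG l).thp.thp.continuous hK0 ht0 hK (hus l).continuousOn
    have iB := ld_ob_intble (hG l).thp.continuous hK0 ht0 hK (hus l).continuousOn
    have iC := fun k => ld_ob_intble (hG k).continuous hK0 ht0 hK (hus l).continuousOn
    have iS : IntervalIntegrable (fun Y => ∑ k, mCone q k l * (c k Y / Y * uT U l (t, yOf t Y)))
        volume 0 K := by
      have := IntervalIntegrable.sum (μ := volume) (a := 0) (b := K) Finset.univ
        (f := fun k Y => mCone q k l * (c k Y / Y * uT U l (t, yOf t Y)))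
        (fun k _ => (iC k).const_mul _)
      refine this.congr ?_
      intro Y _
      simp
    rw [e1, intervalIntegral.integral_add ((iA.const_mul _).sub (iB.const_mul _)) iS,
      intervalIntegral.integral_sub (iA.const_mul _) (iB.const_mul _),
      intervalIntegral.integral_const_mul, intervalIntegral.integral_const_mul,
      intervalIntegral.integral_finsetSum (fun k _ => (iC k).const_mul _)]
    simp only [intervalIntegral.integral_const_mul]
  simp only [L, R, Finset.sum_add_distrib]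
  congr 1
  exact Finset.sum_comm

end

end Claimed.Agent.R324.Core
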