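/-
Row 324 (S0582), PDE core, module LD (`linear_solve`), step LD6 (`deriv`; helper489).      FILE LD/ObDerC
Part C: time derivative of an observation along `(L_1)`:      `Λ d/dt O_c[U] = O_{L† c}[U] + Σ_j (∫ c·A_j) μ_j`;   the same in the variable `τ`.      (R325 analogue: end of LD/ObDerB.lean in Pk44.)
-/
import Claimed.Agent.R324.Core.LD.ObDerB

set_option autoImplicit false

namespace Claimed.Agent.R324.Core

open Set Filter Topology MeasureTheory
open scoped ContDiff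

noncomputable section

variable {N : ℕ} {q : ℝ} {g : Bg} {b : Fin N → Fin 3 → ℝ → ℝ} {δ K g₀ Λ₀ cH : ℝ}

/-- **time derivative of an observation** at a core time `t ∈ [-Λ₀,0)`, if at time `t`
`∂_t U = L̃ U - Σ O_{b_i}[U] Ac_i + Σ μ_i Ac_i` on `[-1,1]`. -/
theorem ld_Obs_dt (hq : 1 < q) (hg : BgSm g) (H : HeavyData q g N b δ K g₀ Λ₀ cH) {c : Fin 3 → ℝ → ℝ}
    (hc : ∀ l, CcB δ K (c l)) {U : Tri} (hU : ∀ j, Sm (U j)) {t : ℝ} (ht : t ∈ Ico (-Λ₀) 0) (μ : Fin N → ℝ)
    (heq : ∀ j, ∀ y ∈ Icc (-1 : ℝ) 1, dT (U j) (t, y) = Lt q g U j (t, y)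
      - ∑ i, Obs (b i) t (slT U t) * Actu (AofV q g₀ b i) j (t, y)
      + ∑ i, μ i * Actu (AofV q g₀ b i) j (t, y)) :
    HasDerivAt (fun s => Obs c s (slT U s))
      ((Obs (Ldag q b (AofV q g₀ b) K c) t (slT U t) + ∑ j, pairY K c (AofV q g₀ b j) * μ j) / (-t)) t := by
  have ht0 : t < 0 := ht.2
  have hΛ : (-t) ≠ 0 := ne_of_gt (neg_pos.2 ht0)
  have hK := H.core ht
  have hK0 : 0 ≤ K := H.Kpos.le
  refine (ld_Obs_dt_raw hc hU ht0).congr_deriv ?_
  have hA : ∀ i l, CcB δ K (AofV q g₀ b i l) := fun i l => H.bumpA (by linarith) i l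
  have hcc : ∀ l, Continuous (c l) := fun l => (hc l).continuous
  have hAc : ∀ i l, CI (slT (Actu (AofV q g₀ b i)) t l) := fun i l =>
    ((ld_Actu_smooth H.δpos (hA i) l).sl ht0).continuous.continuousOn
  have hLc : ∀ l, CI (slT (Lt q g U) t l) := fun l =>
    ((sm_Lt hq hg hU l).sl ht0).continuous.continuousOn
  have huc : ∀ l, CI (slT U t l) := fun l => ((hU l).sl ht0).continuous.continuousOn
  -- the equation
  have e1 : Obs c t (slT (dTT U) t) = Obs c t (slT (Lt q g U) t)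
      + ∑ i, (μ i - Obs (b i) t (slT U t)) * Obs c t (slT (Actu (AofV q g₀ b i)) t) := by
    have hF : ∀ i ∈ (Finset.univ : Finset (Fin N)), ∀ l,
        CI (fun y => (μ i - Obs (b i) t (slT U t)) * slT (Actu (AofV q g₀ b i)) t l y) :=
      fun i _ l => continuousOn_const.mul (hAc i l)
    rw [ld_Obs_congr c t (u := slT (dTT U) t) (v := fun l y => slT (Lt q g U) t l y
      + ∑ i, (μ i - Obs (b i) t (slT U t)) * slT (Actu (AofV q g₀ b i)) t l y) ?_,
      ld_Obs_add hcc t hLc (fun l => continuousOn_finsetSum _ fun i hi => hF i hi l),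
      ld_Obs_sum hcc t Finset.univ
        (F := fun i l y => (μ i - Obs (b i) t (slT U t)) * slT (Actu (AofV q g₀ b i)) t l y) hF]
    · simp only [ld_Obs_smul]
    · intro l y hy
      show dT (U l) (t, y) = Lt q g U l (t, y)
        + ∑ i, (μ i - Obs (b i) t (slT U t)) * Actu (AofV q g₀ b i) l (t, y)
      rw [heq l y hy]
      simp only [sub_mul, Finset.sum_sub_distrib]
      ring
  have e2 : ∀ i, (-t) * Obs c t (slT (Actu (AofV q g₀ b i)) t) = pairY K c (AofV q g₀ b i) := fun i =>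
    ld_pair_scaled H.δpos hc (hA i) hK0 ht0 hK
  have e3 := ld_Obs_Lt hq hg H hc hU ht
  -- the adjoint
  have e4 : Obs (Ldag q b (AofV q g₀ b) K c) t (slT U t)
      = Obs (cSh q c) t (slT U t) + Obs (fun l Y => thp (c l) Y / 2) t (slT U t)
        + ∑ i, -pairY K c (AofV q g₀ b i) * Obs (b i) t (slT U t) := by
    have hfun : Ldag q b (AofV q g₀ b) K c = fun l Y => (cSh q c l Y + thp (c l) Y / 2)
        + ∑ i, -pairY K c (AofV q g₀ b i) * b i l Y := by
      funext l Y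
      rw [ld_Ldag_eq]
      simp only [neg_mul, Finset.sum_neg_distrib]
      ring
    have c1 : ∀ l, Continuous (cSh q c l) := fun l => (ld_cSh_CcB q H.δpos hc l).continuous
    have c2 : ∀ l, Continuous (fun Y => thp (c l) Y / 2) := fun l => ((hc l).thp.div_const 2).continuous
    have c3 : ∀ i ∈ (Finset.univ : Finset (Fin N)), ∀ l,
        Continuous (fun Y => -pairY K c (AofV q g₀ b i) * b i l Y) :=
      fun i _ l => continuous_const.mul (H.bump i l).continuous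
    rw [hfun, ld_Obs_add_left (c := fun l Y => cSh q c l Y + thp (c l) Y / 2)
        (c' := fun l Y => ∑ i, -pairY K c (AofV q g₀ b i) * b i l Y)
        (fun l => (c1 l).add (c2 l)) (fun l => continuous_finsetSum _ fun i hi => c3 i hi l) t huc,
      ld_Obs_add_left c1 c2 t huc,
      ld_Obs_sum_left Finset.univ (F := fun i l Y => -pairY K c (AofV q g₀ b i) * b i l Y) c3 t huc]
    simp only [ld_Obs_smul_left]
  rw [eq_div_iff hΛ, e1, e4, ← e3, add_mul, div_mul_cancel₀ _ hΛ, add_mul, Finset.sum_mul]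
  have e5 : ∀ i, (μ i - Obs (b i) t (slT U t)) * Obs c t (slT (Actu (AofV q g₀ b i)) t) * (-t)
      = -pairY K c (AofV q g₀ b i) * Obs (b i) t (slT U t) + pairY K c (AofV q g₀ b i) * μ i := by
    intro i
    rw [← e2 i]
    ring
  simp only [e5, Finset.sum_add_distrib]
  ring

/-- **`deriv` of `ControlHyp`, scalar form.** -/
theorem ld_Obs_deriv (hq : 1 < q) (hg : BgSm g) (H : HeavyData q g N b δ K g₀ Λ₀ cH) {c : Fin 3 → ℝ → ℝ}
    (hc : ∀ l, CcB δ K (c l)) {U : Tri} (hU : ∀ j, Sm (U j)) (hv : VanB (-Λ₀) U)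
    {m : ℝ → EuclideanSpace ℝ (Fin N)} (hm : ∀ τ ≤ -Real.log Λ₀, m τ = 0)
    (hs : SolL q g b (AofV q g₀ b) 1 (Fmc (AofV q g₀ b) m) U) (τ : ℝ) :
    HasDerivAt (fun σ => Obs c (tOf σ) (slT U (tOf σ)))
      (Obs (Ldag q b (AofV q g₀ b) K c) (tOf τ) (slT U (tOf τ))
        + ∑ j, pairY K c (AofV q g₀ b j) * m τ j) τ := by
  have hneg := ld_tOf_neg τ
  by_cases h : -Λ₀ ≤ tOf τ
  · have ht : tOf τ ∈ Ico (-Λ₀) 0 := ⟨h, hneg⟩
    have heq : ∀ j, ∀ y ∈ Icc (-1 : ℝ) 1, dT (U j) (tOf τ, y) = Lt q g U j (tOf τ, y)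
        - ∑ i, Obs (b i) (tOf τ) (slT U (tOf τ)) * Actu (AofV q g₀ b i) j (tOf τ, y)
        + ∑ i, m τ i * Actu (AofV q g₀ b i) j (tOf τ, y) := by
      intro j y hy
      have := hs j (tOf τ) hneg y hy
      rw [this]
      unfold Fmc
      simp only [ld_tauOf_tOf, one_mul]
    have d1 := ld_Obs_dt hq hg H hc hU ht (fun j => m τ j) heq
    have d2 := HasDerivAt.comp τ d1 (ld_tOf_hasDerivAt τ)
    refine HasDerivAt.congr_deriv d2 ?_
    have h0 : -tOf τ ≠ 0 := by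
      intro h0
      linarith
    exact div_mul_cancel₀ _ h0
  · have hlt : tOf τ < -Λ₀ := not_le.mp h
    have hev : ∀ᶠ σ in 𝓝 τ, tOf σ < -Λ₀ :=
      (ld_tOf_contDiff.continuous.continuousAt).eventually_lt continuousAt_const hlt
    have hz : ∀ σ, tOf σ < -Λ₀ → ∀ c' : Fin 3 → ℝ → ℝ, Obs c' (tOf σ) (slT U (tOf σ)) = 0 := by
      intro σ hσ c'
      exact ld_Obs_zero c' (tOf σ) (fun l y hy => hv l (tOf σ) hσ.le y hy)
    have hτ : τ ≤ -Real.log Λ₀ := by
      rw [← ld_tOf_le_iff, ld_tOf_neg_log H.Λpos]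
      exact hlt.le
    have hm0 : m τ = 0 := hm τ hτ
    have hR : Obs (Ldag q b (AofV q g₀ b) K c) (tOf τ) (slT U (tOf τ))
        + ∑ j, pairY K c (AofV q g₀ b j) * m τ j = 0 := by
      rw [hz τ hlt, hm0]
      simp
    rw [hR]
    refine (hasDerivAt_const τ (0 : ℝ)).congr_of_eventuallyEq ?_
    filter_upwards [hev] with σ hσ
    exact hz σ hσ c

end

end Claimed.Agent.R324.Core
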