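/-
Row 324 (S0582), PDE core, module LD (`linear_solve`), step LD6 (helper489).      FILE LD/KOp
The response operator `Wop`, and the fields `add`, `smul`, `deriv`, `bound`, `solve` of `ControlHyp` for `Kop`.      `τmin = -log Λ₀`, `tOf τmin = -Λ₀` (`ld_tOf_neg_log`), `η₀ = 14`.      (R325 analogue: LD/KOp.lean in Pk45.)
-/
import Claimed.Agent.R324.Core.LD.ObDerC
import Claimed.Agent.R324.Core.LD.HeavyI

set_option autoImplicit false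

namespace Claimed.Agent.R324.Core

open Set Filter Topology MeasureTheory
open scoped ContDiff

noncomputable section

open Claimed.Agent.R325 (wEnergy CausalSmooth ControlHyp)

variable {N : ℕ} {g : Bg} {b : Fin N → Fin 3 → ℝ → ℝ} {δ K g₀ Λ₀ cH : ℝ}

theorem ld_KOp_tOf_le {q : ℝ} (H : HeavyData q g N b δ K g₀ Λ₀ cH) {τa : ℝ} (hτa : -Real.log Λ₀ ≤ τa) :
    -Λ₀ ≤ tOf τa := by
  rw [← ld_tOf_neg_log H.Λpos]
  exact (ld_tOf_le_iff _ _).2 hτa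

theorem ld_CausalSmooth_mono {τa τb : ℝ} (h : τa ≤ τb) {m : ℝ → EuclideanSpace ℝ (Fin N)}
    (hm : CausalSmooth τb m) : CausalSmooth τa m :=
  ⟨hm.1, fun τ hτ => hm.2 τ (hτ.trans h)⟩

/-- existence of a solution vanishing as long as `m` does. -/
theorem ld_KOp_exists (q : ℕ) (hq : Odd q) (hq1 : 1 < (q : ℝ)) (hg : BgSm g)
    (H : HeavyData q g N b δ K g₀ Λ₀ cH) (σ : ℝ) {τa : ℝ}
    {m : ℝ → EuclideanSpace ℝ (Fin N)} (hm : CausalSmooth τa m) :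
    ∃ U : Tri, (∀ j, Sm (U j)) ∧ VanB (tOf τa) U ∧
      SolL q g b (AofV q g₀ b) σ (Fmc (AofV q g₀ b) m) U := by
  have hA : ∀ i l, CcB δ K (AofV (q : ℝ) g₀ b i l) := fun i l => H.bumpA (by linarith) i l
  have hS : ∀ j, Sm (Fmc (AofV (q : ℝ) g₀ b) m j) := ld_Fmc_smooth H.δpos hA hm.1
  have hS0 : VanB (tOf τa) (Fmc (AofV (q : ℝ) g₀ b) m) := fun j t ht y _ => ld_Fmc_van _ hm.2 j t ht y
  exact ld_wrapper q hq hq1 hg H.δpos H.bump hA σ hS hS0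

theorem ld_Wop_spec (q : ℕ) (hq : Odd q) (hq1 : 1 < (q : ℝ)) (hg : BgSm g)
    (H : HeavyData q g N b δ K g₀ Λ₀ cH) {m : ℝ → EuclideanSpace ℝ (Fin N)}
    (hm : CausalSmooth (-Real.log Λ₀) m) :
    (∀ j, Sm (Wop q g b (AofV q g₀ b) Λ₀ m j)) ∧ VanB (-Λ₀) (Wop q g b (AofV q g₀ b) Λ₀ m) ∧
      SolL q g b (AofV q g₀ b) 1 (Fmc (AofV q g₀ b) m) (Wop q g b (AofV q g₀ b) Λ₀ m) := by
  obtain ⟨U, hU⟩ := ld_KOp_exists q hq hq1 hg H 1 hm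
  rw [ld_tOf_neg_log H.Λpos] at hU
  exact Classical.epsilon_spec (p := fun U : Tri => (∀ j, Sm (U j)) ∧ VanB (-Λ₀) U ∧
    SolL q g b (AofV q g₀ b) 1 (Fmc (AofV q g₀ b) m) U) ⟨U, hU⟩

section main

variable (q : ℕ) (hq : Odd q) (hq2 : (100 : ℝ) ≤ q) (hg : BgGood q g) (H : HeavyData q g N b δ K g₀ Λ₀ cH)

include hq hq2 hg H

theorem ld_Wop_eq {m : ℝ → EuclideanSpace ℝ (Fin N)} (hm : CausalSmooth (-Real.log Λ₀) m) {U : Tri}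
    (hU : ∀ j, Sm (U j)) (hv : VanB (-Λ₀) U) (hs : SolL q g b (AofV q g₀ b) 1 (Fmc (AofV q g₀ b) m) U) :
    ∀ j, ∀ t < 0, ∀ y ∈ Icc (-1 : ℝ) 1, Wop q g b (AofV q g₀ b) Λ₀ m j (t, y) = U j (t, y) := by
  obtain ⟨h1, h2, h3⟩ := ld_Wop_spec q hq (by linarith) hg.sm H hm
  exact ld_unique2 hq2 hg H h1 hU h2 hv h3 hs

/-- causality. -/
theorem ld_Wop_van {τa : ℝ} (hτa : -Real.log Λ₀ ≤ τa) {m : ℝ → EuclideanSpace ℝ (Fin N)}
    (hm : CausalSmooth τa m) : VanB (tOf τa) (Wop q g b (AofV q g₀ b) Λ₀ m) := by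
  obtain ⟨U, hU, hv, hs⟩ := ld_KOp_exists q hq (by linarith) hg.sm H 1 hm
  have he := ld_Wop_eq q hq hq2 hg H (ld_CausalSmooth_mono hτa hm) hU (hv.mono (ld_KOp_tOf_le H hτa)) hs
  intro j t ht y hy
  rw [he j t (lt_of_le_of_lt ht (ld_tOf_neg τa)) y hy]
  exact hv j t ht y hy

theorem ld_K_add (l : ℕ) (m₁ m₂ : ℝ → EuclideanSpace ℝ (Fin N)) (h₁ : CausalSmooth (-Real.log Λ₀) m₁)
    (h₂ : CausalSmooth (-Real.log Λ₀) m₂) :
    Kop q g b (AofV q g₀ b) K Λ₀ l (fun τ => m₁ τ + m₂ τ)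
      = fun τ => Kop q g b (AofV q g₀ b) K Λ₀ l m₁ τ + Kop q g b (AofV q g₀ b) K Λ₀ l m₂ τ := by
  obtain ⟨a1, a2, a3⟩ := ld_Wop_spec q hq (by linarith) hg.sm H h₁
  obtain ⟨b1, b2, b3⟩ := ld_Wop_spec q hq (by linarith) hg.sm H h₂
  have h12 : CausalSmooth (-Real.log Λ₀) (fun τ => m₁ τ + m₂ τ) :=
    ⟨h₁.1.add h₂.1, fun τ hτ => by
      show m₁ τ + m₂ τ = 0
      rw [h₁.2 τ hτ, h₂.2 τ hτ, add_zero]⟩
  have hs : SolL q g b (AofV q g₀ b) 1 (Fmc (AofV q g₀ b) (fun τ => m₁ τ + m₂ τ))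
      (fun j p => Wop q g b (AofV q g₀ b) Λ₀ m₁ j p + Wop q g b (AofV q g₀ b) Λ₀ m₂ j p) :=
    (SolL.add (fun i l => (H.bump i l).continuous) a1 b1 a3 b3).congr_S
      (fun j t _ y _ => (ld_Fmc_add _ m₁ m₂ j (t, y)).symm)
  have he := ld_Wop_eq q hq hq2 hg H h12 (fun j => (a1 j).add (b1 j)) (a2.add b2) hs
  show ObsV (cLev q b (AofV q g₀ b) K l) (Wop q g b (AofV q g₀ b) Λ₀ (fun τ => m₁ τ + m₂ τ)) = _
  rw [ld_ObsV_congr _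
    (V := fun j p => Wop q g b (AofV q g₀ b) Λ₀ m₁ j p + Wop q g b (AofV q g₀ b) Λ₀ m₂ j p) he]
  funext τ
  ext i
  show Obs (cLev q b (AofV q g₀ b) K l i) (tOf τ)
      (fun j y => slT (Wop q g b (AofV q g₀ b) Λ₀ m₁) (tOf τ) j y
        + slT (Wop q g b (AofV q g₀ b) Λ₀ m₂) (tOf τ) j y)
    = Obs (cLev q b (AofV q g₀ b) K l i) (tOf τ) (slT (Wop q g b (AofV q g₀ b) Λ₀ m₁) (tOf τ))
      + Obs (cLev q b (AofV q g₀ b) K l i) (tOf τ) (slT (Wop q g b (AofV q g₀ b) Λ₀ m₂) (tOf τ))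
  exact ld_Obs_add (fun j => (ld_cLev_CcB q H.δpos _ H.bump l i j).continuous) (tOf τ)
    (fun j => ((a1 j).sl (ld_tOf_neg τ)).continuous.continuousOn)
    (fun j => ((b1 j).sl (ld_tOf_neg τ)).continuous.continuousOn)

theorem ld_K_smul (l : ℕ) (a : ℝ) (m : ℝ → EuclideanSpace ℝ (Fin N))
    (hm : CausalSmooth (-Real.log Λ₀) m) :
    Kop q g b (AofV q g₀ b) K Λ₀ l (fun τ => a • m τ)
      = fun τ => a • Kop q g b (AofV q g₀ b) K Λ₀ l m τ := by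
  obtain ⟨a1, a2, a3⟩ := ld_Wop_spec q hq (by linarith) hg.sm H hm
  have h12 : CausalSmooth (-Real.log Λ₀) (fun τ => a • m τ) :=
    ⟨hm.1.const_smul a, fun τ hτ => by
      show a • m τ = 0
      rw [hm.2 τ hτ, smul_zero]⟩
  have hs : SolL q g b (AofV q g₀ b) 1 (Fmc (AofV q g₀ b) (fun τ => a • m τ))
      (fun j p => a * Wop q g b (AofV q g₀ b) Λ₀ m j p) :=
    (SolL.smul a a1 a3).congr_S (fun j t _ y _ => (ld_Fmc_smul _ a m j (t, y)).symm)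
  have he := ld_Wop_eq q hq hq2 hg H h12 (fun j => (a1 j).const_mul a) (a2.smul a) hs
  show ObsV (cLev q b (AofV q g₀ b) K l) (Wop q g b (AofV q g₀ b) Λ₀ (fun τ => a • m τ)) = _
  rw [ld_ObsV_congr _ (V := fun j p => a * Wop q g b (AofV q g₀ b) Λ₀ m j p) he]
  funext τ
  ext i
  show Obs (cLev q b (AofV q g₀ b) K l i) (tOf τ)
      (fun j y => a * slT (Wop q g b (AofV q g₀ b) Λ₀ m) (tOf τ) j y)
    = a * Obs (cLev q b (AofV q g₀ b) K l i) (tOf τ) (slT (Wop q g b (AofV q g₀ b) Λ₀ m) (tOf τ))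
  exact ld_Obs_smul _ (tOf τ) a _

omit hq hq2 hg H in
theorem ld_KOp_hasDerivAt_euclidean {f : ℝ → EuclideanSpace ℝ (Fin N)}
    {f' : EuclideanSpace ℝ (Fin N)} {τ : ℝ} (h : ∀ i, HasDerivAt (fun σ => f σ i) (f' i) τ) :
    HasDerivAt f f' τ := by
  rw [hasDerivAt_iff_hasFDerivAt, ← hasFDerivWithinAt_univ, hasFDerivWithinAt_euclidean]
  intro i
  rw [hasFDerivWithinAt_univ]
  have h1 := (h i).hasFDerivAt
  refine h1.congr_fderiv ?_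
  ext
  simp

omit hq2 in
theorem ld_K_deriv (hq1 : 1 < (q : ℝ)) (l : ℕ) (m : ℝ → EuclideanSpace ℝ (Fin N))
    (hm : CausalSmooth (-Real.log Λ₀) m) (τ : ℝ) :
    HasDerivAt (Kop q g b (AofV q g₀ b) K Λ₀ l m)
      (Kop q g b (AofV q g₀ b) K Λ₀ (l + 1) m τ + KmatOp q b (AofV q g₀ b) K l (m τ)) τ := by
  obtain ⟨a1, a2, a3⟩ := ld_Wop_spec q hq hq1 hg.sm H hm
  refine ld_KOp_hasDerivAt_euclidean fun i => ?_
  have h := ld_Obs_deriv hq1 hg.sm H (ld_cLev_CcB q H.δpos (AofV q g₀ b) H.bump l i) a1 a2 hm.2 a3 τ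
  refine h.congr_deriv ?_
  show _ = Obs (cLev q b (AofV q g₀ b) K (l + 1) i) (tOf τ)
      (slT (Wop q g b (AofV q g₀ b) Λ₀ m) (tOf τ))
    + ∑ j, pairY K (cLev q b (AofV q g₀ b) K l i) (AofV q g₀ b j) * m τ j
  rfl

end main

/-- scalar bound. -/
theorem ld_Obs_W_bound {q : ℝ} (hq : 100 ≤ q) (hg : BgGood q g) (H : HeavyData q g N b δ K g₀ Λ₀ cH)
    {c : Fin 3 → ℝ → ℝ} (hc : ∀ l, CcB δ K (c l)) :
    ∃ C : ℝ, 0 ≤ C ∧ ∀ (U : Tri) (m : ℝ → EuclideanSpace ℝ (Fin N)) (τa : ℝ),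
      (∀ j, Sm (U j)) → Continuous m → -Real.log Λ₀ ≤ τa → (∀ τ ≤ τa, m τ = 0) → VanB (tOf τa) U →
      SolL q g b (AofV q g₀ b) 1 (Fmc (AofV q g₀ b) m) U →
      ∀ τ, Real.exp (2 * 14 * τ) * (Obs c (tOf τ) (slT U (tOf τ))) ^ 2 ≤ C * wEnergy 14 m τ := by
  have hq1 : 1 < q := by linarith
  obtain ⟨C₁, hC₁, hO⟩ := ld_Obs_bound hq H.δpos H.δK hc
  obtain ⟨C₂, hC₂, hE⟩ := ld_heavy_int hq hg H
  refine ⟨C₁ * C₂, mul_nonneg hC₁ hC₂, ?_⟩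
  intro U m τa hU hm hτa h0 hv hs τ
  rcases le_or_gt τ τa with hτ | hτ
  · have h1 : tOf τ ≤ tOf τa := (ld_tOf_le_iff τ τa).2 hτ
    rw [ld_Obs_zero c (tOf τ) (u := slT U (tOf τ)) (fun l y hy => hv l (tOf τ) h1 y hy)]
    have := ld_wEnergy_nonneg 14 m τ
    have h2 := mul_nonneg (mul_nonneg hC₁ hC₂) this
    simpa using h2
  · have ht0 : tOf τ < 0 := ld_tOf_neg τ
    have h1 : tOf τa ≤ tOf τ := (ld_tOf_le_iff τa τ).2 hτ.le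
    have hL : -Λ₀ ≤ tOf τa := ld_KOp_tOf_le H hτa
    have hs' : SolL q g b (AofV q g₀ b) 1
        (fun j p => (fun _ _ => (0 : ℝ) : Tri) j p + Fmc (AofV q g₀ b) m j p) U :=
      hs.congr_S (fun j t _ y _ => (zero_add _).symm)
    have hk := hE 14 ⟨by norm_num, le_rfl⟩ U (fun _ _ => 0) m (tOf τa) hU (fun _ => sm_const 0) hm
      ⟨hL, ld_tOf_neg τa⟩ hv hs' (tOf τ) ⟨h1, ht0⟩
    have hHY : ∫ s in (tOf τa)..(tOf τ), HY q 14 (fun _ _ => 0) s = 0 := by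
      simp [ld_HY_zero]
    have hI1 : 0 ≤ ∫ s in (tOf τa)..(tOf τ), (-s) ^ (-2 * (14 : ℝ)) * DDB q U s := by
      refine intervalIntegral.integral_nonneg h1 fun s hs => ?_
      have hs0 : s < 0 := lt_of_le_of_lt hs.2 ht0
      exact mul_nonneg (Real.rpow_nonneg (by linarith) _) (ld_DDB_nonneg hq1 U hs0)
    have hI2 : 0 ≤ ∫ s in (tOf τa)..(tOf τ), (-s) ^ (-2 * (14 : ℝ) - 1) * EEB q U s := by
      refine intervalIntegral.integral_nonneg h1 fun s hs => ?_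
      have hs0 : s < 0 := lt_of_le_of_lt hs.2 ht0
      exact mul_nonneg (Real.rpow_nonneg (by linarith) _) (ld_EEB_nonneg hq1 U hs0)
    rw [hHY, mul_zero, add_zero, ← ld_wEnergy_eq 14 hm h0 hτ.le] at hk
    have hob : (Obs c (tOf τ) (slT U (tOf τ))) ^ 2 ≤ C₁ * EEB q U (tOf τ) :=
      hO (tOf τ) ht0 (H.core ⟨hL.trans h1, ht0⟩) (slT U (tOf τ))
        (fun l => ((hU l).sl ht0).continuous.continuousOn)
    have hexp : Real.exp (2 * 14 * τ) = (-(tOf τ)) ^ (-2 * (14 : ℝ)) := by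
      have := ld_exp_tauOf (2 * 14) ht0
      rw [ld_tauOf_tOf] at this
      rw [this]
      norm_num
    rw [hexp]
    set P : ℝ := (-(tOf τ)) ^ (-2 * (14 : ℝ)) with hP
    have hP0 : 0 ≤ P := Real.rpow_nonneg (by linarith) _
    have hk' : P * EEB q U (tOf τ) ≤ C₂ * wEnergy 14 m τ := by
      refine le_trans ?_ hk
      have e1 := mul_nonneg (by linarith [H.cpos] : (0 : ℝ) ≤ cH / 2) hI1
      rw [add_assoc]
      exact le_add_of_nonneg_right (add_nonneg e1 hI2)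
    calc P * (Obs c (tOf τ) (slT U (tOf τ))) ^ 2 ≤ P * (C₁ * EEB q U (tOf τ)) :=
          mul_le_mul_of_nonneg_left hob hP0
      _ = C₁ * (P * EEB q U (tOf τ)) := by ring
      _ ≤ C₁ * (C₂ * wEnergy 14 m τ) := mul_le_mul_of_nonneg_left hk' hC₁
      _ = C₁ * C₂ * wEnergy 14 m τ := by ring

/-- `bound`. -/
theorem ld_K_bound (q : ℕ) (hq : Odd q) (hq2 : (100 : ℝ) ≤ q) (hg : BgGood q g)
    (H : HeavyData q g N b δ K g₀ Λ₀ cH) (l : ℕ) : ∃ C : ℝ, 0 ≤ C ∧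
    ∀ m : ℝ → EuclideanSpace ℝ (Fin N), CausalSmooth (-Real.log Λ₀) m → ∀ τ,
      Real.exp (2 * 14 * τ) * ‖Kop q g b (AofV q g₀ b) K Λ₀ l m τ‖ ^ 2 ≤ C * wEnergy 14 m τ := by
  have hex := fun i : Fin N =>
    ld_Obs_W_bound hq2 hg H (ld_cLev_CcB q H.δpos (AofV q g₀ b) H.bump l i)
  choose C hC hB using hex
  refine ⟨∑ i, C i, Finset.sum_nonneg fun i _ => hC i, ?_⟩
  intro m hm τ
  obtain ⟨a1, a2, a3⟩ := ld_Wop_spec q hq (by linarith) hg.sm H hm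
  have a2' : VanB (tOf (-Real.log Λ₀)) (Wop q g b (AofV q g₀ b) Λ₀ m) := by
    rw [ld_tOf_neg_log H.Λpos]
    exact a2
  rw [EuclideanSpace.real_norm_sq_eq, Finset.mul_sum, Finset.sum_mul]
  refine Finset.sum_le_sum fun i _ => ?_
  exact hB i (Wop q g b (AofV q g₀ b) Λ₀ m) m (-Real.log Λ₀) a1 hm.1.continuous le_rfl hm.2 a2' a3 τ

/-- `solve`. -/
theorem ld_K_solve (q : ℕ) (hq : Odd q) (hq2 : (100 : ℝ) ≤ q) (hg : BgGood q g)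
    (H : HeavyData q g N b δ K g₀ Λ₀ cH) (τa : ℝ) (hτa : -Real.log Λ₀ ≤ τa)
    (ρ : ℝ → EuclideanSpace ℝ (Fin N)) (hρ : CausalSmooth τa ρ) :
    ∃ M, CausalSmooth τa M ∧ ∀ τ, M τ = ρ τ + Kop q g b (AofV q g₀ b) K Λ₀ 0 M τ := by
  obtain ⟨G, hG, hv, hs⟩ := ld_KOp_exists q hq (by linarith) hg.sm H 0 hρ
  have hO : CausalSmooth τa (ObsV b G) :=
    ld_ObsV_causal (fun i l => (H.bump i l).smooth) hG hv
  have hM : CausalSmooth τa (fun τ => ρ τ + ObsV b G τ) :=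
    ⟨hρ.1.add hO.1, fun τ hτ => by
      show ρ τ + ObsV b G τ = 0
      rw [hρ.2 τ hτ, hO.2 τ hτ, add_zero]⟩
  refine ⟨fun τ => ρ τ + ObsV b G τ, hM, ?_⟩
  have hs0 : SolL q g b (AofV q g₀ b) 0
      (fun j p => (fun _ _ => (0 : ℝ) : Tri) j p + Fmc (AofV q g₀ b) ρ j p) G :=
    hs.congr_S (fun j t _ y _ => (zero_add _).symm)
  have hs1 := (ld_SolL_one_iff (q := q) (g := g) (b := b) (A := AofV q g₀ b)
    (S := (fun _ _ => (0 : ℝ) : Tri)) (U := G)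
    (fun τ => ρ τ + ObsV b G τ) ρ (fun τ => (add_sub_cancel_right _ _).symm)).2 hs0
  have hs2 : SolL q g b (AofV q g₀ b) 1 (Fmc (AofV q g₀ b) (fun τ => ρ τ + ObsV b G τ)) G :=
    hs1.congr_S (fun j t _ y _ => zero_add _)
  have he := ld_Wop_eq q hq hq2 hg H (ld_CausalSmooth_mono hτa hM) hG (hv.mono (ld_KOp_tOf_le H hτa)) hs2
  intro τ
  show ρ τ + ObsV b G τ = ρ τ + ObsV (cLev q b (AofV q g₀ b) K 0)
    (Wop q g b (AofV q g₀ b) Λ₀ (fun τ => ρ τ + ObsV b G τ)) τ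
  rw [ld_ObsV_congr _ he]
  rfl

end

end Claimed.Agent.R324.Core
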