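/-
Row 324 (S0582), PDE core, module LD.   Blueprint 7.4, tag LD6 "shift" (origin/helper232:docs/R324_blueprint.md).      FILE LD/ShDefsR (= helper325 ShDefs of 30628f83e, restored by helper217 after the overwrite by 79e79ad7c)      (sub-architect of the shift: helper325)
   Λ = -t,  X = Xf y = 1 - y²,  tt f = -X f';   u-form of a slice:  uV u = (σ, h₃, X b);   definitions of the module: Core/LD/Defs.lean.
THE RESCALED TRIPLE.     `r = μ² = e^{-s} ∈ (0,1]`.   Frame 1: variables `(t,y)`;  frame 2: `(t/r, ScF r y)`, where `X(ScF r y) = X(y)/r` as long as `X(y)/r ≤ 1/10`.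
   `chS`  cut-off in `s = X/r`:  `= 1` for `s ≤ 1/20`, `= 0` for `s ≥ 9/100`;
   `hS s = 1 - s` for `s ≤ 1/10`, and `hS ≥ 4/5` everywhere (so that `ScF r = √(hS (X/r))` is smooth on all of ℝ);
   `cSF r y = chS (X/r) ψ₁(y)`   (on its support  `X/r < 9/100`, `y > 3/4`, hence `y > 19/20` if `r ≤ 1`, and `ψ₁ = 1` near the support);
   `scT r U = cSF · (U₀, U₁, U₂/r)(t/r, ScF r y)`      (u-form:  `uV (scT r U) = cSF · (uV U)(t/r, ScF r y)`);
   `GsT q g r U = (1/r) scT r (L U) - L (scT r U)`,  `L = Lop q g`     (the error of the rescaling; used with `g := bgR q g₀`, `L = L̃`).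
All statements of this file are elementary:  `Real.smoothTransition.one_of_one_le`, `.zero_of_nonpos`, `.nonneg`, `.le_one`, `.contDiff`;   `Real.sqrt` is smooth at positive arguments (`ContDiff.sqrt`, `hS ≥ 4/5 > 0`).
-/
import Claimed.Agent.R324.Core.LD.BasicC
import Claimed.Agent.R324.Core.LD.BasicT

set_option autoImplicit false

namespace Claimed.Agent.R324.Core

open Set Filter Topology MeasureTheory
open scoped ContDiff

noncomputable section

/-- cut-off in `s = X/r`:  `= 1` for `s ≤ 1/20`, `= 0` for `s ≥ 9/100`. -/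
def chS (s : ℝ) : ℝ := Real.smoothTransition (25 * (9 / 100 - s))

/-- `= 1 - s` for `s ≤ 1/10`, `= 1` for `s ≥ 1/5`, `≥ 4/5` everywhere. -/
def hS (s : ℝ) : ℝ := 1 - s * Real.smoothTransition (10 * (1 / 5 - s))

/-- the rescaling map `y ↦ √(1 - X(y)/r)` (modified where `X/r ≥ 1/10`). -/
def ScF (r y : ℝ) : ℝ := Real.sqrt (hS (Xf y / r))

/-- the cut-off of the rescaled triple. -/
def cSF (r y : ℝ) : ℝ := chS (Xf y / r) * psi1 y

/-- the rescaled triple. -/
def scT (r : ℝ) (U : Tri) : Tri := fun j p =>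
  cSF r p.2 * (if j = 2 then 1 / r else 1) * U j (p.1 / r, ScF r p.2)

/-- the error of the rescaling. -/
def GsT (q : ℝ) (g : Bg) (r : ℝ) (U : Tri) : Tri := fun j p =>
  1 / r * scT r (Lop q g U) j p - Lop q g (scT r U) j p

/-- hygiene. -/
theorem core_ld_shdefsr_hygiene : True := by
  have := @chS.eq_1
  have := @hS.eq_1
  have := @ScF.eq_1
  have := @cSF.eq_1
  have := @scT.eq_1
  have := @GsT.eq_1
  trivial

variable {r s y : ℝ}

theorem ld_sh_chS_one (h : s ≤ 1 / 20) : chS s = 1 := by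
  unfold chS
  exact Real.smoothTransition.one_of_one_le (by linarith)

theorem ld_sh_chS_zero (h : 9 / 100 ≤ s) : chS s = 0 := by
  unfold chS
  exact Real.smoothTransition.zero_of_nonpos (by linarith)

theorem ld_sh_chS_nonneg (s : ℝ) : 0 ≤ chS s := Real.smoothTransition.nonneg _

theorem ld_sh_chS_le_one (s : ℝ) : chS s ≤ 1 := Real.smoothTransition.le_one _

theorem ld_sh_chS_contDiff : ContDiff ℝ ∞ chS := by
  unfold chS
  exact Real.smoothTransition.contDiff.comp (contDiff_const.mul (contDiff_const.sub contDiff_id))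

theorem ld_sh_hS_eq (h : s ≤ 1 / 10) : hS s = 1 - s := by
  unfold hS
  rw [Real.smoothTransition.one_of_one_le (by linarith), mul_one]

theorem ld_sh_hS_ge (s : ℝ) : 4 / 5 ≤ hS s := by
  unfold hS
  have h0 := Real.smoothTransition.nonneg (10 * (1 / 5 - s))
  have h1 := Real.smoothTransition.le_one (10 * (1 / 5 - s))
  rcases le_total (1 / 5) s with h | h
  · rw [Real.smoothTransition.zero_of_nonpos (by linarith), mul_zero]
    norm_num
  · rcases le_total s 0 with h' | h'
    · nlinarith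
    · nlinarith

theorem ld_sh_hS_le (h : 0 ≤ s) : hS s ≤ 1 := by
  unfold hS
  have h0 := Real.smoothTransition.nonneg (10 * (1 / 5 - s))
  nlinarith

theorem ld_sh_hS_contDiff : ContDiff ℝ ∞ hS := by
  unfold hS
  exact contDiff_const.sub (contDiff_id.mul
    (Real.smoothTransition.contDiff.comp (contDiff_const.mul (contDiff_const.sub contDiff_id))))

theorem ld_sh_ScF_contDiff (r : ℝ) : ContDiff ℝ ∞ (ScF r) := by
  have hX : ContDiff ℝ ∞ (fun y : ℝ => Xf y / r) := by
    unfold Xf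
    exact (contDiff_const.sub (contDiff_id.pow 2)).div_const r
  have h : ContDiff ℝ ∞ (fun y : ℝ => hS (Xf y / r)) := ld_sh_hS_contDiff.comp hX
  exact h.sqrt (fun y => by have := ld_sh_hS_ge (Xf y / r); linarith)

theorem ld_sh_ScF_pos (r y : ℝ) : 0 < ScF r y := by
  unfold ScF
  exact Real.sqrt_pos.2 (by have := ld_sh_hS_ge (Xf y / r); linarith)

theorem ld_sh_ScF_mem (hr : 0 < r) (hy : y ∈ Icc (-1 : ℝ) 1) : ScF r y ∈ Icc (-1 : ℝ) 1 := by
  have hX : 0 ≤ Xf y := by
    unfold Xf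
    nlinarith [hy.1, hy.2]
  refine ⟨by have := ld_sh_ScF_pos r y; linarith, ?_⟩
  unfold ScF
  rw [Real.sqrt_le_left (by norm_num : (0 : ℝ) ≤ 1)]
  have := ld_sh_hS_le (div_nonneg hX hr.le)
  linarith

theorem ld_sh_ScF_sq (h : Xf y / r ≤ 1 / 10) : ScF r y ^ 2 = 1 - Xf y / r := by
  unfold ScF
  rw [Real.sq_sqrt (by have := ld_sh_hS_ge (Xf y / r); linarith), ld_sh_hS_eq h]

theorem ld_sh_Xf_ScF (h : Xf y / r ≤ 1 / 10) : Xf (ScF r y) = Xf y / r := by
  have h1 := ld_sh_ScF_sq h
  have h2 : Xf (ScF r y) = 1 - ScF r y ^ 2 := rfl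
  rw [h2, h1]
  ring

theorem ld_sh_cSF_contDiff (r : ℝ) : ContDiff ℝ ∞ (cSF r) := by
  have hX : ContDiff ℝ ∞ (fun y : ℝ => Xf y / r) := by
    unfold Xf
    exact (contDiff_const.sub (contDiff_id.pow 2)).div_const r
  have h : ContDiff ℝ ∞ (fun y : ℝ => chS (Xf y / r)) := ld_sh_chS_contDiff.comp hX
  have hp : ContDiff ℝ ∞ psi1 := by
    unfold psi1
    exact Real.smoothTransition.contDiff.comp ((contDiff_const.mul contDiff_id).sub contDiff_const)
  exact h.mul hp

theorem ld_sh_cSF_nonneg (r y : ℝ) : 0 ≤ cSF r y := by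
  unfold cSF
  exact mul_nonneg (ld_sh_chS_nonneg _) (Real.smoothTransition.nonneg _)

theorem ld_sh_cSF_le_one (r y : ℝ) : cSF r y ≤ 1 := by
  unfold cSF
  exact mul_le_one₀ (ld_sh_chS_le_one _) (Real.smoothTransition.nonneg _) (Real.smoothTransition.le_one _)

/-- the support of the cut-off. -/
theorem ld_sh_cSF_supp (h : cSF r y ≠ 0) : Xf y / r < 9 / 100 ∧ 3 / 4 < y := by
  constructor
  · by_contra h1
    exact h (by rw [cSF, ld_sh_chS_zero (not_lt.1 h1), zero_mul])
  · by_contra h1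
    have h2 : psi1 y = 0 := Real.smoothTransition.zero_of_nonpos (by linarith [not_lt.1 h1])
    exact h (by rw [cSF, h2, mul_zero])

/-- outside of the OPEN set `{X/r < 9/100, y > 3/4}` ... the cut-off vanishes identically near points of the complement of the closed support. -/
theorem ld_sh_cSF_zero (h : 9 / 100 ≤ Xf y / r ∨ y ≤ 3 / 4) : cSF r y = 0 := by
  rcases h with h | h
  · rw [cSF, ld_sh_chS_zero h, zero_mul]
  · have h2 : psi1 y = 0 := Real.smoothTransition.zero_of_nonpos (by linarith)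
    rw [cSF, h2, mul_zero]

/-- on the support, `y > 19/20`  (`X ≤ X/r < 9/100` if `X ≥ 0`;  `X < 0` means `y > 1`). -/
theorem ld_sh_supp_y (hr : 0 < r) (hr1 : r ≤ 1) (h1 : Xf y / r < 39 / 400) (h2 : 0 < y) : 19 / 20 < y := by
  rw [div_lt_iff₀ hr] at h1
  unfold Xf at h1
  by_contra h3
  have h4 : y ≤ 19 / 20 := not_lt.1 h3
  nlinarith

/-- `ψ₁ = 1` for `y ≥ 19/20`. -/
theorem ld_sh_psi1_one (h : 19 / 20 ≤ y) : psi1 y = 1 := by
  unfold psi1
  exact Real.smoothTransition.one_of_one_le (by linarith)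

theorem ld_sh_psi1_zero (h : y ≤ 3 / 4) : psi1 y = 0 := by
  unfold psi1
  exact Real.smoothTransition.zero_of_nonpos (by linarith)

/-- `cSF r = chS (X/r)` near every point with `y > 19/20`. -/
theorem ld_sh_cSF_eq (h : 19 / 20 ≤ y) : cSF r y = chS (Xf y / r) := by
  rw [cSF, ld_sh_psi1_one h, mul_one]

end

end Claimed.Agent.R324.Core
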