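/-
Row 324 (S0582), PDE core, module LD.   Blueprint 7.4, tag LD6 "shift".      FILE LD/ShCalc      (helper325)
   Λ = -t,  X = Xf y = 1 - y²,  tt f = -X f' (`tt_apply`, rules in Core/W/TtCalc.lean, Core/W/TBa.lean);   u-form of a slice:  uV u = (σ, h₃, X b) (Core/W/FormDefs.lean);   `chS, hS, ScF, cSF, scT, GsT`: Core/LD/ShDefs.lean.
CALCULUS OF THE RESCALING MAP.      On the open set `{X(y)/r < 1/10}`:  `ScF r y = √(1 - X/r)`,  `ScF' = y/(r ScF)`,  `X(ScF r y) = X/r`,  so that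
      `tt (f ∘ ScF r)(y) = (y/ScF r y) (tt f)(ScF r y)`          (θ = tt/y commutes with the rescaling).
* `ld_sh_ScF_hasDerivAt`:  near `y`, `ScF r z = √(1 - Xf z / r)` (`ld_sh_hS_eq`; the set `{z | Xf z / r < 1/10}` is open: continuity of `Xf`);  `HasDerivAt.sqrt` (argument `≥ 9/10 > 0`);  `Xf z = 1 - z²` has derivative `-2y`.
* `ld_sh_tt_comp`:  `tt_apply`, `HasDerivAt.comp`/`deriv_comp`, `ld_sh_Xf_ScF`;  `field_simp`.
* `ld_sh_tt_tt_comp`:  `ld_sh_tt_comp` holds in a neighbourhood of `y` (`tt_congr`), then `tt_mul`, `tt_div`, `tt_id`, `ld_sh_tt_ScF`, and `ld_sh_tt_comp` for `tt f`.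
* `ld_sh_uV_scT`:  `funext y`; `fin_cases i`; for `i = 2`: if `cSF r y = 0` both sides vanish, otherwise `ld_sh_cSF_supp`, `ld_sh_ScF_sq`:  `1 - (ScF r y)² = (1 - y²)/r`.
* `ld_sh_dT_scT`:  `dT f (t,y) = deriv (fun s => f (s,y)) t`;   `s ↦ U j (s/r, y₂)` has derivative `(1/r) dT (U j)(t/r, y₂)` (`Sm.hasDerivAt_t`, `HasDerivAt.comp`, `t/r < 0`).
* `sm_scT`:  `sm_of_contDiffAt`;  `(hU j).contDiffAt` at `(t/r, ScF r y)` composed with the smooth map `p ↦ (p.1/r, ScF r p.2)`;   `sm_of_y`.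
-/
import Claimed.Agent.R324.Core.LD.ShDefsR

set_option autoImplicit false

namespace Claimed.Agent.R324.Core

open Set Filter Topology MeasureTheory
open scoped ContDiff

noncomputable section

variable {r t y : ℝ} {f : ℝ → ℝ} {U : Tri}

theorem ld_sh_nhds (r : ℝ) (h : Xf y / r < 1 / 10) : ∀ᶠ z in 𝓝 y, Xf z / r < 1 / 10 := by
  have hc : Continuous (fun z : ℝ => Xf z / r) := by
    unfold Xf
    fun_prop
  exact (isOpen_lt hc continuous_const).mem_nhds h

theorem ld_sh_ScF_hasDerivAt (hr : 0 < r) (h : Xf y / r < 1 / 10) : HasDerivAt (ScF r) (y / (r * ScF r y)) y := by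
  have hev : ScF r =ᶠ[𝓝 y] fun z => Real.sqrt (1 - Xf z / r) := by
    filter_upwards [ld_sh_nhds r h] with z hz
    rw [ScF, ld_sh_hS_eq hz.le]
  have h0 : HasDerivAt (fun z : ℝ => 1 - Xf z / r) (2 * y / r) y := by
    have h1 : HasDerivAt (fun z : ℝ => 1 - (1 - z ^ 2) / r) (0 - (0 - 2 * y) / r) y := by
      have h2 : HasDerivAt (fun z : ℝ => z ^ 2) (2 * y) y := by
        simpa using hasDerivAt_pow 2 y
      exact (hasDerivAt_const y (1 : ℝ)).sub (((hasDerivAt_const y (1 : ℝ)).sub h2).div_const r)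
    have e : (0 - (0 - 2 * y) / r) = 2 * y / r := by ring
    rw [e] at h1
    exact h1
  have hpos : (1 - Xf y / r) ≠ 0 := by
    have : (0 : ℝ) < 1 - Xf y / r := by linarith
    exact this.ne'
  have h3 := h0.sqrt hpos
  have hS : ScF r y = Real.sqrt (1 - Xf y / r) := hev.self_of_nhds
  have e2 : 2 * y / r / (2 * Real.sqrt (1 - Xf y / r)) = y / (r * ScF r y) := by
    rw [hS]
    have hs : Real.sqrt (1 - Xf y / r) ≠ 0 := by
      rw [← hS]; exact (ld_sh_ScF_pos r y).ne'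
    field_simp
  rw [e2] at h3
  exact h3.congr_of_eventuallyEq hev

theorem ld_sh_tt_ScF (hr : 0 < r) (h : Xf y / r < 1 / 10) : tt (ScF r) y = -(Xf y / r) * y / ScF r y := by
  rw [tt_eq_Xf, (ld_sh_ScF_hasDerivAt hr h).deriv]
  have hs : ScF r y ≠ 0 := (ld_sh_ScF_pos r y).ne'
  field_simp

/-- `tt` and the rescaling. -/
theorem ld_sh_tt_comp (hr : 0 < r) (h : Xf y / r < 1 / 10) (hf : DifferentiableAt ℝ f (ScF r y)) :
    tt (fun z => f (ScF r z)) y = y / ScF r y * tt f (ScF r y) := by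
  rw [tt_comp hf (ld_sh_ScF_hasDerivAt hr h).differentiableAt, ld_sh_tt_ScF hr h, tt_eq_Xf,
    ld_sh_Xf_ScF h.le]
  ring

theorem ld_sh_tt_tt_comp (hr : 0 < r) (h : Xf y / r < 1 / 10) (hf : ContDiff ℝ ∞ f) :
    tt (tt (fun z => f (ScF r z))) y
      = (y / ScF r y) ^ 2 * tt (tt f) (ScF r y)
        + (-(Xf y) / ScF r y + Xf y / r * y ^ 2 / ScF r y ^ 3) * tt f (ScF r y) := by
  have hs : ScF r y ≠ 0 := (ld_sh_ScF_pos r y).ne'
  have hSd : DifferentiableAt ℝ (ScF r) y := (ld_sh_ScF_hasDerivAt hr h).differentiableAt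
  have hfd : ∀ z, DifferentiableAt ℝ f z := fun z =>
    (hf.differentiable (by simp)).differentiableAt
  have htf : ContDiff ℝ ∞ (tt f) := by
    have h1 : ContDiff ℝ ∞ (deriv f) := by
      have := (contDiff_infty_iff_deriv.1 hf).2
      exact this
    have e : tt f = fun z => -(1 - z ^ 2) * deriv f z := rfl
    rw [e]
    fun_prop
  have htfd : ∀ z, DifferentiableAt ℝ (tt f) z := fun z =>
    (htf.differentiable (by simp)).differentiableAt
  have hev : tt (fun z => f (ScF r z)) =ᶠ[𝓝 y] fun z => z / ScF r z * tt f (ScF r z) := by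
    filter_upwards [ld_sh_nhds r h] with z hz
    exact ld_sh_tt_comp hr hz (hfd _)
  rw [tt_congr hev]
  have hd1 : DifferentiableAt ℝ (fun z => z / ScF r z) y := differentiableAt_id.fun_div hSd hs
  have hd2 : DifferentiableAt ℝ (fun z => tt f (ScF r z)) y :=
    DifferentiableAt.comp (f := ScF r) (g := tt f) y (htfd _) hSd
  rw [tt_mul hd1 hd2, tt_div (f := fun z => z) differentiableAt_fun_id hSd hs, tt_id, ld_sh_tt_ScF hr h,
    ld_sh_tt_comp hr h (htfd _)]
  field_simp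
  ring

/-- the `u`-form of the rescaled triple. -/
theorem ld_sh_uV_scT (hr : 0 < r) (U : Tri) (t : ℝ) (i : Fin 3) :
    uV (slT (scT r U) t) i = fun y => cSF r y * uV (slT U (t / r)) i (ScF r y) := by
  funext y
  by_cases hi : i = 2
  · subst hi
    simp only [uV, slT, scT, if_true]
    by_cases hc : cSF r y = 0
    · rw [hc]
      ring
    · have h1 := ld_sh_ScF_sq (r := r) (y := y) (by linarith [(ld_sh_cSF_supp hc).1])
      have h2 : Xf y = 1 - y ^ 2 := rfl
      rw [h1, h2]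
      ring
  · simp only [uV, slT, scT, if_neg hi]
    ring

/-- multiplication by `X`:  `X(y)/r = X(ScF r y)` on the support. -/
theorem ld_sh_X_uV_scT (hr : 0 < r) (U : Tri) (t : ℝ) (i : Fin 3) (y : ℝ) :
    Xf y * (1 / r * uV (slT (scT r U) t) i y) = cSF r y * (Xf (ScF r y) * uV (slT U (t / r)) i (ScF r y)) := by
  rw [ld_sh_uV_scT hr U t i]
  by_cases hc : cSF r y = 0
  · simp only [hc]
    ring
  · rw [ld_sh_Xf_ScF (r := r) (y := y) (by linarith [(ld_sh_cSF_supp hc).1])]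
    ring

theorem ld_sh_dT_scT (hr : 0 < r) (hU : ∀ j, Sm (U j)) (j : Fin 3) (ht : t < 0) (y : ℝ) :
    dT (scT r U j) (t, y) = 1 / r * scT r (dTT U) j (t, y) := by
  have htr : t / r < 0 := div_neg_of_neg_of_pos ht hr
  have h1 : HasDerivAt (fun s => U j (s, ScF r y)) (dT (U j) (t / r, ScF r y)) (t / r) :=
    (hU j).hasDerivAt_t htr (ScF r y)
  have h2 : HasDerivAt (fun s : ℝ => s / r) (1 / r) t := (hasDerivAt_id t).div_const r
  have h3 : HasDerivAt (fun s : ℝ => U j (s / r, ScF r y)) (dT (U j) (t / r, ScF r y) * (1 / r)) t :=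
    HasDerivAt.comp (h₂ := fun s => U j (s, ScF r y)) (h := fun s : ℝ => s / r) t h1 h2
  have h4 := h3.const_mul (cSF r y * (if j = 2 then 1 / r else 1))
  have h5 : dT (scT r U j) (t, y)
      = cSF r y * (if j = 2 then 1 / r else 1) * (dT (U j) (t / r, ScF r y) * (1 / r)) := h4.deriv
  rw [h5]
  simp only [scT, dTT]
  ring

theorem sm_scT (hr : 0 < r) (hU : ∀ j, Sm (U j)) (j : Fin 3) : Sm (scT r U j) := by
  have h1 : Sm (fun p => U j (p.1 / r, ScF r p.2)) := by
    refine sm_of_contDiffAt fun p hp => ?_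
    have hp' : p.1 / r < 0 := div_neg_of_neg_of_pos hp hr
    have hf : ContDiffAt ℝ ∞ (U j) (p.1 / r, ScF r p.2) :=
      (hU j).contDiffAt (p := (p.1 / r, ScF r p.2)) hp'
    have hg : ContDiff ℝ ∞ (fun p : ℝ × ℝ => (p.1 / r, ScF r p.2)) :=
      (contDiff_fst.div_const r).prodMk ((ld_sh_ScF_contDiff r).comp contDiff_snd)
    exact ContDiffAt.comp p hf hg.contDiffAt
  exact ((sm_of_y (ld_sh_cSF_contDiff r)).mul_const (if j = 2 then 1 / r else 1)).mul h1

theorem sm_GsT (q : ℝ) {g : Bg} (hs : BgSm g) (hr : 0 < r) (hU : ∀ j, Sm (U j)) (j : Fin 3) : Sm (GsT q g r U j) := by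
  have h1 : ∀ j, Sm (scT r (Lop q g U) j) := sm_scT hr (sm_Lop q hs hU)
  have h2 : ∀ j, Sm (Lop q g (scT r U) j) := sm_Lop q hs (sm_scT hr hU)
  exact ((h1 j).const_mul (1 / r)).sub (h2 j)

/-- linearity of the rescaling. -/
theorem ld_sh_scT_add (r : ℝ) (U W : Tri) (j : Fin 3) (p : ℝ × ℝ) :
    scT r (fun j p => U j p + W j p) j p = scT r U j p + scT r W j p := by
  simp only [scT]
  ring

theorem ld_sh_scT_sub (r : ℝ) (U W : Tri) (j : Fin 3) (p : ℝ × ℝ) :
    scT r (fun j p => U j p - W j p) j p = scT r U j p - scT r W j p := by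
  simp only [scT]
  ring

/-- the rescaled triple only depends on the values on `[-1,1]`. -/
theorem ld_sh_scT_congr (hr : 0 < r) {U W : Tri} {t : ℝ} (h : ∀ j, ∀ y ∈ Icc (-1 : ℝ) 1, U j (t / r, y) = W j (t / r, y))
    (j : Fin 3) (hy : y ∈ Icc (-1 : ℝ) 1) : scT r U j (t, y) = scT r W j (t, y) := by
  simp only [scT]
  rw [h j _ (ld_sh_ScF_mem hr hy)]

end

end Claimed.Agent.R324.Core
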