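/-
Row 324 (S0582), PDE core, module LD.   Blueprint 7.4, tag LD6 "shift".      FILE LD/ShEq      (helper325)
   Λ = -t,  X = Xf y = 1 - y²;   `chS, hS, ScF, cSF, scT, GsT`: Core/LD/ShDefs.lean;  `ld_sh_dT_scT`, `ld_sh_uV_scT`, `ld_sh_scT_congr`: ShCalc;   `Obs, Actu, Fmc, SolL`: Core/LD/Defs.lean;   `ld_Obs_scaled`, `yOf`: ActId / Subst.
SCALE INVARIANCE OF THE FINITE RANK DATA, AND THE EQUATION OF THE DIFFERENCE.        0 < r ≤ 1,  frame 2 time t/r with K (-(t/r)) ≤ 1/20.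
* `ld_sh_Actu`:   unfold scT, Actu.    Case cSF r y = 0:  then ψ₁ y = 0 (right side 0), or chS (X/r) = 0, so X/r > 1/20 (`ld_sh_chS_one`), X/Λ > r/(20 Λ) ≥ K, and A_j(X/Λ) = 0 (`CcB.supp`).
      Case cSF r y ≠ 0:  X/r < 9/100, y > 3/4 (`ld_sh_cSF_supp`),  Xf (ScF r y) = X/r (`ld_sh_Xf_ScF`),  (X/r)/(-(t/r)) = X/Λ.    If A_j(X/Λ) = 0 both sides vanish.   Otherwise δ < X/Λ < K:  X > 0, X/r < K Λ/r ≤ 1/20:  chS = 1,  (ScF r y)² = 1 - X/r ≥ 19/20 ≥ (19/20)², ψ₁(ScF r y) = 1 (`ld_sh_psi1_one`);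
      xJ j (ScF r y) = X/r (j = 2) or 1;   `field_simp`.
* `ld_sh_Obs`:    `ld_Obs_scaled` at time t (K Λ ≤ K Λ/r ≤ 1/20 ≤ 39/400) and at time t/r;   integrands agree on [0,K] (`intervalIntegral.integral_congr`, `uIcc_of_le`):   y' = yOf t Y = √(1 - ΛY), 1 - ΛY ≥ 19/20:  Xf y' = ΛY,  Xf y'/r = (Λ/r) Y ≤ 1/20,  `ld_sh_uV_scT`:   uV (slT (scT r U) t) l y' = cSF r y' · uV (slT U (t/r)) l (ScF r y'),
      cSF r y' = 1 (`ld_sh_chS_one`, `ld_sh_psi1_one`: y' ≥ 19/20),   ScF r y' = √(1 - (Λ/r) Y) = yOf (t/r) Y  (unfold ScF; `ld_sh_hS_eq`).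
* `ld_sh_tauOf`:  tauOf (t/e^{-s}) = -log(Λ e^{s}) = tauOf t - s   (`Real.log_mul`/`Real.log_div`, `Real.log_exp`).
* `ld_sh_Fmc`:    unfold Fmc, scT;  `Finset.mul_sum`;  each term by `ld_sh_Actu` and `ld_sh_tauOf`.
* `ld_sh_eq`:     D = U' - scT r U,  r = e^{-s}.    dT D = dT U' - (1/r) scT r (dTT U)   (`ld_sh_dT_scT`; dT of a difference: `Sm.hasDerivAt_t`, `HasDerivAt.sub`).     By `ld_sh_scT_congr` and the equation of U at time t/r:
        scT r (dTT U) = scT r (L̃ U) - Σ_i O_{b_i}[U](t/r) scT r (Actu A_i) + scT r (Fmc A m)     on [-1,1]      (linearity of scT: unfold scT; `Finset.mul_sum`, ring),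
      hence (1/r) scT r (dTT U) = [Gs + L̃ (scT r U)] - Σ_i O_{b_i}[scT r U](t) Actu A_i + Fmc A m(·-s)      (`ld_sh_Actu`, `ld_sh_Obs`, `ld_sh_Fmc`, definition of GsT, `Lt q g = Lop q (bgR q g)` by rfl).
      Subtract from the equation of U';   `ld0_lop_sub` (Core/LD0/Comm.lean), `ld_Obs_sub` (LinA; slT (fun j p => U' j p - W j p) t = fun l y => slT U' t l y - slT W t l y by rfl).
-/
import Claimed.Agent.R324.Core.LD.ShCalc
import Claimed.Agent.R324.Core.LD.HeavyS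

set_option autoImplicit false

namespace Claimed.Agent.R324.Core

open Set Filter Topology MeasureTheory
open scoped ContDiff

noncomputable section

variable {N : ℕ} {q r s t y δ K g₀ Λ₀ cH : ℝ} {g : Bg} {b : Fin N → Fin 3 → ℝ → ℝ} {U U' : Tri}

/-- the actuators are exactly scale invariant. -/
theorem ld_sh_Actu (hδ : 0 < δ) (hr : 0 < r) (hr1 : r ≤ 1) (ht : t < 0) (hK : K * (-(t / r)) ≤ 1 / 20)
    {A : Fin 3 → ℝ → ℝ} (hA : ∀ l, CcB δ K (A l)) (j : Fin 3) (y : ℝ) :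
    1 / r * scT r (Actu A) j (t, y) = Actu A j (t, y) := by
  have hΛ : 0 < -t := by linarith
  have hK' : K * (-t) / r ≤ 1 / 20 := by
    have : K * (-(t / r)) = K * (-t) / r := by ring
    rwa [this] at hK
  have hscT : scT r (Actu A) j (t, y)
      = cSF r y * (if j = 2 then 1 / r else 1)
        * (psi1 (ScF r y) * A j (Xf (ScF r y) / (-(t / r))) / ((-(t / r)) * xJ j (ScF r y))) := rfl
  have hAct : Actu A j (t, y) = psi1 y * A j (Xf y / (-t)) / ((-t) * xJ j y) := rfl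
  rw [hscT, hAct]
  by_cases hc : cSF r y = 0
  · rw [hc]
    have hc' : chS (Xf y / r) * psi1 y = 0 := hc
    rcases mul_eq_zero.1 hc' with h0 | h0
    · have h1 : ¬ (Xf y / r ≤ 1 / 20) := by
        intro h
        rw [ld_sh_chS_one h] at h0
        exact one_ne_zero h0
      have h2 : K * (-t) / r < Xf y / r := by
        push Not at h1
        linarith
      have h3 : K * (-t) < Xf y := by
        rwa [div_lt_div_iff_of_pos_right hr] at h2
      have h4 : K ≤ Xf y / (-t) := by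
        rw [le_div_iff₀ hΛ]
        exact h3.le
      rw [(hA j).supp _ (Or.inr h4)]
      simp
    · rw [h0]
      simp
  · obtain ⟨hX9, -⟩ := ld_sh_cSF_supp hc
    have hXS : Xf (ScF r y) = Xf y / r := ld_sh_Xf_ScF (by linarith)
    have harg : Xf y / r / (-(t / r)) = Xf y / (-t) := by
      field_simp
    rw [hXS, harg]
    by_cases hA0 : A j (Xf y / (-t)) = 0
    · rw [hA0]
      simp
    · have hδ' : δ < Xf y / (-t) := by
        by_contra h
        exact hA0 ((hA j).supp _ (Or.inl (not_lt.1 h)))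
      have hKK : Xf y / (-t) < K := by
        by_contra h
        exact hA0 ((hA j).supp _ (Or.inr (not_lt.1 h)))
      have hXpos : 0 < Xf y := by
        have h1 : 0 < Xf y / (-t) := lt_trans hδ hδ'
        have h2 : Xf y = Xf y / (-t) * (-t) := (div_mul_cancel₀ _ hΛ.ne').symm
        rw [h2]
        exact mul_pos h1 hΛ
      have hXK : Xf y < K * (-t) := by
        rwa [div_lt_iff₀ hΛ] at hKK
      have hX20 : Xf y / r ≤ 1 / 20 := by
        have : Xf y / r < K * (-t) / r := by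
          rwa [div_lt_div_iff_of_pos_right hr]
        linarith
      have hsq : ScF r y ^ 2 = 1 - Xf y / r := ld_sh_ScF_sq (by linarith)
      have hSpos := ld_sh_ScF_pos r y
      have hS19 : 19 / 20 ≤ ScF r y := by
        by_contra h
        push Not at h
        nlinarith
      have hcS : cSF r y = psi1 y := by
        unfold cSF
        rw [ld_sh_chS_one hX20, one_mul]
      rw [hcS, ld_sh_psi1_one hS19]
      have hxJ : xJ j (ScF r y) = if j = 2 then Xf y / r else 1 := by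
        unfold xJ
        rw [hXS]
      have hxJ' : xJ j y = if j = 2 then Xf y else 1 := rfl
      rw [hxJ, hxJ']
      have htne : t ≠ 0 := ht.ne
      have hXne : Xf y ≠ 0 := hXpos.ne'
      by_cases hj : j = 2
      · simp only [hj, if_true]
        field_simp
      · simp only [hj, if_false]
        field_simp

/-- the observations are exactly scale invariant. -/
theorem ld_sh_Obs (hK0 : 0 ≤ K) (hr : 0 < r) (hr1 : r ≤ 1) (ht : t < 0) (hK : K * (-(t / r)) ≤ 1 / 20)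
    {c : Fin 3 → ℝ → ℝ} (hc : ∀ l, CcB δ K (c l)) (hU : ∀ j, Sm (U j)) :
    Obs c t (slT (scT r U) t) = Obs c (t / r) (slT U (t / r)) := by
  have hΛ : 0 < -t := by linarith
  have htr : t / r < 0 := div_neg_of_neg_of_pos ht hr
  have hle : -t ≤ -(t / r) := by
    rw [← neg_div, le_div_iff₀ hr]
    nlinarith
  have hK1 : K * (-t) ≤ 1 / 20 := le_trans (mul_le_mul_of_nonneg_left hle hK0) hK
  have hu1 : ∀ l, CI (slT (scT r U) t l) := fun l =>
    ((sm_scT hr hU l).sl ht).continuous.continuousOn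
  have hu2 : ∀ l, CI (slT U (t / r) l) := fun l =>
    ((hU l).sl htr).continuous.continuousOn
  rw [ld_Obs_scaled hc hK0 ht (by linarith) hu1, ld_Obs_scaled hc hK0 htr (by linarith) hu2]
  refine intervalIntegral.integral_congr fun Y hY => ?_
  rw [uIcc_of_le hK0] at hY
  have hY1 : (-(t / r)) * Y ≤ 1 / 20 := by
    calc (-(t / r)) * Y ≤ (-(t / r)) * K := mul_le_mul_of_nonneg_left hY.2 (by linarith)
      _ = K * (-(t / r)) := mul_comm _ _
      _ ≤ 1 / 20 := hK
  have hY2 : (-t) * Y ≤ 1 / 20 := le_trans (mul_le_mul_of_nonneg_right hle hY.1) hY1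
  have hm := ld_yOf_mem ht hY.1 (by linarith : (-t) * Y ≤ 39 / 400)
  have hX : Xf (yOf t Y) = (-t) * Y := ld_Xf_yOf (by linarith)
  have hXr : Xf (yOf t Y) / r = (-(t / r)) * Y := by
    rw [hX]; field_simp
  have hcS : cSF r (yOf t Y) = 1 := by
    rw [ld_sh_cSF_eq hm.1, hXr, ld_sh_chS_one hY1]
  have hSc : ScF r (yOf t Y) = yOf (t / r) Y := by
    unfold ScF
    rw [hXr, ld_sh_hS_eq (by linarith)]
    rfl
  show ∑ l, c l Y * uV (slT (scT r U) t) l (yOf t Y) = ∑ l, c l Y * uV (slT U (t / r)) l (yOf (t / r) Y)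
  refine Finset.sum_congr rfl fun l _ => ?_
  rw [ld_sh_uV_scT hr U t l]
  show c l Y * (cSF r (yOf t Y) * uV (slT U (t / r)) l (ScF r (yOf t Y))) = _
  rw [hcS, hSc, one_mul]

theorem ld_sh_tauOf (s : ℝ) (ht : t < 0) : tauOf (t / Real.exp (-s)) = tauOf t - s := by
  have hΛ : 0 < -t := by linarith
  unfold tauOf
  have h1 : -(t / Real.exp (-s)) = (-t) * Real.exp s := by
    rw [Real.exp_neg]
    field_simp
  rw [h1, Real.log_mul hΛ.ne' (Real.exp_pos s).ne', Real.log_exp]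
  ring

theorem ld_sh_Fmc (hδ : 0 < δ) (hs : 0 ≤ s) (ht : t < 0) (hK : K * (-(t / Real.exp (-s))) ≤ 1 / 20)
    {A : Fin N → Fin 3 → ℝ → ℝ} (hA : ∀ i l, CcB δ K (A i l)) (m : ℝ → EuclideanSpace ℝ (Fin N)) (j : Fin 3) (y : ℝ) :
    1 / Real.exp (-s) * scT (Real.exp (-s)) (Fmc A m) j (t, y) = Fmc A (fun σ => m (σ - s)) j (t, y) := by
  have hr : 0 < Real.exp (-s) := Real.exp_pos _
  have hr1 : Real.exp (-s) ≤ 1 := Real.exp_le_one_iff.2 (by linarith)
  have hL : scT (Real.exp (-s)) (Fmc A m) j (t, y)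
      = ∑ i, m (tauOf (t / Real.exp (-s))) i * scT (Real.exp (-s)) (Actu (A i)) j (t, y) := by
    unfold scT Fmc
    rw [Finset.mul_sum]
    refine Finset.sum_congr rfl (fun i _ => ?_)
    ring
  have hR : Fmc A (fun σ => m (σ - s)) j (t, y) = ∑ i, m (tauOf t - s) i * Actu (A i) j (t, y) := rfl
  rw [hL, hR, Finset.mul_sum]
  refine Finset.sum_congr rfl (fun i _ => ?_)
  rw [ld_sh_tauOf s ht, ← ld_sh_Actu hδ hr hr1 ht hK (hA i) j y]
  ring

/-- **the equation of the difference** `D = U' - scT r U`, `r = e^{-s}`. -/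
theorem ld_sh_eq (hq : 100 ≤ q) (hg : BgGood q g) (H : HeavyData q g N b δ K g₀ Λ₀ cH) (hK20 : K * Λ₀ ≤ 1 / 20) (hs : 0 ≤ s)
    {m : ℝ → EuclideanSpace ℝ (Fin N)} (hU : ∀ j, Sm (U j)) (hU' : ∀ j, Sm (U' j))
    (hsol : SolL q g b (AofV q g₀ b) 1 (Fmc (AofV q g₀ b) m) U)
    (hsol' : SolL q g b (AofV q g₀ b) 1 (Fmc (AofV q g₀ b) (fun σ => m (σ - s))) U')
    (ht : t / Real.exp (-s) ∈ Ico (-Λ₀) 0) :
    ∀ j, ∀ y ∈ Icc (-1 : ℝ) 1,
      dT (fun p => U' j p - scT (Real.exp (-s)) U j p) (t, y)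
        = Lt q g (fun j p => U' j p - scT (Real.exp (-s)) U j p) j (t, y)
          - ∑ i, Obs (b i) t (slT (fun j p => U' j p - scT (Real.exp (-s)) U j p) t) * Actu (AofV q g₀ b i) j (t, y)
          + -(GsT q (bgR q g) (Real.exp (-s)) U j (t, y)) := by
  intro j y hy
  have hr : 0 < Real.exp (-s) := Real.exp_pos _
  have hr1 : Real.exp (-s) ≤ 1 := Real.exp_le_one_iff.2 (by linarith)
  have hq0 : 0 < q := by linarith
  have hA : ∀ i l, CcB δ K (AofV q g₀ b i l) := fun i l => H.bumpA hq0 i l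
  have ht0 : t < 0 := by
    have h := ht.2
    rwa [div_lt_iff₀ hr, zero_mul] at h
  have hK : K * (-(t / Real.exp (-s))) ≤ 1 / 20 :=
    (mul_le_mul_of_nonneg_left (by linarith [ht.1]) H.Kpos.le).trans hK20
  generalize hrdef : Real.exp (-s) = r at *
  have hW : ∀ j, Sm (scT r U j) := sm_scT hr hU
  -- the left side
  have e1 : dT (fun p => U' j p - scT r U j p) (t, y) = dT (U' j) (t, y) - dT (scT r U j) (t, y) :=
    dT_sub (hU' j) (hW j) ht0 y
  have e2 : dT (scT r U j) (t, y) = 1 / r * scT r (dTT U) j (t, y) := ld_sh_dT_scT hr hU j ht0 y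
  have e3 : scT r (dTT U) j (t, y)
      = scT r (fun j p => Lt q g U j p
          - 1 * ∑ i, Obs (b i) p.1 (slT U p.1) * Actu (AofV q g₀ b i) j p + Fmc (AofV q g₀ b) m j p) j (t, y) :=
    ld_sh_scT_congr hr (fun j z hz => hsol j (t / r) ht.2 z hz) j hy
  have e4 : scT r (fun j p => Lt q g U j p
          - 1 * ∑ i, Obs (b i) p.1 (slT U p.1) * Actu (AofV q g₀ b i) j p + Fmc (AofV q g₀ b) m j p) j (t, y)
      = scT r (Lop q (bgR q g) U) j (t, y)
        - ∑ i, Obs (b i) (t / r) (slT U (t / r)) * scT r (Actu (AofV q g₀ b i)) j (t, y)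
        + scT r (Fmc (AofV q g₀ b) m) j (t, y) := by
    simp only [scT, Lt]
    rw [one_mul, mul_add, mul_sub, Finset.mul_sum]
    congr 2
    refine Finset.sum_congr rfl fun i _ => ?_
    ring
  have e5 : ∀ i, 1 / r * scT r (Actu (AofV q g₀ b i)) j (t, y) = Actu (AofV q g₀ b i) j (t, y) :=
    fun i => ld_sh_Actu H.δpos hr hr1 ht0 hK (hA i) j y
  have e6 : ∀ i, Obs (b i) (t / r) (slT U (t / r)) = Obs (b i) t (slT (scT r U) t) :=
    fun i => (ld_sh_Obs H.Kpos.le hr hr1 ht0 hK (H.bump i) hU).symm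
  have e7 : 1 / r * scT r (Fmc (AofV q g₀ b) m) j (t, y) = Fmc (AofV q g₀ b) (fun σ => m (σ - s)) j (t, y) := by
    subst hrdef
    exact ld_sh_Fmc H.δpos hs ht0 hK hA m j y
  have e8 : GsT q (bgR q g) r U j (t, y)
      = 1 / r * scT r (Lop q (bgR q g) U) j (t, y) - Lop q (bgR q g) (scT r U) j (t, y) := rfl
  have e9 : Lt q g (fun j p => U' j p - scT r U j p) j (t, y)
      = Lop q (bgR q g) U' j (t, y) - Lop q (bgR q g) (scT r U) j (t, y) :=
    ld0_lop_sub q (bgR q g) hU' hW ht0 y j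
  have e10 : ∀ i, Obs (b i) t (slT (fun j p => U' j p - scT r U j p) t)
      = Obs (b i) t (slT U' t) - Obs (b i) t (slT (scT r U) t) := fun i =>
    ld_Obs_sub (fun l => (H.bump i l).smooth.continuous) t
      (fun l => ((hU' l).sl ht0).continuous.continuousOn) (fun l => ((hW l).sl ht0).continuous.continuousOn)
  have e11 := hsol' j t ht0 y hy
  have e12 : 1 / r * ∑ i, Obs (b i) (t / r) (slT U (t / r)) * scT r (Actu (AofV q g₀ b i)) j (t, y)
      = ∑ i, Obs (b i) t (slT (scT r U) t) * Actu (AofV q g₀ b i) j (t, y) := by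
    rw [Finset.mul_sum]
    refine Finset.sum_congr rfl fun i _ => ?_
    rw [← e5 i, e6 i]
    ring
  have e13 : ∑ i, Obs (b i) t (slT (fun j p => U' j p - scT r U j p) t) * Actu (AofV q g₀ b i) j (t, y)
      = ∑ i, Obs (b i) t (slT U' t) * Actu (AofV q g₀ b i) j (t, y)
        - ∑ i, Obs (b i) t (slT (scT r U) t) * Actu (AofV q g₀ b i) j (t, y) := by
    rw [← Finset.sum_sub_distrib]
    refine Finset.sum_congr rfl fun i _ => ?_
    rw [e10 i]
    ring
  rw [e1, e2, e3, e4, e11, e9, e13, e8, mul_add, mul_sub, e12, e7]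
  simp only [Lt]
  ring

end

end Claimed.Agent.R324.Core
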