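/-
Row 324 (S0582), PDE core, module LD.   Blueprint 7.4, tag LD6 "shift".      FILE LD/ShWt      (helper325)
   Λ = -t,  X = Xf y = 1 - y²,  X̃ = Xt y (= X for y ≥ 1/2: `Xt_eq`, Core/AP/Cal/ClsA.lean / `w0_sgY_N`),  ℓ² = ell2 q t = (q-1)/100 Λ^(2γ),  γ = gaF q = 8/α,  α = alF q = bAl q ∈ (2,3) (`bAl_bounds`, q ≥ 100),  r̂² = rh2 = ℓ² + X̃,  Θ = Th = Λ + X̃,
   JJ = Θ⁸ (r̂²)^(-α/2),   wH a M = (r̂²)^a/Θ^M   (Core/Defs.lean);    elementary facts on the weights: Core/W/WtA.lean, WtB.lean.     `ScF`: Core/LD/ShDefs.lean;   `zS`, `jjS`: Core/LD/ShCoef.lean.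
WEIGHT INEQUALITIES OF THE SHIFT.      Frame 2: (t₂, y₂) = (t/r, y₂), y₂ ∈ [0,1], X₂ = Xf y₂ ≤ 1/10.     Frame 1: (t, y'), y' = SiF r y₂ = √(1 - r X₂), so that Xf y' = r X₂, ScF r y' = y₂, y' ≥ y₂ ≥ 1/2.      0 < r ≤ 1.
* `ld_sh_Th_sc`:    Θ(t,y') = Λ + r X₂ = r (Λ/r + X₂) = r Θ(t/r, y₂).
* `ld_sh_ell2_sc`:  ℓ²(t) = (q-1)/100 (r Λ₂)^(2γ) = r^(2γ) ℓ²(t/r) ≤ r ℓ²(t/r)      (`Real.mul_rpow`;  r^(2γ) ≤ r^1 since r ≤ 1, 2γ ≥ 1: `Real.rpow_le_rpow_of_exponent_ge`).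
* `ld_sh_rh2_sc`:   r̂²(t,y') = ℓ²(t) + r X₂ ≤ r r̂²(t/r, y₂).
* `ld_sh_wH_sc`:    Λ^ν wH a M (t,y') ≤ (r Λ₂)^ν (r r̂₂²)^a/(r Θ₂)^M = r^(ν+a-M) Λ₂^ν wH a M (t/r,y₂);    both (ν,a,M) = (95/2,3,52), (61/2,2,34) give r^(-3/2).
* `ld_sh_JJ_wt` (one frame):   Λ^(95/2) wH 3 52 · JJ² = Λ^(61/2) wH 2 34 · [Λ^17 r̂²^(1-α) Θ^(-2)],     Θ ≥ Λ,  r̂² ≥ ℓ², 1-α < 0:   [..] ≤ Λ^15 (ℓ²)^(1-α) = ((q-1)/100)^(1-α) Λ^(15+2γ(1-α)) = c Λ^(2γ-1)  (γ α = 8),   2γ-1 ≥ 2, Λ ≤ 1.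
* `ld_sh_zone_wt`:  X₂ ≥ 1/20:  Θ ≥ 1/20, r̂² ≤ Θ ≤ 2:    Λ^(95/2) wH 3 52 = Λ^(61/2) wH 2 34 Λ^17 r̂²/Θ^18 ≤ Λ^(61/2) wH 2 34 · Λ² · 2·20^18.
* `ld_sh_wt`:  (a+b+c)² ≤ 3(a²+b²+c²);   a = JJ(t/r,y₂): `ld_sh_wH_sc` (B), `ld_sh_JJ_wt` in frame 2;    b = JJ(t,y'): `ld_sh_JJ_wt` in frame 1 (t ∈ Ico (-Λ₁) 0, (−t)² ≤ (t/r)²), `ld_sh_wH_sc` (A);    c = zS: `ld_sh_wH_sc` (B), `ld_sh_zone_wt`.
-/
import Claimed.Agent.R324.Core.LD.ShCoef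

set_option autoImplicit false

namespace Claimed.Agent.R324.Core

open Set Filter Topology MeasureTheory
open scoped ContDiff

noncomputable section

/-- the inverse of the rescaling map: `y₂ ↦ √(1 - r X(y₂))`. -/
def SiF (r y : ℝ) : ℝ := Real.sqrt (1 - r * Xf y)

theorem core_ld_shwt_hygiene : True := by
  have := @SiF.eq_1
  trivial

variable {q r t y : ℝ}

theorem ld_sh_SiF_geom (hr : 0 < r) (hr1 : r ≤ 1) (hy : y ∈ Icc (0 : ℝ) 1) :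
    SiF r y ∈ Icc (0 : ℝ) 1 ∧ y ≤ SiF r y ∧ Xf (SiF r y) = r * Xf y ∧ Xf (SiF r y) / r = Xf y := by
  have hX0 : 0 ≤ Xf y := by
    unfold Xf
    nlinarith [hy.1, hy.2]
  have hX1 : Xf y ≤ 1 := by
    unfold Xf
    nlinarith [sq_nonneg y]
  have hrX0 : 0 ≤ r * Xf y := mul_nonneg hr.le hX0
  have hrX1 : r * Xf y ≤ Xf y := by nlinarith
  have hs0 : 0 ≤ 1 - r * Xf y := by linarith
  have hs1 : 1 - r * Xf y ≤ 1 := by linarith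
  have e : Xf (SiF r y) = r * Xf y := by
    show 1 - (Real.sqrt (1 - r * Xf y)) ^ 2 = r * Xf y
    rw [Real.sq_sqrt hs0]
    ring
  refine ⟨⟨Real.sqrt_nonneg _, Real.sqrt_le_one.2 hs1⟩, ?_, e, ?_⟩
  · refine Real.le_sqrt_of_sq_le ?_
    have : y ^ 2 = 1 - Xf y := by
      unfold Xf
      ring
    linarith
  · rw [e]
    field_simp

theorem ld_sh_ScF_SiF (hr : 0 < r) (hr1 : r ≤ 1) (hy : y ∈ Icc (0 : ℝ) 1) (hX : Xf y ≤ 1 / 10) : ScF r (SiF r y) = y := by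
  obtain ⟨-, -, -, e⟩ := ld_sh_SiF_geom hr hr1 hy
  unfold ScF hS
  rw [e, Real.smoothTransition.one_of_one_le (by linarith)]
  have : 1 - Xf y * 1 = y ^ 2 := by
    unfold Xf
    ring
  rw [this]
  exact Real.sqrt_sq hy.1

theorem ld_sh_half_le (hy : y ∈ Icc (0 : ℝ) 1) (hX : Xf y ≤ 1 / 10) : 1 / 2 ≤ y := by
  unfold Xf at hX
  nlinarith [hy.1, hy.2]

theorem ld_sh_Xt_eq (hy : 1 / 2 ≤ y) : Xt y = Xf y := by
  unfold Xt Xf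
  rw [w0_sgY_N hy]

theorem ld_sh_Xt_SiF (hr : 0 < r) (hr1 : r ≤ 1) (hy : y ∈ Icc (0 : ℝ) 1) (hX : Xf y ≤ 1 / 10) :
    Xt (SiF r y) = r * Xt y := by
  obtain ⟨-, h2, e, -⟩ := ld_sh_SiF_geom hr hr1 hy
  have h1 := ld_sh_half_le hy hX
  rw [ld_sh_Xt_eq (h1.trans h2), ld_sh_Xt_eq h1, e]

theorem ld_sh_Th_sc (hr : 0 < r) (hr1 : r ≤ 1) (hy : y ∈ Icc (0 : ℝ) 1) (hX : Xf y ≤ 1 / 10) :
    Th t (SiF r y) = r * Th (t / r) y := by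
  unfold Th
  rw [ld_sh_Xt_SiF hr hr1 hy hX]
  field_simp

theorem ld_sh_ell2_sc (hq : 100 ≤ q) (hr : 0 < r) (hr1 : r ≤ 1) (ht : t < 0) : ell2 q t ≤ r * ell2 q (t / r) := by
  obtain ⟨h2, h3⟩ := bAl_bounds hq
  have hg : 1 ≤ 2 * gaF q := by
    unfold gaF
    have h0 : 0 < bAl q := by linarith
    have : 1 ≤ 8 / bAl q := by
      rw [le_div_iff₀ h0]
      linarith
    linarith
  have hL : 0 < -(t / r) := by
    have : t / r < 0 := div_neg_of_neg_of_pos ht hr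
    linarith
  have e : -t = r * -(t / r) := by
    field_simp
  have h1 : r ^ (2 * gaF q) ≤ r := by
    have := Real.rpow_le_rpow_of_exponent_ge hr hr1 hg
    rwa [Real.rpow_one] at this
  have hc : 0 ≤ (q - 1) / 100 := by linarith
  have hp : 0 ≤ (-(t / r)) ^ (2 * gaF q) := Real.rpow_nonneg hL.le _
  unfold ell2 lam2
  rw [e, Real.mul_rpow hr.le hL.le]
  calc (q - 1) / 100 * (r ^ (2 * gaF q) * (-(t / r)) ^ (2 * gaF q))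
      = r ^ (2 * gaF q) * ((q - 1) / 100 * (-(t / r)) ^ (2 * gaF q)) := by ring
    _ ≤ r * ((q - 1) / 100 * (-(t / r)) ^ (2 * gaF q)) :=
        mul_le_mul_of_nonneg_right h1 (mul_nonneg hc hp)

theorem ld_sh_rh2_sc (hq : 100 ≤ q) (hr : 0 < r) (hr1 : r ≤ 1) (ht : t < 0) (hy : y ∈ Icc (0 : ℝ) 1) (hX : Xf y ≤ 1 / 10) :
    rh2 q t (SiF r y) ≤ r * rh2 q (t / r) y := by
  have h := ld_sh_ell2_sc hq hr hr1 ht
  unfold rh2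
  rw [ld_sh_Xt_SiF hr hr1 hy hX]
  linarith

theorem ld_sh_wH_sc_aux (hq : 100 ≤ q) (hr : 0 < r) (hr1 : r ≤ 1) (ht : t < 0) (hy : y ∈ Icc (0 : ℝ) 1)
    (hX : Xf y ≤ 1 / 10) (ν : ℝ) (a M : ℕ) (hν : ν + (a : ℝ) - (M : ℝ) = -(3 / 2)) :
    (-t) ^ ν * wH a M q t (SiF r y) ≤ r ^ (-(3 / 2) : ℝ) * ((-(t / r)) ^ ν * wH a M q (t / r) y) := by
  have hq1 : (1 : ℝ) < q := by linarith
  have ht2 : t / r < 0 := div_neg_of_neg_of_pos ht hr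
  have hL : 0 < -(t / r) := by linarith
  have e : -t = r * -(t / r) := by
    field_simp
  obtain ⟨hS1, -, -, -⟩ := ld_sh_SiF_geom hr hr1 hy
  have hS' : SiF r y ∈ Icc (-1 : ℝ) 1 := ⟨by linarith [hS1.1], hS1.2⟩
  have hy' : y ∈ Icc (-1 : ℝ) 1 := ⟨by linarith [hy.1], hy.2⟩
  have hr1' := w0_rh2_pos hq1 ht hS'
  have hT2 := w0_Th_pos ht2 hy'
  have hr2 := w0_rh2_pos hq1 ht2 hy'
  have hpow : rh2 q t (SiF r y) ^ a ≤ r ^ a * rh2 q (t / r) y ^ a := by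
    rw [← mul_pow]
    exact pow_le_pow_left₀ hr1'.le (ld_sh_rh2_sc hq hr hr1 ht hy hX) a
  have hrr : r ^ (-(3 / 2) : ℝ) = r ^ ν * r ^ a / r ^ M := by
    rw [← Real.rpow_natCast r a, ← Real.rpow_natCast r M, ← Real.rpow_add hr, ← Real.rpow_sub hr, hν]
  have hLν : 0 < (-(t / r)) ^ ν := Real.rpow_pos_of_pos hL _
  have hrν : 0 < r ^ ν := Real.rpow_pos_of_pos hr _
  unfold wH
  rw [ld_sh_Th_sc hr hr1 hy hX, mul_pow, hrr]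
  have e3 : (-t) ^ ν = r ^ ν * (-(t / r)) ^ ν := by
    rw [e, Real.mul_rpow hr.le hL.le]
  rw [e3]
  have hden : 0 < r ^ M * Th (t / r) y ^ M := by positivity
  calc r ^ ν * (-(t / r)) ^ ν * (rh2 q t (SiF r y) ^ a / (r ^ M * Th (t / r) y ^ M))
      ≤ r ^ ν * (-(t / r)) ^ ν * (r ^ a * rh2 q (t / r) y ^ a / (r ^ M * Th (t / r) y ^ M)) := by
        refine mul_le_mul_of_nonneg_left ?_ (mul_pos hrν hLν).le
        exact div_le_div_of_nonneg_right hpow hden.le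
    _ = r ^ ν * r ^ a / r ^ M * ((-(t / r)) ^ ν * (rh2 q (t / r) y ^ a / Th (t / r) y ^ M)) := by
        field_simp

theorem ld_sh_wH_scB (hq : 100 ≤ q) (hr : 0 < r) (hr1 : r ≤ 1) (ht : t < 0) (hy : y ∈ Icc (0 : ℝ) 1) (hX : Xf y ≤ 1 / 10) :
    (-t) ^ ((95 : ℝ) / 2) * wH 3 52 q t (SiF r y)
      ≤ r ^ (-(3 / 2) : ℝ) * ((-(t / r)) ^ ((95 : ℝ) / 2) * wH 3 52 q (t / r) y) :=
  ld_sh_wH_sc_aux hq hr hr1 ht hy hX _ 3 52 (by norm_num)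

theorem ld_sh_wH_scA (hq : 100 ≤ q) (hr : 0 < r) (hr1 : r ≤ 1) (ht : t < 0) (hy : y ∈ Icc (0 : ℝ) 1) (hX : Xf y ≤ 1 / 10) :
    (-t) ^ ((61 : ℝ) / 2) * wH 2 34 q t (SiF r y)
      ≤ r ^ (-(3 / 2) : ℝ) * ((-(t / r)) ^ ((61 : ℝ) / 2) * wH 2 34 q (t / r) y) :=
  ld_sh_wH_sc_aux hq hr hr1 ht hy hX _ 2 34 (by norm_num)

theorem ld_sh_JJ_wt (hq : 100 ≤ q) : ∃ C : ℝ, 0 ≤ C ∧ ∀ t ∈ Ico (-1 : ℝ) 0, ∀ y ∈ Icc (-1 : ℝ) 1,
    (-t) ^ ((95 : ℝ) / 2) * wH 3 52 q t y * JJ q t y ^ 2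
      ≤ C * (-t) ^ 2 * ((-t) ^ ((61 : ℝ) / 2) * wH 2 34 q t y) := by
  obtain ⟨ha2, ha3⟩ := bAl_bounds hq
  have hc0 : 0 < (q - 1) / 100 := by
    have : 0 < q - 1 := by linarith
    positivity
  refine ⟨((q - 1) / 100) ^ (1 - bAl q), (Real.rpow_pos_of_pos hc0 _).le, ?_⟩
  intro t ht y hy
  have ht0 : t < 0 := ht.2
  have hL : 0 < -t := by linarith
  have hL1 : -t ≤ 1 := by linarith [ht.1]
  have hq1 : 1 < q := by linarith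
  have hρ : 0 < rh2 q t y := w0_rh2_pos hq1 ht0 hy
  have hΘ : 0 < Th t y := w0_Th_pos ht0 hy
  have hLΘ : -t ≤ Th t y := w0_Lam_le_Th hy
  have hℓ : 0 < ell2 q t := w0_ell2_pos hq1 ht0
  have hℓρ : ell2 q t ≤ rh2 q t y := by
    have := (Xt_nonneg hy.1 hy.2).1
    unfold rh2
    linarith
  -- powers of Λ
  have e95 : (-t) ^ ((95 : ℝ) / 2) = (-t) ^ ((61 : ℝ) / 2) * (-t) ^ 17 := by
    rw [← Real.rpow_natCast (-t) 17, ← Real.rpow_add hL]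
    norm_num
  have eJ : (rh2 q t y ^ (-(alF q) / 2)) ^ 2 = rh2 q t y ^ (-(bAl q)) := by
    rw [← Real.rpow_natCast _ 2, ← Real.rpow_mul hρ.le]
    congr 1
    unfold alF
    push_cast
    ring
  have e1 : rh2 q t y * rh2 q t y ^ (-(bAl q)) = rh2 q t y ^ (1 - bAl q) := by
    rw [sub_eq_add_neg, Real.rpow_add hρ, Real.rpow_one]
  have h1 : rh2 q t y ^ (1 - bAl q) ≤ ell2 q t ^ (1 - bAl q) :=
    Real.rpow_le_rpow_of_nonpos hℓ hℓρ (by linarith)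
  have e2 : ell2 q t ^ (1 - bAl q)
      = ((q - 1) / 100) ^ (1 - bAl q) * (-t) ^ (2 * gaF q * (1 - bAl q)) := by
    unfold ell2 lam2
    rw [Real.mul_rpow hc0.le (Real.rpow_nonneg hL.le _), ← Real.rpow_mul hL.le]
  have e3 : (-t) ^ 17 * (-t) ^ (2 * gaF q * (1 - bAl q)) = (-t) ^ (2 * gaF q + 1) := by
    rw [← Real.rpow_natCast (-t) 17, ← Real.rpow_add hL]
    congr 1
    unfold gaF
    have : bAl q ≠ 0 := by linarith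
    field_simp
    push_cast
    ring
  have h2 : (-t) ^ (2 * gaF q + 1) ≤ (-t) ^ 4 := by
    rw [← Real.rpow_natCast (-t) 4]
    refine Real.rpow_le_rpow_of_exponent_ge hL hL1 ?_
    have : (3 : ℝ) / 2 ≤ gaF q := by
      unfold gaF
      rw [le_div_iff₀ (by linarith)]
      linarith
    push_cast
    linarith
  have h3 : (-t) ^ 4 ≤ (-t) ^ 2 * Th t y ^ 2 := by
    have : (-t) ^ 2 ≤ Th t y ^ 2 := pow_le_pow_left₀ hL.le hLΘ 2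
    calc (-t) ^ 4 = (-t) ^ 2 * (-t) ^ 2 := by ring
      _ ≤ (-t) ^ 2 * Th t y ^ 2 := mul_le_mul_of_nonneg_left this (by positivity)
  have hC : 0 < ((q - 1) / 100) ^ (1 - bAl q) := Real.rpow_pos_of_pos hc0 _
  have key : (-t) ^ 17 * (rh2 q t y * rh2 q t y ^ (-(bAl q)))
      ≤ ((q - 1) / 100) ^ (1 - bAl q) * (-t) ^ 2 * Th t y ^ 2 := by
    rw [e1]
    calc (-t) ^ 17 * rh2 q t y ^ (1 - bAl q)
        ≤ (-t) ^ 17 * ell2 q t ^ (1 - bAl q) := mul_le_mul_of_nonneg_left h1 (by positivity)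
      _ = ((q - 1) / 100) ^ (1 - bAl q) * ((-t) ^ 17 * (-t) ^ (2 * gaF q * (1 - bAl q))) := by
          rw [e2]; ring
      _ = ((q - 1) / 100) ^ (1 - bAl q) * (-t) ^ (2 * gaF q + 1) := by rw [e3]
      _ ≤ ((q - 1) / 100) ^ (1 - bAl q) * ((-t) ^ 2 * Th t y ^ 2) :=
          mul_le_mul_of_nonneg_left (h2.trans h3) hC.le
      _ = ((q - 1) / 100) ^ (1 - bAl q) * (-t) ^ 2 * Th t y ^ 2 := by ring
  have hP : 0 < (-t) ^ ((61 : ℝ) / 2) := Real.rpow_pos_of_pos hL _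
  have eL : (-t) ^ ((95 : ℝ) / 2) * wH 3 52 q t y * JJ q t y ^ 2
      = ((-t) ^ ((61 : ℝ) / 2) * wH 2 34 q t y)
        * (((-t) ^ 17 * (rh2 q t y * rh2 q t y ^ (-(bAl q)))) / Th t y ^ 2) := by
    unfold JJ wH
    rw [mul_pow, eJ, e95]
    field_simp
  rw [eL]
  have hW : 0 < (-t) ^ ((61 : ℝ) / 2) * wH 2 34 q t y := mul_pos hP (w0_wH_pos hq1 ht0 hy)
  have key2 : ((-t) ^ 17 * (rh2 q t y * rh2 q t y ^ (-(bAl q)))) / Th t y ^ 2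
      ≤ ((q - 1) / 100) ^ (1 - bAl q) * (-t) ^ 2 := by
    rw [div_le_iff₀ (by positivity)]
    exact key
  calc ((-t) ^ ((61 : ℝ) / 2) * wH 2 34 q t y)
        * (((-t) ^ 17 * (rh2 q t y * rh2 q t y ^ (-(bAl q)))) / Th t y ^ 2)
      ≤ ((-t) ^ ((61 : ℝ) / 2) * wH 2 34 q t y) * (((q - 1) / 100) ^ (1 - bAl q) * (-t) ^ 2) :=
        mul_le_mul_of_nonneg_left key2 hW.le
    _ = ((q - 1) / 100) ^ (1 - bAl q) * (-t) ^ 2 * ((-t) ^ ((61 : ℝ) / 2) * wH 2 34 q t y) := by ring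

theorem ld_sh_zone_wt (hq : 100 ≤ q) : ∃ C : ℝ, 0 ≤ C ∧ ∀ t : ℝ, t < 0 → -t ≤ 100 / q → ∀ y ∈ Icc (1 / 2 : ℝ) 1, 1 / 20 ≤ Xf y →
    (-t) ^ ((95 : ℝ) / 2) * wH 3 52 q t y ≤ C * (-t) ^ 2 * ((-t) ^ ((61 : ℝ) / 2) * wH 2 34 q t y) := by
  refine ⟨20 ^ 17, by positivity, ?_⟩
  intro t ht0 htq y hy hX
  have hq0 : 0 < q := by linarith
  have hq1 : 1 < q := by linarith
  have hL : 0 < -t := by linarith
  have hL1 : -t ≤ 1 := by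
    refine htq.trans ?_
    rw [div_le_one hq0]
    exact hq
  have hy' : y ∈ Icc (-1 : ℝ) 1 := ⟨by linarith [hy.1], hy.2⟩
  have hρ : 0 < rh2 q t y := w0_rh2_pos hq1 ht0 hy'
  have hΘ : 0 < Th t y := w0_Th_pos ht0 hy'
  have hρΘ : rh2 q t y ≤ Th t y := w0_rh2_le_Th hq ht0 htq y
  have hΘ20 : 1 / 20 ≤ Th t y := by
    unfold Th
    rw [Xt_eq hy.1]
    linarith
  have e95 : (-t) ^ ((95 : ℝ) / 2) = (-t) ^ ((61 : ℝ) / 2) * (-t) ^ 17 := by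
    rw [← Real.rpow_natCast (-t) 17, ← Real.rpow_add hL]
    norm_num
  have hP : 0 < (-t) ^ ((61 : ℝ) / 2) := Real.rpow_pos_of_pos hL _
  have hW : 0 < (-t) ^ ((61 : ℝ) / 2) * wH 2 34 q t y := mul_pos hP (w0_wH_pos hq1 ht0 hy')
  have eL : (-t) ^ ((95 : ℝ) / 2) * wH 3 52 q t y
      = ((-t) ^ ((61 : ℝ) / 2) * wH 2 34 q t y) * ((-t) ^ 17 * (rh2 q t y / Th t y ^ 18)) := by
    unfold wH
    rw [e95]
    field_simp
  have h1 : (-t) ^ 17 ≤ (-t) ^ 2 := pow_le_pow_of_le_one hL.le hL1 (by norm_num)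
  have h2 : rh2 q t y / Th t y ^ 18 ≤ 20 ^ 17 := by
    rw [div_le_iff₀ (by positivity)]
    have h3 : (1 : ℝ) ≤ 20 * Th t y := by linarith
    have h4 : (1 : ℝ) ≤ (20 * Th t y) ^ 17 := one_le_pow₀ h3
    calc rh2 q t y ≤ Th t y := hρΘ
      _ = 1 * Th t y := by ring
      _ ≤ (20 * Th t y) ^ 17 * Th t y := mul_le_mul_of_nonneg_right h4 hΘ.le
      _ = 20 ^ 17 * Th t y ^ 18 := by ring
  rw [eL]
  have h5 : (-t) ^ 17 * (rh2 q t y / Th t y ^ 18) ≤ (-t) ^ 2 * 20 ^ 17 :=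
    mul_le_mul h1 h2 (by positivity) (by positivity)
  calc ((-t) ^ ((61 : ℝ) / 2) * wH 2 34 q t y) * ((-t) ^ 17 * (rh2 q t y / Th t y ^ 18))
      ≤ ((-t) ^ ((61 : ℝ) / 2) * wH 2 34 q t y) * ((-t) ^ 2 * 20 ^ 17) :=
        mul_le_mul_of_nonneg_left h5 hW.le
    _ = 20 ^ 17 * (-t) ^ 2 * ((-t) ^ ((61 : ℝ) / 2) * wH 2 34 q t y) := by ring

/-- **the weight inequality of the shift.** -/
theorem ld_sh_wt (hq : 100 ≤ q) : ∃ C : ℝ, 0 ≤ C ∧ ∀ r : ℝ, 0 < r → r ≤ 1 → ∀ t : ℝ, t / r ∈ Ico (-(100 / q)) 0 →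
    ∀ y ∈ Icc (0 : ℝ) 1, Xf y ≤ 9 / 100 →
    (-t) ^ ((95 : ℝ) / 2) * wH 3 52 q t (SiF r y) * (jjS q r t (SiF r y) + zS r (SiF r y)) ^ 2
      ≤ C * r ^ (-(3 / 2) : ℝ) * (t / r) ^ 2 * ((-(t / r)) ^ ((61 : ℝ) / 2) * wH 2 34 q (t / r) y) := by
  obtain ⟨C1, hC1, hJ⟩ := ld_sh_JJ_wt hq
  obtain ⟨C2, hC2, hZ⟩ := ld_sh_zone_wt hq
  refine ⟨3 * (2 * C1 + C2), by positivity, ?_⟩
  intro r hr hr1 t ht2 y hy hX9
  have hq1 : (1 : ℝ) < q := by linarith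
  have hq0 : (0 : ℝ) < q := by linarith
  have hX : Xf y ≤ 1 / 10 := by linarith
  have h100 : 100 / q ≤ 1 := by rw [div_le_one hq0]; exact hq
  have ht2neg : t / r < 0 := ht2.2
  have ht : t < 0 := by
    have := mul_neg_of_neg_of_pos ht2neg hr
    rwa [div_mul_cancel₀ _ hr.ne'] at this
  have htr : -t ≤ -(t / r) := by
    have h1 : t = r * (t / r) := by field_simp
    have h2 : 0 ≤ (1 - r) * (-(t / r)) := mul_nonneg (by linarith) (by linarith)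
    nlinarith
  have ht2I : t / r ∈ Ico (-1 : ℝ) 0 := ⟨by linarith [ht2.1], ht2.2⟩
  have htI : t ∈ Ico (-1 : ℝ) 0 := ⟨by linarith [ht2.1], ht⟩
  obtain ⟨hS, -, -, hSX⟩ := ld_sh_SiF_geom hr hr1 hy
  have hS1 : SiF r y ∈ Icc (-1 : ℝ) 1 := ⟨by linarith [hS.1], hS.2⟩
  have hy1 : y ∈ Icc (-1 : ℝ) 1 := ⟨by linarith [hy.1], hy.2⟩
  have hyh : y ∈ Icc (1 / 2 : ℝ) 1 := by
    refine ⟨?_, hy.2⟩
    unfold Xf at hX9
    nlinarith [hy.1]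
  have hSc := ld_sh_ScF_SiF hr hr1 hy hX
  have hB := ld_sh_wH_scB hq hr hr1 ht hy hX
  have hA := ld_sh_wH_scA hq hr hr1 ht hy hX
  have hJ2 := hJ (t / r) ht2I y hy1
  have hJ1 := hJ t htI (SiF r y) hS1
  set W1B := (-t) ^ ((95 : ℝ) / 2) * wH 3 52 q t (SiF r y) with hW1B
  set W2B := (-(t / r)) ^ ((95 : ℝ) / 2) * wH 3 52 q (t / r) y with hW2B
  set W1A := (-t) ^ ((61 : ℝ) / 2) * wH 2 34 q t (SiF r y) with hW1A
  set W2A := (-(t / r)) ^ ((61 : ℝ) / 2) * wH 2 34 q (t / r) y with hW2A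
  set R := r ^ (-(3 / 2) : ℝ) with hR
  have hRpos : 0 < R := Real.rpow_pos_of_pos hr _
  have hW1B0 : 0 ≤ W1B :=
    mul_nonneg (Real.rpow_nonneg (by linarith) _) (w0_wH_pos hq1 ht hS1).le
  have hW2A0 : 0 ≤ W2A :=
    mul_nonneg (Real.rpow_nonneg (by linarith) _) (w0_wH_pos hq1 ht2neg hy1).le
  have hsq : (-(t / r)) ^ 2 = (t / r) ^ 2 := by ring
  have hsqle : (-t) ^ 2 ≤ (t / r) ^ 2 := by
    rw [← hsq]; exact pow_le_pow_left₀ (by linarith) htr 2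
  set T2 := (t / r) ^ 2 with hT2
  have hT20 : 0 ≤ T2 := by positivity
  set a := JJ q (t / r) y with ha
  set b := JJ q t (SiF r y) with hb
  set c := zS r (SiF r y) with hc
  have hjj : jjS q r t (SiF r y) = a + b := by
    unfold jjS; rw [hSc]
  -- the three terms
  have ta : W1B * a ^ 2 ≤ C1 * R * T2 * W2A := by
    calc W1B * a ^ 2 ≤ (R * W2B) * a ^ 2 := mul_le_mul_of_nonneg_right hB (by positivity)
      _ = R * (W2B * a ^ 2) := by ring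
      _ ≤ R * (C1 * (-(t / r)) ^ 2 * W2A) := mul_le_mul_of_nonneg_left hJ2 hRpos.le
      _ = C1 * R * T2 * W2A := by rw [hsq]; ring
  have tb : W1B * b ^ 2 ≤ C1 * R * T2 * W2A := by
    calc W1B * b ^ 2 ≤ C1 * (-t) ^ 2 * W1A := hJ1
      _ ≤ C1 * (-t) ^ 2 * (R * W2A) := mul_le_mul_of_nonneg_left hA (by positivity)
      _ ≤ C1 * T2 * (R * W2A) := by
          refine mul_le_mul_of_nonneg_right ?_ (by positivity)
          exact mul_le_mul_of_nonneg_left hsqle hC1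
      _ = C1 * R * T2 * W2A := by ring
  have tc : W1B * c ^ 2 ≤ C2 * R * T2 * W2A := by
    by_cases hz : 1 / 20 ≤ Xf y
    · have hc1 : c = 1 := by
        rw [hc]; unfold zS; rw [hSX, if_pos hz]
      have hZ2 := hZ (t / r) ht2neg (by linarith [ht2.1]) y hyh hz
      calc W1B * c ^ 2 = W1B := by rw [hc1]; ring
        _ ≤ R * W2B := hB
        _ ≤ R * (C2 * (-(t / r)) ^ 2 * W2A) := mul_le_mul_of_nonneg_left hZ2 hRpos.le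
        _ = C2 * R * T2 * W2A := by rw [hsq]; ring
    · have hc0 : c = 0 := by
        rw [hc]; unfold zS; rw [hSX, if_neg hz]
      rw [hc0]
      have : 0 ≤ C2 * R * T2 * W2A := by positivity
      simpa using this
  have h3 : (a + b + c) ^ 2 ≤ 3 * (a ^ 2 + b ^ 2 + c ^ 2) := by
    nlinarith [sq_nonneg (a - b), sq_nonneg (a - c), sq_nonneg (b - c)]
  rw [hjj]
  calc W1B * (a + b + c) ^ 2 ≤ W1B * (3 * (a ^ 2 + b ^ 2 + c ^ 2)) := mul_le_mul_of_nonneg_left h3 hW1B0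
    _ = 3 * (W1B * a ^ 2 + W1B * b ^ 2 + W1B * c ^ 2) := by ring
    _ ≤ 3 * (C1 * R * T2 * W2A + C1 * R * T2 * W2A + C2 * R * T2 * W2A) := by linarith
    _ = 3 * (2 * C1 + C2) * R * T2 * W2A := by ring

end

end Claimed.Agent.R324.Core
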