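/-
Row 324 (S0582), PDE core, module LD.   Blueprint 7.4, tag LD6 "shift".      FILE LD/ShCV      (helper325)
   𝕀[f] = II f = ∫_0^π f(cos ϑ) dϑ  (Core/Defs.lean, Core/W/Ibp.lean),   X = Xf y = 1 - y²,  `CI f` = continuous on [-1,1],   SiF r y = √(1 - r X(y))  (Core/LD/ShWt.lean).
CHANGE OF VARIABLES IN 𝕀.      0 < r ≤ 1.     Φ ≥ 0 continuous on [-1,1], Φ(y) = 0 unless y > 0 and X(y) < r/10.      Then       𝕀[Φ] ≤ √r ∫_0^{π/2} Φ(SiF r (cos ϑ)) dϑ.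
PROOF.   ϑ₁ := arcsin √(1/10) ∈ (0, π/2),     f(ϑ) := arcsin(√r sin ϑ) on [0, ϑ₁]:   √r sin ϑ ≤ √(1/10) < 1, so f is differentiable (`Real.hasDerivAt_arcsin`, needs the argument ≠ ±1), f'(ϑ) = √r cos ϑ/√(1 - r sin²ϑ),   0 ≤ f' ≤ √r  (cos²ϑ = 1 - sin²ϑ ≤ 1 - r sin²ϑ),   f' continuous;
      cos(f ϑ) = √(1 - r sin²ϑ) = SiF r (cos ϑ)    (`Real.cos_arcsin`,  Xf (cos ϑ) = sin²ϑ).
   (a) `intervalIntegral.integral_comp_mul_deriv''` (or `integral_comp_mul_deriv`):    ∫_0^{ϑ₁} Φ(cos (f ϑ)) f'(ϑ) dϑ = ∫_0^{f ϑ₁} Φ(cos ϑ') dϑ',    f 0 = 0,  f ϑ₁ = arcsin √(r/10).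
   (b) for ϑ' ∈ [f ϑ₁, π]:   either cos ϑ' ≤ 0 or  (ϑ' ≤ π/2 and) sin²ϑ' ≥ r/10 (monotonicity of sin on [0,π/2]), i.e. X(cos ϑ') ≥ r/10;  so Φ(cos ϑ') = 0 and 𝕀[Φ] = ∫_0^{f ϑ₁} Φ(cos ϑ') dϑ'   (`intervalIntegral.integral_add_adjacent_intervals`, `intervalIntegral.integral_congr`/`integral_zero_ae`).
   (c) Φ(cos(f ϑ)) f'(ϑ) ≤ √r Φ(SiF r (cos ϑ))  (`intervalIntegral.integral_mono_on`),  and ∫_0^{ϑ₁} ≤ ∫_0^{π/2} because the integrand is ≥ 0 (SiF r (cos ϑ) ∈ [0,1] for ϑ ∈ [0,π/2]).       Continuity of ϑ ↦ Φ(SiF r (cos ϑ)) on [0, π/2]: `ContinuousOn.comp`.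
* `ld_sh_half`:  ∫_0^π = ∫_0^{π/2} + ∫_{π/2}^π,  the second integral is ≥ 0  (`ii_integrable`).
-/
import Claimed.Agent.R324.Core.LD.ShWt

set_option autoImplicit false

namespace Claimed.Agent.R324.Core

open Set Filter Topology MeasureTheory
open scoped ContDiff

noncomputable section

variable {r : ℝ} {Φ G : ℝ → ℝ}

theorem ld_sh_cv (hr : 0 < r) (hr1 : r ≤ 1) (hΦ : CI Φ) (h0 : ∀ y ∈ Icc (-1 : ℝ) 1, 0 ≤ Φ y)
    (hsupp : ∀ y ∈ Icc (-1 : ℝ) 1, (y ≤ 0 ∨ r / 10 ≤ Xf y) → Φ y = 0) :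
    II Φ ≤ Real.sqrt r * ∫ ϑ in (0 : ℝ)..(Real.pi / 2), Φ (SiF r (Real.cos ϑ)) := by
  set s := Real.sqrt r with hs
  have hs0 : 0 < s := Real.sqrt_pos.2 hr
  have hss : s ^ 2 = r := Real.sq_sqrt hr.le
  have hs1 : s ≤ 1 := by nlinarith
  set c := Real.sqrt (1 / 10) with hc
  have hc0 : 0 < c := Real.sqrt_pos.2 (by norm_num)
  have hcc : c ^ 2 = 1 / 10 := Real.sq_sqrt (by norm_num)
  have hc1 : c < 1 := by nlinarith
  set ϑ₁ := Real.arcsin c with hϑ₁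
  have hpi := Real.pi_pos
  have hϑ0 : 0 ≤ ϑ₁ := Real.arcsin_nonneg.2 hc0.le
  have hϑ2 : ϑ₁ ≤ Real.pi / 2 := Real.arcsin_le_pi_div_two c
  have hsinϑ₁ : Real.sin ϑ₁ = c := Real.sin_arcsin (by linarith) hc1.le
  have hsin : ∀ ϑ ∈ Icc (0 : ℝ) ϑ₁, 0 ≤ Real.sin ϑ ∧ Real.sin ϑ ≤ c := by
    intro ϑ hϑ
    refine ⟨Real.sin_nonneg_of_nonneg_of_le_pi hϑ.1 (by linarith [hϑ.2]), ?_⟩
    rw [← hsinϑ₁]
    exact Real.sin_le_sin_of_le_of_le_pi_div_two (by linarith [hϑ.1]) hϑ2 hϑ.2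
  have hssin : ∀ ϑ ∈ Icc (0 : ℝ) ϑ₁, 0 ≤ s * Real.sin ϑ ∧ s * Real.sin ϑ ≤ c := by
    intro ϑ hϑ
    obtain ⟨h1, h2⟩ := hsin ϑ hϑ
    exact ⟨mul_nonneg hs0.le h1, by nlinarith⟩
  have hden : ∀ ϑ ∈ Icc (0 : ℝ) ϑ₁, 0 < 1 - (s * Real.sin ϑ) ^ 2 := by
    intro ϑ hϑ
    obtain ⟨h1, h2⟩ := hssin ϑ hϑ
    nlinarith
  set f : ℝ → ℝ := fun ϑ => Real.arcsin (s * Real.sin ϑ) with hf
  set f' : ℝ → ℝ := fun ϑ => 1 / Real.sqrt (1 - (s * Real.sin ϑ) ^ 2) * (s * Real.cos ϑ) with hf'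
  have hu : uIcc (0 : ℝ) ϑ₁ = Icc 0 ϑ₁ := uIcc_of_le hϑ0
  have hderiv : ∀ ϑ ∈ uIcc (0 : ℝ) ϑ₁, HasDerivAt f (f' ϑ) ϑ := by
    intro ϑ hϑ
    rw [hu] at hϑ
    obtain ⟨h1, h2⟩ := hssin ϑ hϑ
    exact (Real.hasDerivAt_arcsin (by linarith) (by linarith)).comp ϑ
      ((Real.hasDerivAt_sin ϑ).const_mul s)
  have hf'c : ContinuousOn f' (uIcc (0 : ℝ) ϑ₁) := by
    rw [hu]
    refine ContinuousOn.mul (ContinuousOn.div continuousOn_const ?_ ?_) (by fun_prop)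
    · fun_prop
    · intro ϑ hϑ
      exact (Real.sqrt_pos.2 (hden ϑ hϑ)).ne'
  have hgc : Continuous (fun u => Φ (Real.cos u)) := ii_continuous hΦ
  have hcv := intervalIntegral.integral_comp_mul_deriv hderiv hf'c hgc
  have hf0 : f 0 = 0 := by simp [hf]
  set β := f ϑ₁ with hβ
  have hβe : β = Real.arcsin (s * c) := by rw [hβ, hf]; simp only [hsinϑ₁]
  have hsc0 : 0 ≤ s * c := by positivity
  have hsc1 : s * c ≤ 1 := by nlinarith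
  have hβ0 : 0 ≤ β := by rw [hβe]; exact Real.arcsin_nonneg.2 hsc0
  have hβ2 : β ≤ Real.pi / 2 := by rw [hβe]; exact Real.arcsin_le_pi_div_two _
  have hsinβ : Real.sin β = s * c := by rw [hβe]; exact Real.sin_arcsin (by linarith) hsc1
  rw [hf0] at hcv
  -- (b)
  have hzero : ∫ u in β..Real.pi, Φ (Real.cos u) = 0 := by
    have : ∀ u ∈ uIcc β Real.pi, Φ (Real.cos u) = (fun _ => (0 : ℝ)) u := by
      intro u hu'
      rw [uIcc_of_le (by linarith)] at hu'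
      refine hsupp _ (cos_mem_Icc u) ?_
      rcases le_total (Real.pi / 2) u with h | h
      · left
        exact Real.cos_nonpos_of_pi_div_two_le_of_le h (by linarith [hu'.2])
      · right
        have h1 : s * c ≤ Real.sin u := by
          rw [← hsinβ]
          exact Real.sin_le_sin_of_le_of_le_pi_div_two (by linarith) h hu'.1
        have h2 : Xf (Real.cos u) = Real.sin u ^ 2 := by
          unfold Xf
          linarith [Real.sin_sq_add_cos_sq u]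
        rw [h2]
        have h3 : (s * c) ^ 2 = r / 10 := by rw [mul_pow, hss, hcc]; ring
        rw [← h3]
        exact pow_le_pow_left₀ hsc0 h1 2
    rw [intervalIntegral.integral_congr this]
    simp
  have hII : II Φ = ∫ u in (0 : ℝ)..β, Φ (Real.cos u) := by
    unfold II
    rw [← intervalIntegral.integral_add_adjacent_intervals (ii_integrable hΦ 0 β)
      (ii_integrable hΦ β Real.pi), hzero, add_zero]
  -- continuity of the right-hand integrand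
  have hpi2 : (0 : ℝ) ≤ Real.pi / 2 := by positivity
  have hcos : ∀ ϑ ∈ Icc (0 : ℝ) (Real.pi / 2), Real.cos ϑ ∈ Icc (0 : ℝ) 1 := fun ϑ hϑ =>
    ⟨Real.cos_nonneg_of_neg_pi_div_two_le_of_le (by linarith [hϑ.1]) hϑ.2, Real.cos_le_one ϑ⟩
  have hSm : ∀ ϑ ∈ Icc (0 : ℝ) (Real.pi / 2), SiF r (Real.cos ϑ) ∈ Icc (-1 : ℝ) 1 := by
    intro ϑ hϑ
    have := (ld_sh_SiF_geom hr hr1 (hcos ϑ hϑ)).1
    exact ⟨by linarith [this.1], this.2⟩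
  have hS : ContinuousOn (fun ϑ => Φ (SiF r (Real.cos ϑ))) (Icc (0 : ℝ) (Real.pi / 2)) := by
    refine hΦ.comp (t := Icc (-1 : ℝ) 1) ?_ hSm
    unfold SiF Xf
    fun_prop
  have hI1 : IntervalIntegrable (fun ϑ => Φ (SiF r (Real.cos ϑ))) volume 0 ϑ₁ :=
    (hS.mono (Icc_subset_Icc le_rfl hϑ2)).intervalIntegrable_of_Icc hϑ0
  have hI2 : IntervalIntegrable (fun ϑ => Φ (SiF r (Real.cos ϑ))) volume ϑ₁ (Real.pi / 2) :=
    (hS.mono (Icc_subset_Icc hϑ0 le_rfl)).intervalIntegrable_of_Icc hϑ2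
  -- (c)
  have hLc : ContinuousOn (fun x => ((fun u => Φ (Real.cos u)) ∘ f) x * f' x) (Icc (0 : ℝ) ϑ₁) := by
    refine ContinuousOn.mul ?_ (hu ▸ hf'c)
    refine (hgc.comp_continuousOn ?_)
    intro ϑ hϑ
    exact (hderiv ϑ (hu ▸ hϑ)).continuousAt.continuousWithinAt
  have hmono : ∫ x in (0 : ℝ)..ϑ₁, ((fun u => Φ (Real.cos u)) ∘ f) x * f' x
      ≤ ∫ ϑ in (0 : ℝ)..ϑ₁, s * Φ (SiF r (Real.cos ϑ)) := by
    refine intervalIntegral.integral_mono_on hϑ0 (hLc.intervalIntegrable_of_Icc hϑ0)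
      (hI1.const_mul s) (fun ϑ hϑ => ?_)
    have hd := hden ϑ hϑ
    have hϑ' : ϑ ∈ Icc (0 : ℝ) (Real.pi / 2) := ⟨hϑ.1, hϑ.2.trans hϑ2⟩
    have hcosf : Real.cos (f ϑ) = SiF r (Real.cos ϑ) := by
      rw [hf]
      simp only [Real.cos_arcsin]
      unfold SiF Xf
      congr 1
      rw [mul_pow, hss]
      have := Real.sin_sq_add_cos_sq ϑ
      have h2 : Real.sin ϑ ^ 2 = 1 - Real.cos ϑ ^ 2 := by linarith
      rw [h2]
    have hΦ0 : 0 ≤ Φ (SiF r (Real.cos ϑ)) := h0 _ (hSm ϑ hϑ')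
    have hc0' : 0 ≤ Real.cos ϑ := (hcos ϑ hϑ').1
    have hf's : f' ϑ ≤ s := by
      have hsq : Real.cos ϑ ≤ Real.sqrt (1 - (s * Real.sin ϑ) ^ 2) := by
        apply Real.le_sqrt_of_sq_le
        rw [mul_pow, hss]
        have := Real.sin_sq_add_cos_sq ϑ
        nlinarith [sq_nonneg (Real.sin ϑ)]
      have hsp := Real.sqrt_pos.2 hd
      rw [hf']
      simp only []
      rw [one_div, inv_mul_le_iff₀ hsp]
      nlinarith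
    show Φ (Real.cos (f ϑ)) * f' ϑ ≤ s * Φ (SiF r (Real.cos ϑ))
    rw [hcosf, mul_comm s]
    exact mul_le_mul_of_nonneg_left hf's hΦ0
  have hrest : 0 ≤ ∫ ϑ in ϑ₁..(Real.pi / 2), Φ (SiF r (Real.cos ϑ)) :=
    intervalIntegral.integral_nonneg hϑ2 (fun ϑ hϑ => h0 _ (hSm ϑ ⟨hϑ0.trans hϑ.1, hϑ.2⟩))
  rw [hII, ← hcv, ← intervalIntegral.integral_add_adjacent_intervals hI1 hI2]
  refine hmono.trans ?_
  rw [intervalIntegral.integral_const_mul]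
  nlinarith

theorem ld_sh_half (hG : CI G) (h0 : ∀ y ∈ Icc (-1 : ℝ) 1, 0 ≤ G y) :
    ∫ ϑ in (0 : ℝ)..(Real.pi / 2), G (Real.cos ϑ) ≤ II G := by
  unfold II
  rw [← intervalIntegral.integral_add_adjacent_intervals (ii_integrable hG 0 (Real.pi / 2))
    (ii_integrable hG (Real.pi / 2) Real.pi)]
  have : 0 ≤ ∫ ϑ in (Real.pi / 2)..Real.pi, G (Real.cos ϑ) :=
    intervalIntegral.integral_nonneg (by linarith [Real.pi_pos]) (fun ϑ _ => h0 _ (cos_mem_Icc ϑ))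
  linarith

/-- comparison form:  `Φ` in frame 1, `G` in frame 2. -/
theorem ld_sh_cv_le (hr : 0 < r) (hr1 : r ≤ 1) (hΦ : CI Φ) (h0 : ∀ y ∈ Icc (-1 : ℝ) 1, 0 ≤ Φ y)
    (hsupp : ∀ y ∈ Icc (-1 : ℝ) 1, (y ≤ 0 ∨ r / 10 ≤ Xf y) → Φ y = 0)
    (hG : CI G) (hG0 : ∀ y ∈ Icc (-1 : ℝ) 1, 0 ≤ G y) (hle : ∀ y ∈ Icc (0 : ℝ) 1, Φ (SiF r y) ≤ G y) :
    II Φ ≤ Real.sqrt r * II G := by
  refine (ld_sh_cv hr hr1 hΦ h0 hsupp).trans (mul_le_mul_of_nonneg_left ?_ (Real.sqrt_nonneg r))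
  refine le_trans ?_ (ld_sh_half hG hG0)
  have hpi : (0 : ℝ) ≤ Real.pi / 2 := by positivity
  have hcos : ∀ ϑ ∈ Icc (0 : ℝ) (Real.pi / 2), Real.cos ϑ ∈ Icc (0 : ℝ) 1 := fun ϑ hϑ =>
    ⟨Real.cos_nonneg_of_neg_pi_div_two_le_of_le (by linarith [hϑ.1]) hϑ.2, Real.cos_le_one ϑ⟩
  have hS : ContinuousOn (fun ϑ => Φ (SiF r (Real.cos ϑ))) (Icc (0 : ℝ) (Real.pi / 2)) := by
    refine hΦ.comp (t := Icc (-1 : ℝ) 1) ?_ (fun ϑ hϑ => ?_)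
    · unfold SiF Xf
      fun_prop
    · have := (ld_sh_SiF_geom hr hr1 (hcos ϑ hϑ)).1
      exact ⟨by linarith [this.1], this.2⟩
  refine intervalIntegral.integral_mono_on hpi (hS.intervalIntegrable_of_Icc hpi) (ii_integrable hG _ _) (fun ϑ hϑ => ?_)
  exact hle _ (hcos ϑ hϑ)

end

end Claimed.Agent.R324.Core
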