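/-
Row 324 (S0582), PDE core, module LD.   Blueprint 7.4, tag LD6 "shift".      FILE LD/ShPert      (helper325)
   X = Xf y = 1 - y²,  tt f = -X f',  ttp f = tt f + y f  (Core/W/TtCalc.lean);   𝕀 = II, `ii_ibp`, `ii_mono`, `ii_add`, `ii_abs_le`, .. (Core/W/Ibp.lean);  `w1_scalar` (Core/W/FormId.lean);   κ = kapJ q,  |ξ|² = nk q ξ,  ⟨ξ,η⟩ = ipK q ξ η (Core/W/FormDefs.lean);   `TB C V` (Core/W/TBa.lean): V > 0, |tt V| ≤ C V.
ABSTRACT PERTURBATION ESTIMATE (no geometry).     A second order operator  P v_i = P2 tt² v_i + P1 tt v_i + Σ_j P0_ij v_j  whose coefficients satisfy |P2|, |tt P2|, |P1|, |P0_ij| ≤ J on [-1,1]: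
      |𝕀[V Σ_i κ_i a_i (P v)_i]| ≤ ε 𝕀[V (|tt a|² + q |a|²)] + (K²/ε) 𝕀[V J² (|tt v|² + |v|²)],      K = C₁ + 39 + 36 q.
PROOF.  (1) `ld_sh_pert_id`:  `w1_scalar` with F := V·P2 (for each i):   𝕀[V P2 a_i tt² v_i] = -𝕀[V P2 tt a_i tt v_i] - 𝕀[ttp(V P2) a_i tt v_i];   sum over i with `ii_sum`, `ii_const_mul`, `ii_add` (all integrands are `SmI`, hence `CI`).
        (2) `ld_sh_pert_pt`:  pointwise,  with A = √|tt a|², B = √|a|², P = √|tt v|², Q = √|v|²:    |ttp(V P2)| = |tt V P2 + V tt P2 + y V P2| ≤ (C₁ + 2) V J   (`tt_mul`, `TB.t1`, |y| ≤ 1);    |⟨·,·⟩| ≤ √·√· (`ipK_abs_le`);    |Σ_ij κ_i a_i P0_ij v_j| ≤ 36 (q+1) J B Q   (κ_i ≤ q+1, `abs_le_sqrt_nk`; compare `bilM_abs_le`);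
             so |integrand of (1)| ≤ V J (A P + (C₁+3) B P + 36 (q+1) B Q) ≤ V J (A + K B)(P + Q) ≤ ε V (A² + q B²) + (K²/ε) V J² (P² + Q²)
             [x y ≤ (η/2) x² + y²/(2η),  η = ε/K²,  (A + K B)² ≤ 2 K² (A² + q B²) (K ≥ 1, q ≥ 1),  (P+Q)² ≤ 2 (P² + Q²);   `Real.sq_sqrt`, `nk_nonneg`].
        (3) `ii_abs_le`, `ii_mono`, `ii_add`, `ii_const_mul`.
-/
import Claimed.Agent.R324.Core.W.FormBd
import Claimed.Agent.R324.Core.W.TB

set_option autoImplicit false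

namespace Claimed.Agent.R324.Core

open Set Filter Topology MeasureTheory
open scoped ContDiff

noncomputable section

variable {q C₁ ε : ℝ} {V P2 P1 J : ℝ → ℝ} {P0 : Fin 3 → Fin 3 → ℝ → ℝ} {a v : Fin 3 → ℝ → ℝ}

/-- the integrand after one integration by parts. -/
def shInt (q : ℝ) (V P2 P1 : ℝ → ℝ) (P0 : Fin 3 → Fin 3 → ℝ → ℝ) (a v : Fin 3 → ℝ → ℝ) (y : ℝ) : ℝ :=
  -(V y * P2 y * ipK q (fun i => tt (a i) y) (fun i => tt (v i) y))
    + (V y * P1 y - ttp (fun z => V z * P2 z) y) * ipK q (fun i => a i y) (fun i => tt (v i) y)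
    + V y * ∑ i, ∑ j, kapJ q i * a i y * P0 i j y * v j y

theorem core_ld_shpert_hygiene : True := by
  have := @shInt.eq_1
  trivial

/-- `shInt` is smooth near `[-1,1]`. -/
theorem ld_sh_pert_smI (q : ℝ) (hV : SmI V) (h2 : SmI P2) (h1 : SmI P1) (h0 : ∀ i j, SmI (P0 i j))
    (ha : ∀ i, SmI (a i)) (hv : ∀ i, SmI (v i)) : SmI (shInt q V P2 P1 P0 a v) := by
  have hF : SmI (fun z => V z * P2 z) := hV.mul h2
  have e : shInt q V P2 P1 P0 a v = fun y =>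
      -(V y * P2 y * ∑ i, kapJ q i * tt (a i) y * tt (v i) y)
      + (V y * P1 y - ttp (fun z => V z * P2 z) y) * ∑ i, kapJ q i * a i y * tt (v i) y
      + V y * ∑ i, ∑ j, kapJ q i * a i y * P0 i j y * v j y := by
    funext y
    rfl
  rw [e]
  exact ((hF.mul (smI_sum _ (fun i _ => ((smI_const _).mul (ha i).tt).mul (hv i).tt))).neg.add
    (((hV.mul h1).sub hF.ttp).mul (smI_sum _ (fun i _ => ((smI_const _).mul (ha i)).mul (hv i).tt)))).add
    (hV.mul (smI_sum _ (fun i _ => smI_sum _ (fun j _ =>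
      (((smI_const _).mul (ha i)).mul (h0 i j)).mul (hv j)))))

theorem ld_sh_pert_id (q : ℝ) (hV : SmI V) (h2 : SmI P2) (h1 : SmI P1) (h0 : ∀ i j, SmI (P0 i j))
    (ha : ∀ i, SmI (a i)) (hv : ∀ i, SmI (v i)) :
    II (fun y => V y * ∑ i, kapJ q i * a i y * (P2 y * tt (tt (v i)) y + P1 y * tt (v i) y + ∑ j, P0 i j y * v j y))
      = II (shInt q V P2 P1 P0 a v) := by
  have hF : SmI (fun z => V z * P2 z) := hV.mul h2
  have hD : ∀ i, SmI (fun y => (V y * P2 y) * a i y * tt (tt (v i)) y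
      + (V y * P2 y) * tt (a i) y * tt (v i) y
      + ttp (fun z => V z * P2 z) y * a i y * tt (v i) y) := fun i =>
    (((hF.mul (ha i)).mul (hv i).tt.tt).add ((hF.mul (ha i).tt).mul (hv i).tt)).add
      ((hF.ttp.mul (ha i)).mul (hv i).tt)
  have hS : II (fun y => ∑ i, kapJ q i * ((V y * P2 y) * a i y * tt (tt (v i)) y
      + (V y * P2 y) * tt (a i) y * tt (v i) y
      + ttp (fun z => V z * P2 z) y * a i y * tt (v i) y)) = 0 := by
    rw [ii_sum _ (fun i _ => ((hD i).const_mul (kapJ q i)).continuousOn)]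
    refine Finset.sum_eq_zero (fun i _ => ?_)
    rw [ii_const_mul, w1_scalar_zero hF (ha i) (hv i), mul_zero]
  have hSs : SmI (fun y => ∑ i, kapJ q i * ((V y * P2 y) * a i y * tt (tt (v i)) y
      + (V y * P2 y) * tt (a i) y * tt (v i) y
      + ttp (fun z => V z * P2 z) y * a i y * tt (v i) y)) :=
    smI_sum _ (fun i _ => (hD i).const_mul (kapJ q i))
  have e : II (fun y => V y * ∑ i, kapJ q i * a i y
        * (P2 y * tt (tt (v i)) y + P1 y * tt (v i) y + ∑ j, P0 i j y * v j y))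
      = II (fun y => shInt q V P2 P1 P0 a v y
          + ∑ i, kapJ q i * ((V y * P2 y) * a i y * tt (tt (v i)) y
            + (V y * P2 y) * tt (a i) y * tt (v i) y
            + ttp (fun z => V z * P2 z) y * a i y * tt (v i) y)) := by
    refine ii_congr (fun y _ => ?_)
    simp only [shInt, ipK, Fin.sum_univ_three]
    ring
  rw [e, ii_add (ld_sh_pert_smI q hV h2 h1 h0 ha hv).continuousOn hSs.continuousOn, hS, add_zero]

theorem ld_sh_pert_ci (q : ℝ) (hV : SmI V) (h2 : SmI P2) (h1 : SmI P1) (h0 : ∀ i j, SmI (P0 i j))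
    (ha : ∀ i, SmI (a i)) (hv : ∀ i, SmI (v i)) : CI (shInt q V P2 P1 P0 a v) :=
  (ld_sh_pert_smI q hV h2 h1 h0 ha hv).continuousOn

/-- Young's inequality in the form used in `ld_sh_pert_pt`. -/
theorem ld_sh_pert_pt_young {A B P Q J V K q ε : ℝ} (_hJ : 0 ≤ J) (hV : 0 ≤ V)
    (hK : 1 ≤ K) (hq : 1 ≤ q) (hε : 0 < ε) :
    V * J * ((A + K * B) * (P + Q))
      ≤ ε * (V * (A ^ 2 + q * B ^ 2)) + K ^ 2 / ε * (V * J ^ 2 * (P ^ 2 + Q ^ 2)) := by
  have hK0 : 0 < K := by linarith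
  set x := A + K * B with hx
  set w := P + Q with hw
  have key : J * (x * w) ≤ ε * (x ^ 2 / (2 * K ^ 2)) + K ^ 2 / ε * (J ^ 2 * (w ^ 2 / 2)) := by
    have h0 : 0 ≤ (ε * x - K ^ 2 * J * w) ^ 2 / (2 * ε * K ^ 2) := by positivity
    have e : (ε * x - K ^ 2 * J * w) ^ 2 / (2 * ε * K ^ 2)
        = ε * (x ^ 2 / (2 * K ^ 2)) + K ^ 2 / ε * (J ^ 2 * (w ^ 2 / 2)) - J * (x * w) := by
      field_simp
      ring
    linarith
  have hx2 : x ^ 2 / (2 * K ^ 2) ≤ A ^ 2 + q * B ^ 2 := by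
    rw [div_le_iff₀ (by positivity)]
    have hK2 : 1 ≤ K ^ 2 := by nlinarith
    have h1 : x ^ 2 ≤ 2 * A ^ 2 + 2 * K ^ 2 * B ^ 2 := by
      rw [hx]
      nlinarith [sq_nonneg (A - K * B)]
    have h2 : 2 * A ^ 2 ≤ 2 * K ^ 2 * A ^ 2 := by nlinarith [sq_nonneg A]
    have h3 : 2 * K ^ 2 * B ^ 2 ≤ 2 * K ^ 2 * (q * B ^ 2) := by
      have : B ^ 2 ≤ q * B ^ 2 := by nlinarith [sq_nonneg B]
      have hKK : 0 ≤ 2 * K ^ 2 := by positivity
      exact mul_le_mul_of_nonneg_left this hKK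
    nlinarith
  have hw2 : w ^ 2 / 2 ≤ P ^ 2 + Q ^ 2 := by
    rw [hw]
    nlinarith [sq_nonneg (P - Q)]
  have hR : 0 ≤ K ^ 2 / ε := by positivity
  have h4 : J * (x * w) ≤ ε * (A ^ 2 + q * B ^ 2) + K ^ 2 / ε * (J ^ 2 * (P ^ 2 + Q ^ 2)) := by
    have h5 : ε * (x ^ 2 / (2 * K ^ 2)) ≤ ε * (A ^ 2 + q * B ^ 2) :=
      mul_le_mul_of_nonneg_left hx2 hε.le
    have h6 : K ^ 2 / ε * (J ^ 2 * (w ^ 2 / 2)) ≤ K ^ 2 / ε * (J ^ 2 * (P ^ 2 + Q ^ 2)) :=
      mul_le_mul_of_nonneg_left (mul_le_mul_of_nonneg_left hw2 (sq_nonneg J)) hR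
    linarith
  calc V * J * (x * w) = V * (J * (x * w)) := by ring
    _ ≤ V * (ε * (A ^ 2 + q * B ^ 2) + K ^ 2 / ε * (J ^ 2 * (P ^ 2 + Q ^ 2))) :=
        mul_le_mul_of_nonneg_left h4 hV
    _ = ε * (V * (A ^ 2 + q * B ^ 2)) + K ^ 2 / ε * (V * J ^ 2 * (P ^ 2 + Q ^ 2)) := by ring

/-- the zeroth order term (same proof as `bilM_abs_le`). -/
theorem ld_sh_pert_pt_bil {q C : ℝ} (hq : 1 ≤ q) {M : Fin 3 → Fin 3 → ℝ} (hC : ∀ i j, |M i j| ≤ C)
    (ξ η : Fin 3 → ℝ) :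
    |∑ i, ∑ j, kapJ q i * ξ i * M i j * η j|
      ≤ 36 * (q + 1) * C * (Real.sqrt (nk q ξ) * Real.sqrt (nk q η)) := by
  have hq0 : 0 < q := by linarith
  have hC0 : 0 ≤ C := (abs_nonneg _).trans (hC 0 0)
  have hk : ∀ i, kapJ q i ≤ q + 1 := by
    intro i
    fin_cases i
    · show q + 1 ≤ q + 1
      exact le_rfl
    · show (2 : ℝ) ≤ q + 1
      linarith
    · show q / (q + 1) ≤ q + 1
      rw [div_le_iff₀ (by linarith)]
      nlinarith
  set a := Real.sqrt (nk q ξ) with ha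
  set b := Real.sqrt (nk q η) with hb
  have ha0 : 0 ≤ a := Real.sqrt_nonneg _
  have hb0 : 0 ≤ b := Real.sqrt_nonneg _
  have hterm : ∀ i j, |kapJ q i * ξ i * M i j * η j| ≤ 4 * (q + 1) * C * (a * b) := by
    intro i j
    rw [abs_mul, abs_mul, abs_mul, abs_of_pos (kapJ_pos hq0 i)]
    have h1 : kapJ q i * |M i j| ≤ (q + 1) * C :=
      mul_le_mul (hk i) (hC i j) (abs_nonneg _) (by linarith)
    have h2 : |ξ i| * |η j| ≤ (2 * a) * (2 * b) :=
      mul_le_mul (abs_le_sqrt_nk hq ξ i) (abs_le_sqrt_nk hq η j) (abs_nonneg _) (by positivity)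
    calc kapJ q i * |ξ i| * |M i j| * |η j|
        = (kapJ q i * |M i j|) * (|ξ i| * |η j|) := by ring
      _ ≤ ((q + 1) * C) * ((2 * a) * (2 * b)) :=
          mul_le_mul h1 h2 (by positivity) (by positivity)
      _ = 4 * (q + 1) * C * (a * b) := by ring
  calc |∑ i, ∑ j, kapJ q i * ξ i * M i j * η j|
      ≤ ∑ i, |∑ j, kapJ q i * ξ i * M i j * η j| := Finset.abs_sum_le_sum_abs _ _
    _ ≤ ∑ i : Fin 3, ∑ j : Fin 3, |kapJ q i * ξ i * M i j * η j| :=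
        Finset.sum_le_sum fun i _ => Finset.abs_sum_le_sum_abs _ _
    _ ≤ ∑ _i : Fin 3, ∑ _j : Fin 3, 4 * (q + 1) * C * (a * b) :=
        Finset.sum_le_sum fun i _ => Finset.sum_le_sum fun j _ => hterm i j
    _ = 36 * (q + 1) * C * (a * b) := by
        simp only [Finset.sum_const, Finset.card_univ, Fintype.card_fin, nsmul_eq_mul]
        ring

theorem ld_sh_pert_pt (hq : 1 ≤ q) (hV : TB C₁ V) (h2 : SmI P2) {y : ℝ} (hy : y ∈ Icc (-1 : ℝ) 1)
    (b2 : |P2 y| ≤ J y) (b2' : |tt P2 y| ≤ J y) (b1 : |P1 y| ≤ J y) (b0 : ∀ i j, |P0 i j y| ≤ J y) (hε : 0 < ε) :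
    |shInt q V P2 P1 P0 a v y|
      ≤ ε * (V y * (nk q (fun i => tt (a i) y) + q * nk q (fun i => a i y)))
        + (C₁ + 39 + 36 * q) ^ 2 / ε * (V y * J y ^ 2 * (nk q (fun i => tt (v i) y) + nk q (fun i => v i y))) := by
  have hq0 : 0 < q := by linarith
  have hVp : 0 < V y := hV.pos y hy
  have hJ0 : 0 ≤ J y := (abs_nonneg _).trans b2
  have hC0 : 0 ≤ C₁ := by
    have h := (abs_nonneg _).trans (hV.t1 y hy)
    by_contra hc
    have : C₁ * V y < 0 := mul_neg_of_neg_of_pos (not_le.1 hc) hVp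
    linarith
  set A := Real.sqrt (nk q (fun i => tt (a i) y)) with hA
  set B := Real.sqrt (nk q (fun i => a i y)) with hB
  set P := Real.sqrt (nk q (fun i => tt (v i) y)) with hP
  set Q := Real.sqrt (nk q (fun i => v i y)) with hQ
  have hA0 : 0 ≤ A := Real.sqrt_nonneg _
  have hB0 : 0 ≤ B := Real.sqrt_nonneg _
  have hP0 : 0 ≤ P := Real.sqrt_nonneg _
  have hQ0 : 0 ≤ Q := Real.sqrt_nonneg _
  have eA : nk q (fun i => tt (a i) y) = A ^ 2 := (Real.sq_sqrt (nk_nonneg hq0 _)).symm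
  have eB : nk q (fun i => a i y) = B ^ 2 := (Real.sq_sqrt (nk_nonneg hq0 _)).symm
  have eP : nk q (fun i => tt (v i) y) = P ^ 2 := (Real.sq_sqrt (nk_nonneg hq0 _)).symm
  have eQ : nk q (fun i => v i y) = Q ^ 2 := (Real.sq_sqrt (nk_nonneg hq0 _)).symm
  have hVJ : 0 ≤ V y * J y := mul_nonneg hVp.le hJ0
  -- first term
  have t1 : |-(V y * P2 y * ipK q (fun i => tt (a i) y) (fun i => tt (v i) y))| ≤ V y * J y * (A * P) := by
    rw [abs_neg, abs_mul, abs_mul, abs_of_pos hVp]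
    exact mul_le_mul (mul_le_mul_of_nonneg_left b2 hVp.le) (ipK_abs_le hq0 _ _) (abs_nonneg _) hVJ
  -- second term
  have hy1 : |y| ≤ 1 := abs_le.2 hy
  have ettp : ttp (fun z => V z * P2 z) y = tt V y * P2 y + V y * tt P2 y + y * (V y * P2 y) := by
    rw [ttp_apply, tt_mul (hV.sm.differentiableAt hy) (h2.differentiableAt hy)]
  have c1 : |tt V y * P2 y| ≤ C₁ * (V y * J y) := by
    rw [abs_mul]
    calc |tt V y| * |P2 y| ≤ (C₁ * V y) * J y :=
          mul_le_mul (hV.t1 y hy) b2 (abs_nonneg _) (mul_nonneg hC0 hVp.le)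
      _ = C₁ * (V y * J y) := by ring
  have c2 : |V y * tt P2 y| ≤ V y * J y := by
    rw [abs_mul, abs_of_pos hVp]
    exact mul_le_mul_of_nonneg_left b2' hVp.le
  have c3 : |y * (V y * P2 y)| ≤ V y * J y := by
    rw [abs_mul, abs_mul, abs_of_pos hVp]
    calc |y| * (V y * |P2 y|) ≤ 1 * (V y * J y) :=
          mul_le_mul hy1 (mul_le_mul_of_nonneg_left b2 hVp.le) (by positivity) (by norm_num)
      _ = V y * J y := one_mul _
  have c4 : |V y * P1 y| ≤ V y * J y := by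
    rw [abs_mul, abs_of_pos hVp]
    exact mul_le_mul_of_nonneg_left b1 hVp.le
  have c5 : |V y * P1 y - ttp (fun z => V z * P2 z) y| ≤ (C₁ + 3) * (V y * J y) := by
    rw [ettp]
    have e : V y * P1 y - (tt V y * P2 y + V y * tt P2 y + y * (V y * P2 y))
        = V y * P1 y + -(tt V y * P2 y) + -(V y * tt P2 y) + -(y * (V y * P2 y)) := by ring
    rw [e]
    have h3 := abs_add_le (V y * P1 y + -(tt V y * P2 y) + -(V y * tt P2 y)) (-(y * (V y * P2 y)))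
    have h4 := abs_add_le (V y * P1 y + -(tt V y * P2 y)) (-(V y * tt P2 y))
    have h5 := abs_add_le (V y * P1 y) (-(tt V y * P2 y))
    rw [abs_neg] at h3 h4 h5
    linarith
  have t2 : |(V y * P1 y - ttp (fun z => V z * P2 z) y) * ipK q (fun i => a i y) (fun i => tt (v i) y)|
      ≤ V y * J y * ((C₁ + 3) * (B * P)) := by
    rw [abs_mul]
    calc |V y * P1 y - ttp (fun z => V z * P2 z) y| * |ipK q (fun i => a i y) (fun i => tt (v i) y)|
        ≤ ((C₁ + 3) * (V y * J y)) * (B * P) :=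
          mul_le_mul c5 (ipK_abs_le hq0 _ _) (abs_nonneg _) (by positivity)
      _ = V y * J y * ((C₁ + 3) * (B * P)) := by ring
  -- third term
  have t3 : |V y * ∑ i, ∑ j, kapJ q i * a i y * P0 i j y * v j y|
      ≤ V y * J y * (36 * (q + 1) * (B * Q)) := by
    rw [abs_mul, abs_of_pos hVp]
    have h3 := ld_sh_pert_pt_bil hq (M := fun i j => P0 i j y) (C := J y) b0
      (fun i => a i y) (fun i => v i y)
    calc V y * |∑ i, ∑ j, kapJ q i * a i y * P0 i j y * v j y|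
        ≤ V y * (36 * (q + 1) * J y * (B * Q)) := mul_le_mul_of_nonneg_left h3 hVp.le
      _ = V y * J y * (36 * (q + 1) * (B * Q)) := by ring
  have hsum : |shInt q V P2 P1 P0 a v y|
      ≤ V y * J y * ((A + (C₁ + 39 + 36 * q) * B) * (P + Q)) := by
    unfold shInt
    have h3 := abs_add_le (-(V y * P2 y * ipK q (fun i => tt (a i) y) (fun i => tt (v i) y))
      + (V y * P1 y - ttp (fun z => V z * P2 z) y) * ipK q (fun i => a i y) (fun i => tt (v i) y))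
      (V y * ∑ i, ∑ j, kapJ q i * a i y * P0 i j y * v j y)
    have h4 := abs_add_le (-(V y * P2 y * ipK q (fun i => tt (a i) y) (fun i => tt (v i) y)))
      ((V y * P1 y - ttp (fun z => V z * P2 z) y) * ipK q (fun i => a i y) (fun i => tt (v i) y))
    have h5 : A * P + (C₁ + 3) * (B * P) + 36 * (q + 1) * (B * Q)
        ≤ (A + (C₁ + 39 + 36 * q) * B) * (P + Q) := by
      have e : (A + (C₁ + 39 + 36 * q) * B) * (P + Q)
          = A * P + (C₁ + 3) * (B * P) + 36 * (q + 1) * (B * Q)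
            + (A * Q + 36 * (q + 1) * (B * P) + (C₁ + 3) * (B * Q)) := by ring
      rw [e]
      have : 0 ≤ A * Q + 36 * (q + 1) * (B * P) + (C₁ + 3) * (B * Q) := by positivity
      linarith
    have h6 := mul_le_mul_of_nonneg_left h5 hVJ
    have e2 : V y * J y * (A * P + (C₁ + 3) * (B * P) + 36 * (q + 1) * (B * Q))
        = V y * J y * (A * P) + V y * J y * ((C₁ + 3) * (B * P))
          + V y * J y * (36 * (q + 1) * (B * Q)) := by ring
    linarith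
  rw [eA, eB, eP, eQ]
  exact hsum.trans (ld_sh_pert_pt_young hJ0 hVp.le (by linarith) hq hε)

/-- **the perturbation estimate.** -/
theorem ld_sh_pert (hq : 1 ≤ q) (hV : TB C₁ V) (h2 : SmI P2) (h1 : SmI P1) (h0 : ∀ i j, SmI (P0 i j)) (hJ : CI J)
    (b2 : ∀ y ∈ Icc (-1 : ℝ) 1, |P2 y| ≤ J y) (b2' : ∀ y ∈ Icc (-1 : ℝ) 1, |tt P2 y| ≤ J y)
    (b1 : ∀ y ∈ Icc (-1 : ℝ) 1, |P1 y| ≤ J y) (b0 : ∀ i j, ∀ y ∈ Icc (-1 : ℝ) 1, |P0 i j y| ≤ J y)
    (ha : ∀ i, SmI (a i)) (hv : ∀ i, SmI (v i)) (hε : 0 < ε) :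
    |II (fun y => V y * ∑ i, kapJ q i * a i y * (P2 y * tt (tt (v i)) y + P1 y * tt (v i) y + ∑ j, P0 i j y * v j y))|
      ≤ ε * II (fun y => V y * (nk q (fun i => tt (a i) y) + q * nk q (fun i => a i y)))
        + (C₁ + 39 + 36 * q) ^ 2 / ε
          * II (fun y => V y * J y ^ 2 * (nk q (fun i => tt (v i) y) + nk q (fun i => v i y))) := by
  have snk : ∀ {w : Fin 3 → ℝ → ℝ}, (∀ i, SmI (w i)) → SmI (fun y => nk q (fun i => w i y)) := by
    intro w hw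
    unfold nk
    exact smI_sum _ (fun i _ => ((hw i).pow 2).const_mul (kapJ q i))
  have c1 : CI (fun y => V y * (nk q (fun i => tt (a i) y) + q * nk q (fun i => a i y))) :=
    (hV.sm.mul ((snk (fun i => (ha i).tt)).add ((snk ha).const_mul q))).continuousOn
  have c2 : CI (fun y => V y * J y ^ 2 * (nk q (fun i => tt (v i) y) + nk q (fun i => v i y))) :=
    (hV.sm.continuousOn.mul (hJ.pow 2)).mul ((snk (fun i => (hv i).tt)).add (snk hv)).continuousOn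
  rw [ld_sh_pert_id q hV.sm h2 h1 h0 ha hv]
  refine (ii_abs_le _).trans ?_
  have d1 : CI (fun y => ε * (V y * (nk q (fun i => tt (a i) y) + q * nk q (fun i => a i y)))) :=
    continuousOn_const.mul c1
  have d2 : CI (fun y => (C₁ + 39 + 36 * q) ^ 2 / ε
      * (V y * J y ^ 2 * (nk q (fun i => tt (v i) y) + nk q (fun i => v i y)))) := continuousOn_const.mul c2
  rw [← ii_const_mul, ← ii_const_mul, ← ii_add d1 d2]
  refine ii_mono (ld_sh_pert_ci q hV.sm h2 h1 h0 ha hv).abs (d1.add d2) (fun y hy => ?_)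
  exact ld_sh_pert_pt hq hV h2 hy (b2 y hy) (b2' y hy) (b1 y hy) (fun i j => b0 i j y hy) hε

end

end Claimed.Agent.R324.Core
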