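/-
Row 324 (S0582), PDE core, module LD.   Blueprint 7.4, tag LD6 "shift".      FILE LD/ShStat      (helper325)
   Λ = -t,  X = Xf y = 1 - y²,  tt f = -X f';   uV u = (σ, h₃, X b);   |ξ|² = nk q ξ,  n2 q u y = nk q (uV u · y) (`n2_eq_nk`),  n2t q u y = nk q (tt (uV u ·) y) (`n2t_eq_nk`)  (Core/W/FormDefs.lean);
   `ScF, cSF, scT, GsT`: ShDefs;  `vSF, P2F, P1F, P0F, JsF`: ShId;  `jjS, zS, DevC`: ShCoef;  `SiF`: ShWt;  `pairE`: Core/LD/Defs.lean;  `DDA`: Core/Defs.lean.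
THE STATIC ESTIMATE OF THE RESCALING ERROR:
      2 Λ^(95/2) |𝕀[X wH_B ⟨d, Gs⟩]| ≤ ε Λ^(95/2) D_{wH_B}(d) + (C/ε) r⁻¹ (t/r)² DD_A(U)(t/r).
* `ld_sh_nk_sc`:  y' = SiF r y:  `ld_sh_ScF_SiF` (ScF r y' = y), `ld_sh_SiF_geom` (Xf y'/r = Xf y ≤ 9/100 < 1/10, y ≤ y' ≤ 1);   vSF r U t i y' = uV (slT U (t/r)) i y  (unfold vSF);    tt (vSF r U t i) y' = (y'/y) tt (uV (slT U (t/r)) i) y  (`ld_sh_tt_comp` with f = uV (slT U (t/r)) i, differentiable: `smI_uV`, `smI_slT` or ContDiff);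
      (y'/y)² ≤ 1/(91/100) ≤ 2;   nk q (fun i => c * ξ i) = c² nk q ξ (unfold nk; `Finset.mul_sum`; ring);   `n2_eq_nk`, `n2t_eq_nk`, n2 ≤ q n2.
* `ld_sh_Phi_pt`:  if 9/100 < Xf y:  JsF = 0 at y' (`ld_sh_Js_zero`, Xf y'/r = Xf y), the right side is ≥ 0.     Otherwise `ld_sh_Js_le` at y' (3/4 ≤ y ≤ y' ≤ 1), square it (JsF ≥ 0), `ld_sh_wt`, `ld_sh_nk_sc`.
-/
import Claimed.Agent.R324.Core.LD.ShCV
import Claimed.Agent.R324.Core.LD.ShPert

set_option autoImplicit false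

namespace Claimed.Agent.R324.Core

open Set Filter Topology MeasureTheory
open scoped ContDiff

noncomputable section

variable {q r t y Λ₀ Cd Cc : ℝ} {g : Bg} {U : Tri}

theorem ld_sh_nk_sc (hq : 1 ≤ q) (hr : 0 < r) (hr1 : r ≤ 1) (hU : ∀ j, Sm (U j)) (ht : t < 0) (hy : y ∈ Icc (0 : ℝ) 1)
    (hX : Xf y ≤ 9 / 100) :
    nk q (fun i => tt (vSF r U t i) (SiF r y)) + nk q (fun i => vSF r U t i (SiF r y))
      ≤ 2 * (n2t q (slT U (t / r)) y + q * n2 q (slT U (t / r)) y) := by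
  obtain ⟨hm, hle, _, hXe⟩ := ld_sh_SiF_geom hr hr1 hy
  have hSc : ScF r (SiF r y) = y := ld_sh_ScF_SiF hr hr1 hy (by linarith)
  have hq0 : (0 : ℝ) < q := by linarith
  have ht2 : t / r < 0 := div_neg_of_neg_of_pos ht hr
  have hy2 : 91 / 100 ≤ y ^ 2 := by
    unfold Xf at hX
    linarith
  have hy0 : 0 < y := by
    rcases hy.1.lt_or_eq with h | h
    · exact h
    · rw [← h] at hy2
      norm_num at hy2
  have e1 : ∀ i, vSF r U t i (SiF r y) = uV (slT U (t / r)) i y := by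
    intro i
    unfold vSF
    rw [hSc]
  have e2 : ∀ i, tt (vSF r U t i) (SiF r y) = SiF r y / y * tt (uV (slT U (t / r)) i) y := by
    intro i
    have hf : DifferentiableAt ℝ (uV (slT U (t / r)) i) (ScF r (SiF r y)) :=
      ((ld_sh_uV_contDiff hU ht2 i).differentiable (by simp)).differentiableAt
    have := ld_sh_tt_comp (y := SiF r y) hr (by rw [hXe]; linarith) hf
    rw [hSc] at this
    exact this
  have e3 : ∀ (c : ℝ) (ξ : Fin 3 → ℝ), nk q (fun i => c * ξ i) = c ^ 2 * nk q ξ := by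
    intro c ξ
    unfold nk
    rw [Finset.mul_sum]
    refine Finset.sum_congr rfl (fun i _ => ?_)
    ring
  have hc : (SiF r y / y) ^ 2 ≤ 2 := by
    rw [div_pow, div_le_iff₀ (by positivity)]
    have : SiF r y ^ 2 ≤ 1 := by
      have h1 := hm.1
      have h2 := hm.2
      nlinarith
    linarith
  simp only [e1, e2]
  rw [e3, ← n2_eq_nk, ← n2t_eq_nk]
  have h3 := n2t_nonneg hq0 (slT U (t / r)) y
  have h4 := n2_nonneg hq0 (slT U (t / r)) y
  have h5 : (SiF r y / y) ^ 2 * n2t q (slT U (t / r)) y ≤ 2 * n2t q (slT U (t / r)) y :=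
    mul_le_mul_of_nonneg_right hc h3
  have h6 : n2 q (slT U (t / r)) y ≤ q * n2 q (slT U (t / r)) y := by
    nlinarith
  linarith

theorem ld_sh_Phi_pt (hq : 100 ≤ q) (hs : BgSm g) (hd : DevC q g Λ₀ Cd) (hc : CoefB q g Λ₀ Cc) (hΛ : Λ₀ ≤ 100 / q) :
    ∃ C : ℝ, 0 ≤ C ∧ ∀ r : ℝ, 0 < r → r ≤ 1 → ∀ t : ℝ, t / r ∈ Ico (-Λ₀) 0 → ∀ U : Tri, (∀ j, Sm (U j)) →
      ∀ y ∈ Icc (0 : ℝ) 1,
      (-t) ^ ((95 : ℝ) / 2) * (wH 3 52 q t (SiF r y) * JsF q g r t (SiF r y) ^ 2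
          * (nk q (fun i => tt (vSF r U t i) (SiF r y)) + nk q (fun i => vSF r U t i (SiF r y))))
        ≤ C * r ^ (-(3 / 2) : ℝ) * (t / r) ^ 2 * ((-(t / r)) ^ ((61 : ℝ) / 2)
            * (wH 2 34 q (t / r) y * (n2t q (slT U (t / r)) y + q * n2 q (slT U (t / r)) y))) := by
  have hq1 : (1 : ℝ) < q := by linarith
  have hq0 : (0 : ℝ) < q := by linarith
  obtain ⟨C1, hC1, hJ⟩ := ld_sh_Js_le hq1 hs hd hc
  obtain ⟨C2, hC2, hW⟩ := ld_sh_wt hq
  refine ⟨2 * C1 ^ 2 * C2, by positivity, fun r hr hr1 t ht U hU y hy => ?_⟩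
  have ht0 : t < 0 := (ld_sh_t_mem hr hr1 ht).2
  have ht2 : t / r < 0 := ht.2
  obtain ⟨hm, hle, _, hXe⟩ := ld_sh_SiF_geom hr hr1 hy
  have hy' : y ∈ Icc (-1 : ℝ) 1 := ⟨by linarith [hy.1], hy.2⟩
  have hm' : SiF r y ∈ Icc (-1 : ℝ) 1 := ⟨by linarith [hm.1], hm.2⟩
  have a1 : 0 ≤ (-(t / r)) ^ ((61 : ℝ) / 2) := Real.rpow_nonneg (by linarith) _
  have a2 := (w0_wH_pos (a := 2) (M := 34) hq1 ht2 hy').le
  have a3 := n2t_nonneg hq0 (slT U (t / r)) y
  have a4 := n2_nonneg hq0 (slT U (t / r)) y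
  have a5 : 0 ≤ r ^ (-(3 / 2) : ℝ) := Real.rpow_nonneg hr.le _
  have a6 : 0 ≤ n2t q (slT U (t / r)) y + q * n2 q (slT U (t / r)) y := add_nonneg a3 (mul_nonneg hq0.le a4)
  by_cases hX : Xf y ≤ 9 / 100
  · have hy2 : 91 / 100 ≤ y ^ 2 := by
      unfold Xf at hX
      linarith
    have hy34 : 3 / 4 ≤ y := by
      by_contra hcon
      rw [not_le] at hcon
      have := hy.1
      nlinarith
    have hJ1 := hJ r hr hr1 t ht (SiF r y) (hy34.trans hle) hm.2 (by rw [hXe]; exact hX)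
    have hJ0 : 0 ≤ JsF q g r t (SiF r y) := by
      unfold JsF
      have := Finset.sum_nonneg (s := Finset.univ) (f := fun i => ∑ j, |P0F q g r t i j (SiF r y)|)
        (fun i _ => Finset.sum_nonneg fun j _ => abs_nonneg _)
      positivity
    have hJ2 : JsF q g r t (SiF r y) ^ 2 ≤ C1 ^ 2 * (jjS q r t (SiF r y) + zS r (SiF r y)) ^ 2 := by
      rw [← mul_pow]
      exact pow_le_pow_left₀ hJ0 hJ1 2
    have hW1 := hW r hr hr1 t ⟨by linarith [ht.1], ht.2⟩ y hy hX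
    have hN := ld_sh_nk_sc hq1.le hr hr1 hU ht0 hy hX
    have b1 : 0 ≤ (-t) ^ ((95 : ℝ) / 2) := Real.rpow_nonneg (by linarith) _
    have b2 := (w0_wH_pos (a := 3) (M := 52) hq1 ht0 hm').le
    have b3 : 0 ≤ nk q (fun i => tt (vSF r U t i) (SiF r y)) + nk q (fun i => vSF r U t i (SiF r y)) :=
      add_nonneg (nk_nonneg hq0 _) (nk_nonneg hq0 _)
    set N := nk q (fun i => tt (vSF r U t i) (SiF r y)) + nk q (fun i => vSF r U t i (SiF r y)) with hNdef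
    set N2 := n2t q (slT U (t / r)) y + q * n2 q (slT U (t / r)) y with hN2def
    set A := (-t) ^ ((95 : ℝ) / 2) with hA
    set W := wH 3 52 q t (SiF r y) with hWd
    set S := (jjS q r t (SiF r y) + zS r (SiF r y)) ^ 2 with hS
    set B := (-(t / r)) ^ ((61 : ℝ) / 2) * wH 2 34 q (t / r) y with hB
    have hB0 : 0 ≤ B := mul_nonneg a1 a2
    calc A * (W * JsF q g r t (SiF r y) ^ 2 * N)
        ≤ A * (W * (C1 ^ 2 * S) * N) := by
          apply mul_le_mul_of_nonneg_left _ b1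
          apply mul_le_mul_of_nonneg_right _ b3
          exact mul_le_mul_of_nonneg_left hJ2 b2
      _ = C1 ^ 2 * (A * W * S) * N := by ring
      _ ≤ C1 ^ 2 * (C2 * r ^ (-(3 / 2) : ℝ) * (t / r) ^ 2 * B) * N := by
          apply mul_le_mul_of_nonneg_right _ b3
          exact mul_le_mul_of_nonneg_left hW1 (sq_nonneg _)
      _ ≤ C1 ^ 2 * (C2 * r ^ (-(3 / 2) : ℝ) * (t / r) ^ 2 * B) * (2 * N2) := by
          apply mul_le_mul_of_nonneg_left hN
          exact mul_nonneg (sq_nonneg _) (mul_nonneg (mul_nonneg (mul_nonneg hC2 a5) (sq_nonneg _)) hB0)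
      _ = _ := by
          rw [hB]
          ring
  · rw [not_le] at hX
    have hz : JsF q g r t (SiF r y) = 0 := ld_sh_Js_zero q g hr t (Or.inl (by rw [hXe]; exact hX))
    rw [hz]
    have : (-t) ^ ((95 : ℝ) / 2) * (wH 3 52 q t (SiF r y) * 0 ^ 2
          * (nk q (fun i => tt (vSF r U t i) (SiF r y)) + nk q (fun i => vSF r U t i (SiF r y)))) = 0 := by
      ring
    rw [this]
    exact mul_nonneg (mul_nonneg (mul_nonneg (by positivity) a5) (sq_nonneg _))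
      (mul_nonneg a1 (mul_nonneg a2 a6))

/-- transfer of the error integral to frame 2. -/
theorem ld_sh_transfer (hq : 100 ≤ q) (hs : BgSm g) (hd : DevC q g Λ₀ Cd) (hc : CoefB q g Λ₀ Cc) (hΛ : Λ₀ ≤ 100 / q) :
    ∃ C : ℝ, 0 ≤ C ∧ ∀ r : ℝ, 0 < r → r ≤ 1 → ∀ t : ℝ, t / r ∈ Ico (-Λ₀) 0 → ∀ U : Tri, (∀ j, Sm (U j)) →
      (-t) ^ ((95 : ℝ) / 2) * II (fun y => wH 3 52 q t y * JsF q g r t y ^ 2
          * (nk q (fun i => tt (vSF r U t i) y) + nk q (fun i => vSF r U t i y)))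
        ≤ C * (1 / r * (t / r) ^ 2 * DDA q U (t / r)) := by
  obtain ⟨C, hC, hpt⟩ := ld_sh_Phi_pt hq hs hd hc hΛ
  have hq1 : (1 : ℝ) < q := by linarith
  have hq0 : (0 : ℝ) < q := by linarith
  refine ⟨C, hC, fun r hr hr1 t ht U hU => ?_⟩
  have ht0 : t < 0 := (ld_sh_t_mem hr hr1 ht).2
  have ht2 : t / r < 0 := ht.2
  have snk : ∀ {w : Fin 3 → ℝ → ℝ}, (∀ i, SmI (w i)) → SmI (fun y => nk q (fun i => w i y)) := by
    intro w hw
    unfold nk
    exact smI_sum _ (fun i _ => ((hw i).pow 2).const_mul (kapJ q i))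
  have hv : ∀ i, SmI (vSF r U t i) := fun i => smI_of_contDiff (ld_sh_vSF_contDiff hr hU ht0 i)
  have hWB : SmI (wH 3 52 q t) := (smS_wH 3 52 q).smI ht0
  have hWA : SmI (wH 2 34 q (t / r)) := (smS_wH 2 34 q).smI ht2
  have hu : ∀ j, SmI (slT U (t / r) j) := smI_slT hU ht2
  set Φ : ℝ → ℝ := fun y => (-t) ^ ((95 : ℝ) / 2) * (wH 3 52 q t y * JsF q g r t y ^ 2
      * (nk q (fun i => tt (vSF r U t i) y) + nk q (fun i => vSF r U t i y))) with hΦdef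
  set G : ℝ → ℝ := fun y => C * r ^ (-(3 / 2) : ℝ) * (t / r) ^ 2 * ((-(t / r)) ^ ((61 : ℝ) / 2)
      * (wH 2 34 q (t / r) y * (n2t q (slT U (t / r)) y + q * n2 q (slT U (t / r)) y))) with hGdef
  have hΦc : CI Φ := continuousOn_const.mul
    ((hWB.continuousOn.mul ((ld_sh_Js_ci q hs hr ht0).pow 2)).mul
      ((snk (fun i => (hv i).tt)).add (snk hv)).continuousOn)
  have hGc : CI G := continuousOn_const.mul (continuousOn_const.mul
    (hWA.continuousOn.mul ((ci_n2t hu).add (continuousOn_const.mul (ci_n2 hu)))))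
  have hΦ0 : ∀ y ∈ Icc (-1 : ℝ) 1, 0 ≤ Φ y := by
    intro y hy
    have h1 : 0 ≤ (-t) ^ ((95 : ℝ) / 2) := Real.rpow_nonneg (by linarith) _
    have h2 := (w0_wH_pos (a := 3) (M := 52) hq1 ht0 hy).le
    have h3 := nk_nonneg hq0 (fun i => tt (vSF r U t i) y)
    have h4 := nk_nonneg hq0 (fun i => vSF r U t i y)
    exact mul_nonneg h1 (mul_nonneg (mul_nonneg h2 (sq_nonneg _)) (add_nonneg h3 h4))
  have hG0 : ∀ y ∈ Icc (-1 : ℝ) 1, 0 ≤ G y := by
    intro y hy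
    have h1 : 0 ≤ (-(t / r)) ^ ((61 : ℝ) / 2) := Real.rpow_nonneg (by linarith) _
    have h2 := (w0_wH_pos (a := 2) (M := 34) hq1 ht2 hy).le
    have h3 := n2t_nonneg hq0 (slT U (t / r)) y
    have h4 := n2_nonneg hq0 (slT U (t / r)) y
    have h5 : 0 ≤ r ^ (-(3 / 2) : ℝ) := Real.rpow_nonneg hr.le _
    exact mul_nonneg (mul_nonneg (mul_nonneg hC h5) (sq_nonneg _))
      (mul_nonneg h1 (mul_nonneg h2 (add_nonneg h3 (mul_nonneg hq0.le h4))))
  have hsupp : ∀ y ∈ Icc (-1 : ℝ) 1, (y ≤ 0 ∨ r / 10 ≤ Xf y) → Φ y = 0 := by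
    intro y _ h
    have hz : JsF q g r t y = 0 := by
      refine ld_sh_Js_zero q g hr t ?_
      rcases h with h | h
      · right; linarith
      · left
        rw [lt_div_iff₀ hr]
        linarith
    simp only [hΦdef, hz]
    ring
  have key := ld_sh_cv_le hr hr1 hΦc hΦ0 hsupp hGc hG0 (fun y hy => hpt r hr hr1 t ht U hU y hy)
  have e1 : II Φ = (-t) ^ ((95 : ℝ) / 2) * II (fun y => wH 3 52 q t y * JsF q g r t y ^ 2
      * (nk q (fun i => tt (vSF r U t i) y) + nk q (fun i => vSF r U t i y))) := ii_const_mul _ _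
  have e2 : II G = C * r ^ (-(3 / 2) : ℝ) * (t / r) ^ 2 * DDA q U (t / r) := by
    rw [hGdef, ii_const_mul, ii_const_mul]
    rfl
  have e3 : Real.sqrt r * r ^ (-(3 / 2) : ℝ) = 1 / r := by
    rw [Real.sqrt_eq_rpow, ← Real.rpow_add hr]
    norm_num
    rw [Real.rpow_neg_one]
  rw [e1, e2] at key
  calc _ ≤ Real.sqrt r * (C * r ^ (-(3 / 2) : ℝ) * (t / r) ^ 2 * DDA q U (t / r)) := key
    _ = C * ((Real.sqrt r * r ^ (-(3 / 2) : ℝ)) * (t / r) ^ 2 * DDA q U (t / r)) := by ring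
    _ = _ := by rw [e3]

/-- **the static estimate of the rescaling error.** -/
theorem ld_sh_static (hq : 100 ≤ q) (hg : BgGood q g) :
    ∃ C Λ₁ : ℝ, 0 ≤ C ∧ 0 < Λ₁ ∧ ∀ r : ℝ, 0 < r → r ≤ 1 → ∀ t : ℝ, t / r ∈ Ico (-Λ₁) 0 → ∀ U : Tri, (∀ j, Sm (U j)) →
      ∀ d : Fin 3 → ℝ → ℝ, (∀ j, SmI (d j)) → ∀ ε : ℝ, 0 < ε →
      2 * (-t) ^ ((95 : ℝ) / 2) * |pairE q (wH 3 52 q t) d (slT (GsT q (bgR q g) r U) t)|
        ≤ ε * ((-t) ^ ((95 : ℝ) / 2) * Di q (wH 3 52 q t) d) + C / ε * (1 / r * (t / r) ^ 2 * DDA q U (t / r)) := by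
  have hq1 : (1 : ℝ) < q := by linarith
  have hs : BgSm (bgR q g) := bgR_sm hq1 hg.sm
  obtain ⟨Λd, Cd, hΛd, hd⟩ := hg.dev
  obtain ⟨Λc, Cc, hΛc, hΛc', _, hc⟩ := wc_coefB_R hq hg
  obtain ⟨C₁, hC₁, hTB⟩ := w0_tb_wH 3 52
  set Λ₁ : ℝ := min Λd Λc with hΛ₁
  have hΛ₁pos : 0 < Λ₁ := lt_min hΛd hΛc
  have hd' : DevC q (bgR q g) Λ₁ Cd := fun t ht => hd t ⟨by linarith [ht.1, min_le_left Λd Λc], ht.2⟩
  have hc' : CoefB q (bgR q g) Λ₁ Cc := hc.mono_Lam (min_le_right _ _)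
  obtain ⟨CT, hCT, hT⟩ := ld_sh_transfer hq hs hd' hc' ((min_le_right _ _).trans hΛc')
  refine ⟨4 * (C₁ + 39 + 36 * q) ^ 2 * CT, Λ₁, by positivity, hΛ₁pos, fun r hr hr1 t ht U hU d hdS ε hε => ?_⟩
  have ht0 : t < 0 := (ld_sh_t_mem hr hr1 ht).2
  have hV : TB C₁ (wH 3 52 q t) := hTB q t hq1 ht0
  have hv : ∀ i, SmI (vSF r U t i) := fun i => smI_of_contDiff (ld_sh_vSF_contDiff hr hU ht0 i)
  have hJ : ∀ y, ∀ x, x ≤ JsF q (bgR q g) r t y → x ≤ JsF q (bgR q g) r t y := fun _ _ h => h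
  have hP0nn : ∀ y, ∀ i j : Fin 3, |P0F q (bgR q g) r t i j y| ≤ ∑ i, ∑ j, |P0F q (bgR q g) r t i j y| := by
    intro y i j
    refine le_trans ?_ (Finset.single_le_sum (f := fun i => ∑ j, |P0F q (bgR q g) r t i j y|)
      (fun i _ => Finset.sum_nonneg fun j _ => abs_nonneg _) (Finset.mem_univ i))
    exact Finset.single_le_sum (f := fun j => |P0F q (bgR q g) r t i j y|) (fun j _ => abs_nonneg _) (Finset.mem_univ j)
  have hpert := ld_sh_pert (q := q) (C₁ := C₁) (ε := ε / 2) (V := wH 3 52 q t) (P2 := P2F (bgR q g) r t)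
    (P1 := P1F q (bgR q g) r t) (P0 := P0F q (bgR q g) r t) (J := JsF q (bgR q g) r t) (a := uV d) (v := vSF r U t)
    (by linarith) hV (ld_sh_P2_smI hs hr ht0) (ld_sh_P1_smI q hs hr ht0) (ld_sh_P0_smI q hs hr ht0)
    (ld_sh_Js_ci q hs hr ht0)
    (fun y _ => by
      unfold JsF
      have := Finset.sum_nonneg (s := Finset.univ) (f := fun i => ∑ j, |P0F q (bgR q g) r t i j y|)
        (fun i _ => Finset.sum_nonneg fun j _ => abs_nonneg _)
      linarith [abs_nonneg (tt (P2F (bgR q g) r t) y), abs_nonneg (P1F q (bgR q g) r t y)])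
    (fun y _ => by
      unfold JsF
      have := Finset.sum_nonneg (s := Finset.univ) (f := fun i => ∑ j, |P0F q (bgR q g) r t i j y|)
        (fun i _ => Finset.sum_nonneg fun j _ => abs_nonneg _)
      linarith [abs_nonneg (P2F (bgR q g) r t y), abs_nonneg (P1F q (bgR q g) r t y)])
    (fun y _ => by
      unfold JsF
      have := Finset.sum_nonneg (s := Finset.univ) (f := fun i => ∑ j, |P0F q (bgR q g) r t i j y|)
        (fun i _ => Finset.sum_nonneg fun j _ => abs_nonneg _)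
      linarith [abs_nonneg (P2F (bgR q g) r t y), abs_nonneg (tt (P2F (bgR q g) r t) y)])
    (fun i j y _ => by
      unfold JsF
      linarith [hP0nn y i j, abs_nonneg (P2F (bgR q g) r t y), abs_nonneg (tt (P2F (bgR q g) r t) y),
        abs_nonneg (P1F q (bgR q g) r t y)])
    (smI_uV hdS) hv (by positivity)
  have e1 : pairE q (wH 3 52 q t) d (slT (GsT q (bgR q g) r U) t)
      = II (fun y => wH 3 52 q t y * ∑ i, kapJ q i * uV d i y * (P2F (bgR q g) r t y * tt (tt (vSF r U t i)) y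
          + P1F q (bgR q g) r t y * tt (vSF r U t i) y + ∑ j, P0F q (bgR q g) r t i j y * vSF r U t j y)) := by
    unfold pairE
    refine ii_congr (fun y hy => ?_)
    simp only [← ld_sh_Gs_id q (bgR q g) hr hr1 hU ht0 _ hy, ipK, Finset.mul_sum]
    refine Finset.sum_congr rfl (fun i _ => ?_)
    ring
  have e2 : II (fun y => wH 3 52 q t y * (nk q (fun i => tt (uV d i) y) + q * nk q (fun i => uV d i y)))
      = Di q (wH 3 52 q t) d := by
    unfold Di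
    refine ii_congr (fun y _ => ?_)
    rw [n2_eq_nk, n2t_eq_nk]
  rw [← e1, e2] at hpert
  have hT' := hT r hr hr1 t ht U hU
  have hL : 0 ≤ (-t) ^ ((95 : ℝ) / 2) := Real.rpow_nonneg (by linarith) _
  have hK : 0 ≤ (C₁ + 39 + 36 * q) ^ 2 / (ε / 2) := by positivity
  calc 2 * (-t) ^ ((95 : ℝ) / 2) * |pairE q (wH 3 52 q t) d (slT (GsT q (bgR q g) r U) t)|
      ≤ 2 * (-t) ^ ((95 : ℝ) / 2) * (ε / 2 * Di q (wH 3 52 q t) d + (C₁ + 39 + 36 * q) ^ 2 / (ε / 2)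
          * II (fun y => wH 3 52 q t y * JsF q (bgR q g) r t y ^ 2
            * (nk q (fun i => tt (vSF r U t i) y) + nk q (fun i => vSF r U t i y)))) :=
        mul_le_mul_of_nonneg_left hpert (by positivity)
    _ = ε * ((-t) ^ ((95 : ℝ) / 2) * Di q (wH 3 52 q t) d) + 2 * ((C₁ + 39 + 36 * q) ^ 2 / (ε / 2))
          * ((-t) ^ ((95 : ℝ) / 2) * II (fun y => wH 3 52 q t y * JsF q (bgR q g) r t y ^ 2
            * (nk q (fun i => tt (vSF r U t i) y) + nk q (fun i => vSF r U t i y)))) := by ring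
    _ ≤ ε * ((-t) ^ ((95 : ℝ) / 2) * Di q (wH 3 52 q t) d) + 2 * ((C₁ + 39 + 36 * q) ^ 2 / (ε / 2))
          * (CT * (1 / r * (t / r) ^ 2 * DDA q U (t / r))) := by
        have := mul_le_mul_of_nonneg_left hT' (by positivity : 0 ≤ 2 * ((C₁ + 39 + 36 * q) ^ 2 / (ε / 2)))
        linarith
    _ = _ := by
        field_simp
        ring

end

end Claimed.Agent.R324.Core
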