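/-
Row 324 (S0582), PDE core, module LD.   Blueprint 7.4, tag LD6 "shift".      FILE LD/ShInt      (helper325)
   Λ = -t;   `scT, GsT`: Core/LD/ShDefs.lean;   `ld_sh_static`: ShStat;  `ld_sh_eq`: ShEq;   `ld_heavy_diff`: HeavyS;  `ld_heavyA_int`: HeavyI;   `ld_integrate`: BasicC;  `ld_rpow_hasDerivAt`: BasicT.
TIME INTEGRATION OF THE SHIFT ESTIMATE.       D = U' - scT r U,  r = e^{-s}.
   `ld_sh_diff`:   E' + (119/4)/Λ E ≤ C r⁻¹ (t/r)² DD_A(U)(t/r),     E = EE_B(D)             (`ld_heavy_diff` with Q = -Gs, `ld_sh_static` with ε = c_H).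
   `ld_sh_gron` (abstract):     f(t) = Λ^a E(t), a = -28:   f' = Λ^a (E' + 28/Λ E) ≤ Λ^a (E' + (119/4)/Λ E) ≤ h(t) := Λ^a C r⁻¹ (t/r)² Dn(t/r)      (`ld_rpow_hasDerivAt a`, `HasDerivAt.mul`;  Λ^(a-1) = Λ^a/Λ: `Real.rpow_sub_one`;  E ≥ 0);
        `ld_integrate` on [r t₁, r t₂] with g = 0:    f(r t₂) ≤ f(r t₁) + ∫_{r t₁}^{r t₂} h = ∫ h;       substitution t = r σ (`intervalIntegral.mul_integral_comp_mul_left`):   ∫_{r t₁}^{r t₂} h = r ∫_{t₁}^{t₂} h(r σ) dσ,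
        r h(r σ) = r^a C (-σ)^a σ² Dn(σ)   (`Real.mul_rpow`, r σ / r = σ),    σ² ≤ t₁² on [t₁,t₂]  (`intervalIntegral.integral_mono_on`);      f(r t₂) = r^a (-t₂)^a E(r t₂);    divide by r^a > 0.
        Continuity of h on [r t₁, r t₂]:  `ContinuousOn.rpow_const`, `hDn.comp` with t ↦ t/r (maps into Iio 0).
-/
import Claimed.Agent.R324.Core.LD.ShStat
import Claimed.Agent.R324.Core.LD.ShEq
import Claimed.Agent.R324.Core.LD.HeavyI

set_option autoImplicit false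

namespace Claimed.Agent.R324.Core

open Set Filter Topology MeasureTheory
open scoped ContDiff

noncomputable section

variable {N : ℕ} {q δ K g₀ Λ₀ cH : ℝ} {g : Bg} {b : Fin N → Fin 3 → ℝ → ℝ}

/-- abstract integration lemma. -/
theorem ld_sh_gron {r t₁ t₂ C : ℝ} (hr : 0 < r) (h12 : t₁ ≤ t₂) (h2 : t₂ < 0) (hC : 0 ≤ C) {E Dn : ℝ → ℝ}
    (hDn : ContinuousOn Dn (Iio 0)) (hDn0 : ∀ t < 0, 0 ≤ Dn t) (hE0 : ∀ t < 0, 0 ≤ E t) (hE1 : E (r * t₁) = 0)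
    (hd : ∀ t ∈ Icc (r * t₁) (r * t₂), ∃ e : ℝ, HasDerivAt E e t ∧
      e + 119 / 4 / (-t) * E t ≤ C * (1 / r * (t / r) ^ 2 * Dn (t / r))) :
    (-t₂) ^ (-2 * (14 : ℝ)) * E (r * t₂) ≤ C * (-t₁) ^ 2 * ∫ σ in t₁..t₂, (-σ) ^ (-2 * (14 : ℝ)) * Dn σ := by
  set a : ℝ := -2 * (14 : ℝ) with ha
  have h1 : t₁ < 0 := lt_of_le_of_lt h12 h2
  have hrt : ∀ t ∈ Icc (r * t₁) (r * t₂), t < 0 := fun t ht =>
    lt_of_le_of_lt ht.2 (mul_neg_of_pos_of_neg hr h2)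
  have hst : ∀ σ ∈ Icc t₁ t₂, σ < 0 := fun σ hσ => lt_of_le_of_lt hσ.2 h2
  have hpc : ∀ {u v : ℝ}, (∀ t ∈ Icc u v, t < 0) → ContinuousOn (fun t : ℝ => (-t) ^ a) (Icc u v) := by
    intro u v huv
    refine ContinuousOn.rpow_const continuous_neg.continuousOn fun t ht => Or.inl ?_
    have := huv t ht
    linarith
  have hcont : ContinuousOn (fun t => (-t) ^ a * (C * (1 / r * (t / r) ^ 2 * Dn (t / r))))
      (Icc (r * t₁) (r * t₂)) := by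
    have hD : ContinuousOn (fun t => Dn (t / r)) (Icc (r * t₁) (r * t₂)) :=
      hDn.comp (continuous_id.div_const r).continuousOn
        (fun t ht => div_neg_of_neg_of_pos (hrt t ht) hr)
    have hq : ContinuousOn (fun t : ℝ => (t / r) ^ 2) (Icc (r * t₁) (r * t₂)) :=
      ((continuous_id.div_const r).pow 2).continuousOn
    exact (hpc hrt).mul (continuousOn_const.mul ((continuousOn_const.mul hq).mul hD))
  have hint := ld_integrate (f := fun t => (-t) ^ a * E t) (g := fun _ => 0)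
    (h := fun t => (-t) ^ a * (C * (1 / r * (t / r) ^ 2 * Dn (t / r))))
    (mul_le_mul_of_nonneg_left h12 hr.le) ?_ continuousOn_const hcont
  swap
  · intro t ht
    obtain ⟨e, he, hle⟩ := hd t ht
    have ht0 : t < 0 := hrt t ht
    have hΛ : 0 < -t := by linarith
    refine ⟨-a * (-t) ^ (a - 1) * E t + (-t) ^ a * e, (ld_rpow_hasDerivAt a ht0).mul he, ?_⟩
    have hp : 0 < (-t) ^ a := Real.rpow_pos_of_pos hΛ a
    have e1 : (-t) ^ (a - 1) = (-t) ^ a / (-t) := Real.rpow_sub_one hΛ.ne' a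
    have hE : 0 ≤ E t := hE0 t ht0
    have h3 : -a * (-t) ^ (a - 1) * E t + (-t) ^ a * e = (-t) ^ a * (e + 28 / (-t) * E t) := by
      rw [e1, ha]
      field_simp
      ring
    rw [add_zero, h3]
    refine mul_le_mul_of_nonneg_left (le_trans ?_ hle) hp.le
    have h4 : 28 / (-t) * E t ≤ 119 / 4 / (-t) * E t := by
      refine mul_le_mul_of_nonneg_right ?_ hE
      exact div_le_div_of_nonneg_right (by norm_num) hΛ.le
    linarith
  simp only [intervalIntegral.integral_zero, add_zero, hE1, mul_zero, zero_add] at hint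
  rw [← intervalIntegral.mul_integral_comp_mul_left, ← intervalIntegral.integral_const_mul] at hint
  have hra : 0 < r ^ a := Real.rpow_pos_of_pos hr a
  have hcongr : ∀ σ ∈ uIcc t₁ t₂,
      r * ((-(r * σ)) ^ a * (C * (1 / r * (r * σ / r) ^ 2 * Dn (r * σ / r))))
        = r ^ a * (C * σ ^ 2 * ((-σ) ^ a * Dn σ)) := by
    intro σ hσ
    rw [uIcc_of_le h12] at hσ
    have hσ0 : 0 < -σ := by have := hst σ hσ; linarith
    rw [mul_div_cancel_left₀ _ hr.ne', show -(r * σ) = r * (-σ) by ring,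
      Real.mul_rpow hr.le hσ0.le]
    field_simp
  rw [intervalIntegral.integral_congr hcongr, intervalIntegral.integral_const_mul] at hint
  have hk : ContinuousOn (fun σ => (-σ) ^ a * Dn σ) (Icc t₁ t₂) :=
    (hpc hst).mul (hDn.mono fun σ hσ => hst σ hσ)
  have hii : ∀ f : ℝ → ℝ, ContinuousOn f (Icc t₁ t₂) → IntervalIntegrable f volume t₁ t₂ := fun f hf =>
    ContinuousOn.intervalIntegrable (by rwa [uIcc_of_le h12])
  have hmono : ∫ σ in t₁..t₂, C * σ ^ 2 * ((-σ) ^ a * Dn σ)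
      ≤ ∫ σ in t₁..t₂, C * (-t₁) ^ 2 * ((-σ) ^ a * Dn σ) := by
    refine intervalIntegral.integral_mono_on h12
      (hii _ ((continuousOn_const.mul (continuous_id.pow 2).continuousOn).mul hk))
      (hii _ (continuousOn_const.mul hk)) ?_
    intro σ hσ
    have hσ0 : σ < 0 := hst σ hσ
    have hk0 : 0 ≤ (-σ) ^ a * Dn σ :=
      mul_nonneg (Real.rpow_nonneg (by linarith) _) (hDn0 σ hσ0)
    refine mul_le_mul_of_nonneg_right (mul_le_mul_of_nonneg_left ?_ hC) hk0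
    nlinarith [hσ.1]
  rw [intervalIntegral.integral_const_mul] at hmono
  have hl : (-(r * t₂)) ^ a = r ^ a * (-t₂) ^ a := by
    rw [show -(r * t₂) = r * (-t₂) by ring, Real.mul_rpow hr.le (by linarith)]
  rw [hl] at hint
  have hfin : r ^ a * ((-t₂) ^ a * E (r * t₂))
      ≤ r ^ a * (C * (-t₁) ^ 2 * ∫ σ in t₁..t₂, (-σ) ^ a * Dn σ) := by
    calc r ^ a * ((-t₂) ^ a * E (r * t₂)) = r ^ a * (-t₂) ^ a * E (r * t₂) := by ring
      _ ≤ r ^ a * ∫ σ in t₁..t₂, C * σ ^ 2 * ((-σ) ^ a * Dn σ) := hint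
      _ ≤ _ := mul_le_mul_of_nonneg_left hmono hra.le
  exact le_of_mul_le_mul_left hfin hra

/-- the differential inequality of the difference. -/
theorem ld_sh_diff (hq : 100 ≤ q) (hg : BgGood q g) :
    ∃ C Λ₁ : ℝ, 0 ≤ C ∧ 0 < Λ₁ ∧ ∀ (N : ℕ) (b : Fin N → Fin 3 → ℝ → ℝ) (δ K g₀ Λ₀ cH : ℝ),
      HeavyData q g N b δ K g₀ Λ₀ cH → Λ₀ ≤ Λ₁ → K * Λ₀ ≤ 1 / 20 →
      ∀ s : ℝ, 0 ≤ s → ∀ (m : ℝ → EuclideanSpace ℝ (Fin N)) (U U' : Tri), (∀ j, Sm (U j)) → (∀ j, Sm (U' j)) →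
      SolL q g b (AofV q g₀ b) 1 (Fmc (AofV q g₀ b) m) U →
      SolL q g b (AofV q g₀ b) 1 (Fmc (AofV q g₀ b) (fun σ => m (σ - s))) U' →
      ∀ t : ℝ, t / Real.exp (-s) ∈ Ico (-Λ₀) 0 →
      ∃ e : ℝ, HasDerivAt (EEB q (fun j p => U' j p - scT (Real.exp (-s)) U j p)) e t ∧
        e + 119 / 4 / (-t) * EEB q (fun j p => U' j p - scT (Real.exp (-s)) U j p) t
          ≤ C / cH * (1 / Real.exp (-s) * (t / Real.exp (-s)) ^ 2 * DDA q U (t / Real.exp (-s))) := by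
  obtain ⟨CS, ΛS, hCS, hΛS, hstat⟩ := ld_sh_static hq hg
  have hq1 : (1 : ℝ) < q := by linarith
  have hsR : BgSm (bgR q g) := bgR_sm hq1 hg.sm
  refine ⟨CS, ΛS, hCS, hΛS, fun N b δ K g₀ Λ₀ cH H hΛ hK20 s hs m U U' hU hU' hsol hsol' t ht => ?_⟩
  set r : ℝ := Real.exp (-s) with hrdef
  have hr : 0 < r := Real.exp_pos _
  have hr1 : r ≤ 1 := by
    rw [hrdef, Real.exp_le_one_iff]
    linarith
  have htm : t ∈ Ico (-Λ₀) 0 := ld_sh_t_mem hr hr1 ht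
  have ht0 : t < 0 := htm.2
  have hD : ∀ j, Sm ((fun j p => U' j p - scT r U j p : Tri) j) := fun j => (hU' j).sub (sm_scT hr hU j)
  have hG : ∀ j, Sm (GsT q (bgR q g) r U j) := sm_GsT q hsR hr hU
  have heq := ld_sh_eq hq hg H hK20 hs hU hU' hsol hsol' ht
  have hQ : ∀ j, CI ((fun j y => -(GsT q (bgR q g) r U j (t, y)) : Fin 3 → ℝ → ℝ) j) := fun j =>
    ((hG j).smI ht0).neg.continuousOn
  obtain ⟨e, he, hin⟩ := ld_heavy_diff hq hg H hD hQ htm heq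
  refine ⟨e, he, ?_⟩
  have hneg : (fun j y => -(GsT q (bgR q g) r U j (t, y)) : Fin 3 → ℝ → ℝ)
      = fun l y => (-1 : ℝ) * slT (GsT q (bgR q g) r U) t l y := by
    funext l y
    simp [slT]
  rw [hneg, ld_pairE_smul] at hin
  have hst := hstat r hr hr1 t ⟨by linarith [ht.1], ht.2⟩ U hU (slT (fun j p => U' j p - scT r U j p) t)
    (smI_slT hD ht0) cH H.cpos
  have hab := neg_abs_le (pairE q (wH 3 52 q t) (slT (fun j p => U' j p - scT r U j p) t)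
    (slT (GsT q (bgR q g) r U) t))
  have hL : 0 ≤ (-t) ^ ((95 : ℝ) / 2) := Real.rpow_nonneg (by linarith) _
  have hDDB : DDB q (fun j p => U' j p - scT r U j p) t
      = (-t) ^ ((95 : ℝ) / 2) * Di q (wH 3 52 q t) (slT (fun j p => U' j p - scT r U j p) t) := rfl
  rw [← hDDB] at hst
  have h3 : 2 * (-t) ^ ((95 : ℝ) / 2) * (-1 * pairE q (wH 3 52 q t) (slT (fun j p => U' j p - scT r U j p) t)
      (slT (GsT q (bgR q g) r U) t))
      ≤ 2 * (-t) ^ ((95 : ℝ) / 2) * |pairE q (wH 3 52 q t) (slT (fun j p => U' j p - scT r U j p) t)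
      (slT (GsT q (bgR q g) r U) t)| := by
    refine mul_le_mul_of_nonneg_left ?_ (by positivity)
    linarith
  linarith

/-- **the integrated shift estimate.** -/
theorem ld_sh_int (hq : 100 ≤ q) (hg : BgGood q g) (H : HeavyData q g N b δ K g₀ Λ₀ cH) :
    ∃ C Λ₁ : ℝ, 0 ≤ C ∧ 0 < Λ₁ ∧ Λ₁ ≤ Λ₀ ∧ K * Λ₁ ≤ 1 / 20 ∧
    ∀ s : ℝ, 0 ≤ s → ∀ (m : ℝ → EuclideanSpace ℝ (Fin N)) (U U' : Tri) (t₁ : ℝ), Continuous m →
      (∀ j, Sm (U j)) → (∀ j, Sm (U' j)) → t₁ ∈ Ico (-Λ₁) 0 → VanB t₁ U → VanB (Real.exp (-s) * t₁) U' →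
      SolL q g b (AofV q g₀ b) 1 (Fmc (AofV q g₀ b) m) U →
      SolL q g b (AofV q g₀ b) 1 (Fmc (AofV q g₀ b) (fun σ => m (σ - s))) U' →
      ∀ t₂ ∈ Ico t₁ 0,
        (-t₂) ^ (-2 * (14 : ℝ)) * EEB q (fun j p => U' j p - scT (Real.exp (-s)) U j p) (Real.exp (-s) * t₂)
          ≤ C * (-t₁) ^ 2 * mEn 14 m t₁ t₂ := by
  obtain ⟨CS, ΛS, hCS, hΛS, hdiff⟩ := ld_sh_diff hq hg
  obtain ⟨CA, cA, ΛA, hCA, hcA, hΛA, hΛA0, hA⟩ := ld_heavyA_int hq hg H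
  have hq1 : (1 : ℝ) < q := by linarith
  have hK : 0 < K := H.Kpos
  set Λ₁ : ℝ := min (min ΛS ΛA) (1 / (20 * K)) with hΛ₁
  have hΛ₁pos : 0 < Λ₁ := lt_min (lt_min hΛS hΛA) (by positivity)
  have hΛ₁S : Λ₁ ≤ ΛS := (min_le_left _ _).trans (min_le_left _ _)
  have hΛ₁A : Λ₁ ≤ ΛA := (min_le_left _ _).trans (min_le_right _ _)
  have hΛ₁0 : Λ₁ ≤ Λ₀ := hΛ₁A.trans hΛA0
  have hK20 : K * Λ₁ ≤ 1 / 20 := by
    have h1 : Λ₁ ≤ 1 / (20 * K) := min_le_right _ _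
    calc K * Λ₁ ≤ K * (1 / (20 * K)) := mul_le_mul_of_nonneg_left h1 hK.le
      _ = 1 / 20 := by field_simp
  have H₁ : HeavyData q g N b δ K g₀ Λ₁ cH := H.mono hΛ₁pos hΛ₁0
  refine ⟨CS / cH * (CA / cA), Λ₁, by have := H.cpos; positivity, hΛ₁pos, hΛ₁0, hK20, ?_⟩
  intro s hs m U U' t₁ hm hU hU' ht₁ hv hv' hsol hsol' t₂ ht₂
  set r : ℝ := Real.exp (-s) with hrdef
  have hr : 0 < r := Real.exp_pos _
  have hD : ∀ j, Sm ((fun j p => U' j p - scT r U j p : Tri) j) := fun j => (hU' j).sub (sm_scT hr hU j)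
  have hE1 : EEB q (fun j p => U' j p - scT r U j p) (r * t₁) = 0 := by
    refine ld_EEB_zero q (fun j y hy => ?_)
    have h1 : U' j (r * t₁, y) = 0 := hv' j _ le_rfl y hy
    have h2 : scT r U j (r * t₁, y) = 0 := by
      simp only [scT]
      rw [mul_div_cancel_left₀ _ hr.ne', hv j t₁ le_rfl _ (ld_sh_ScF_mem hr hy), mul_zero]
    show U' j (r * t₁, y) - scT r U j (r * t₁, y) = 0
    rw [h1, h2, sub_zero]
  have hgr := ld_sh_gron (r := r) (t₁ := t₁) (t₂ := t₂) (C := CS / cH) hr ht₂.1 ht₂.2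
    (by have := H.cpos; positivity) (E := EEB q (fun j p => U' j p - scT r U j p)) (Dn := DDA q U)
    (ld_DDA_cont q hU) (fun t ht => ld_DDA_nonneg hq1 U ht) (fun t ht => ld_EEB_nonneg hq1 _ ht) hE1
    (fun t ht => by
      refine hdiff N b δ K g₀ Λ₁ cH H₁ hΛ₁S hK20 s hs m U U' hU hU' hsol hsol' t ?_
      constructor
      · rw [le_div_iff₀ hr]
        nlinarith [ht.1, ht₁.1]
      · rw [div_lt_iff₀ hr]
        nlinarith [ht.2, ht₂.2])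
  have hAi := hA 14 ⟨by norm_num, le_rfl⟩ U m t₁ hU hm ⟨by linarith [ht₁.1], ht₁.2⟩ hv hsol t₂ ht₂
  have hEA : 0 ≤ (-t₂) ^ (-2 * (14 : ℝ)) * EEA q U t₂ :=
    mul_nonneg (Real.rpow_nonneg (by linarith [ht₂.2]) _) (ld_EEA_nonneg hq1 U ht₂.2)
  have hint : ∫ σ in t₁..t₂, (-σ) ^ (-2 * (14 : ℝ)) * DDA q U σ ≤ CA / cA * mEn 14 m t₁ t₂ := by
    rw [div_mul_eq_mul_div, le_div_iff₀ hcA]
    linarith
  refine hgr.trans ?_
  have hc : 0 ≤ CS / cH * (-t₁) ^ 2 := by have := H.cpos; positivity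
  calc CS / cH * (-t₁) ^ 2 * ∫ σ in t₁..t₂, (-σ) ^ (-2 * (14 : ℝ)) * DDA q U σ
      ≤ CS / cH * (-t₁) ^ 2 * (CA / cA * mEn 14 m t₁ t₂) := mul_le_mul_of_nonneg_left hint hc
    _ = _ := by ring

end

end Claimed.Agent.R324.Core
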