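/-
Row 324 (S0582), PDE core, module LD.   Blueprint 7.4, tag LD6 "shift".      FILE LD/Shift      (helper325)
THE FIELD `shift` OF `ControlHyp` FOR `Kop`.
   `ld_sh_main`:   for solutions U (forcing Σ m_i Ac_i, zero for t ≤ t(τa)) and U' (forcing Σ m_i(·-s) Ac_i, zero for t ≤ t(τa+s)) of (L_1) and every observation c:
        e^{28 τ} |O_c[U'](t(τ+s)) - O_c[U](t(τ))|² ≤ C e^{-2τa} wEnergy 14 m τ.
   [O_c[U](t(τ)) = O_c[scT r U](r t(τ)) (`ld_sh_Obs`), r = e^{-s}, t(τ+s) = r t(τ) (`ld_tOf_add`);   (O) `ld_Obs_bound` for D = U' - scT r U;   `ld_sh_int`;   e^{28τ} = Λ^{-28} (`ld_exp_tauOf`), `ld_wEnergy_eq`.]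
   `ld_K_shift`:   the same for `Kop` (`Wop` = the solution; causality from `ld_wrapper` + `ld_unique2`).
-/
import Claimed.Agent.R324.Core.LD.ShInt

set_option autoImplicit false

namespace Claimed.Agent.R324.Core

open Set Filter Topology MeasureTheory
open scoped ContDiff

noncomputable section

open Claimed.Agent.R325 (wEnergy CausalSmooth ControlHyp)

variable {N : ℕ} {q δ K g₀ Λ₀ cH : ℝ} {g : Bg} {b : Fin N → Fin 3 → ℝ → ℝ}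

theorem ld_sh_main (hq : 100 ≤ q) (hg : BgGood q g) (H : HeavyData q g N b δ K g₀ Λ₀ cH) :
    ∃ Λ₁ : ℝ, 0 < Λ₁ ∧ Λ₁ ≤ Λ₀ ∧ ∀ c : Fin 3 → ℝ → ℝ, (∀ l, CcB δ K (c l)) → ∃ C : ℝ, 0 ≤ C ∧
    ∀ s τa : ℝ, 0 ≤ s → -Real.log Λ₁ ≤ τa → ∀ (m : ℝ → EuclideanSpace ℝ (Fin N)) (U U' : Tri), Continuous m →
      (∀ τ ≤ τa, m τ = 0) → (∀ j, Sm (U j)) → (∀ j, Sm (U' j)) → VanB (tOf τa) U → VanB (tOf (τa + s)) U' →
      SolL q g b (AofV q g₀ b) 1 (Fmc (AofV q g₀ b) m) U →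
      SolL q g b (AofV q g₀ b) 1 (Fmc (AofV q g₀ b) (fun σ => m (σ - s))) U' →
      ∀ τ : ℝ, Real.exp (2 * 14 * τ)
          * (Obs c (tOf (τ + s)) (slT U' (tOf (τ + s))) - Obs c (tOf τ) (slT U (tOf τ))) ^ 2
        ≤ C * Real.exp (-2 * τa) * wEnergy 14 m τ := by
  obtain ⟨CI₁, Λ₁, hCI, hΛ₁, hΛ₁0, hK20, hint⟩ := ld_sh_int hq hg H
  refine ⟨Λ₁, hΛ₁, hΛ₁0, fun c hc => ?_⟩
  obtain ⟨CO, hCO, hO⟩ := ld_Obs_bound hq H.δpos H.δK hc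
  refine ⟨CO * CI₁, mul_nonneg hCO hCI, ?_⟩
  intro s τa hs hτa m U U' hm hm0 hU hU' hv hv' hsol hsol' τ
  have hK : 0 < K := H.Kpos
  rcases le_or_gt τ τa with hτ | hτ
  · -- everything vanishes
    have h1 : Obs c (tOf τ) (slT U (tOf τ)) = 0 :=
      ld_Obs_zero c _ (fun l y hy => hv l _ ((ld_tOf_le_iff _ _).2 hτ) y hy)
    have h2 : Obs c (tOf (τ + s)) (slT U' (tOf (τ + s))) = 0 :=
      ld_Obs_zero c _ (fun l y hy => hv' l _ ((ld_tOf_le_iff _ _).2 (by linarith)) y hy)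
    rw [h1, h2]
    have := ld_wEnergy_nonneg 14 m τ
    have h3 : 0 ≤ CO * CI₁ * Real.exp (-2 * τa) * wEnergy 14 m τ := by positivity
    simpa using h3
  · set r : ℝ := Real.exp (-s) with hrdef
    have hr : 0 < r := Real.exp_pos _
    have hr1 : r ≤ 1 := by
      rw [hrdef, Real.exp_le_one_iff]
      linarith
    set t₁ : ℝ := tOf τa with ht₁def
    set t₂ : ℝ := tOf τ with ht₂def
    have ht₂0 : t₂ < 0 := ld_tOf_neg τ
    have ht₁0 : t₁ < 0 := ld_tOf_neg τa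
    have h12 : t₁ ≤ t₂ := (ld_tOf_le_iff _ _).2 hτ.le
    have ht₁m : t₁ ∈ Ico (-Λ₁) 0 := by
      refine ⟨?_, ht₁0⟩
      rw [← ld_tOf_neg_log hΛ₁]
      exact (ld_tOf_le_iff _ _).2 hτa
    have e1 : tOf (τ + s) = r * t₂ := ld_tOf_add τ s
    have e1' : tOf (τa + s) = r * t₁ := ld_tOf_add τa s
    rw [e1'] at hv'
    rw [e1]
    have hrt : r * t₂ < 0 := mul_neg_of_pos_of_neg hr ht₂0
    have hdiv : r * t₂ / r = t₂ := mul_div_cancel_left₀ _ hr.ne'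
    have hKt : K * (-t₂) ≤ 1 / 20 := by
      have : -t₂ ≤ Λ₁ := by linarith [ht₁m.1]
      exact (mul_le_mul_of_nonneg_left this hK.le).trans hK20
    have hOb := ld_sh_Obs (r := r) (t := r * t₂) (U := U) hK.le hr hr1 hrt (by rw [hdiv]; exact hKt) hc hU
    rw [hdiv] at hOb
    have hS : ∀ j, Sm (scT r U j) := sm_scT hr hU
    have hsub := ld_Obs_sub (c := c) (fun l => (hc l).continuous) (r * t₂)
      (u := slT U' (r * t₂)) (v := slT (scT r U) (r * t₂))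
      (fun l => ((hU' l).smI hrt).continuousOn) (fun l => ((hS l).smI hrt).continuousOn)
    rw [← hOb, ← hsub]
    have hD : ∀ j, Sm ((fun j p => U' j p - scT r U j p : Tri) j) := fun j => (hU' j).sub (hS j)
    have hKt' : K * (-(r * t₂)) ≤ 39 / 400 := by
      have : -(r * t₂) ≤ -t₂ := by nlinarith
      have := (mul_le_mul_of_nonneg_left this hK.le).trans hKt
      linarith
    have hb := hO (r * t₂) hrt hKt' (fun l y => slT U' (r * t₂) l y - slT (scT r U) (r * t₂) l y)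
      (fun l => ((hD l).smI hrt).continuousOn)
    have hEEB : (-(r * t₂)) ^ (95 / 2 : ℝ) * En q (wH 3 52 q (r * t₂))
        (fun l y => slT U' (r * t₂) l y - slT (scT r U) (r * t₂) l y)
        = EEB q (fun j p => U' j p - scT r U j p) (r * t₂) := rfl
    rw [hEEB] at hb
    have hi := hint s hs m U U' t₁ hm hU hU' ht₁m hv hv' hsol hsol' t₂ ⟨h12, ht₂0⟩
    have hexp : Real.exp (2 * 14 * τ) = (-t₂) ^ (-2 * (14 : ℝ)) := by
      have := ld_exp_tauOf (2 * 14) ht₂0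
      rw [ht₂def, ld_tauOf_tOf] at this
      rw [this, ht₂def]
      norm_num
    have hexp2 : Real.exp (-2 * τa) = (-t₁) ^ 2 := by
      rw [ht₁def]
      unfold tOf
      rw [neg_neg, ← Real.exp_nat_mul]
      congr 1
      push_cast
      ring
    have hwE : wEnergy 14 m τ = mEn 14 m t₁ t₂ := ld_wEnergy_eq 14 hm hm0 hτ.le
    rw [hexp, hexp2, hwE]
    have hP : 0 ≤ (-t₂) ^ (-2 * (14 : ℝ)) := Real.rpow_nonneg (by linarith) _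
    calc (-t₂) ^ (-2 * (14 : ℝ)) * Obs c (r * t₂) (fun l y => slT U' (r * t₂) l y - slT (scT r U) (r * t₂) l y) ^ 2
        ≤ (-t₂) ^ (-2 * (14 : ℝ)) * (CO * EEB q (fun j p => U' j p - scT r U j p) (r * t₂)) :=
          mul_le_mul_of_nonneg_left hb hP
      _ = CO * ((-t₂) ^ (-2 * (14 : ℝ)) * EEB q (fun j p => U' j p - scT r U j p) (r * t₂)) := by ring
      _ ≤ CO * (CI₁ * (-t₁) ^ 2 * mEn 14 m t₁ t₂) := mul_le_mul_of_nonneg_left hi hCO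
      _ = _ := by ring

/-- the response operator: specification. -/
theorem ld_sh_Wop_spec (q : ℕ) (hqo : Odd q) (hq1 : 1 < (q : ℝ)) (hg : BgSm g)
    (H : HeavyData q g N b δ K g₀ Λ₀ cH) {m : ℝ → EuclideanSpace ℝ (Fin N)} (hm : CausalSmooth (-Real.log Λ₀) m) :
    (∀ j, Sm (Wop q g b (AofV q g₀ b) Λ₀ m j)) ∧ VanB (-Λ₀) (Wop q g b (AofV q g₀ b) Λ₀ m) ∧
      SolL q g b (AofV q g₀ b) 1 (Fmc (AofV q g₀ b) m) (Wop q g b (AofV q g₀ b) Λ₀ m) := by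
  have hA : ∀ i l, CcB δ K (AofV (q : ℝ) g₀ b i l) := fun i l => H.bumpA (by linarith) i l
  have hS : ∀ j, Sm (Fmc (AofV (q : ℝ) g₀ b) m j) := ld_Fmc_smooth H.δpos hA hm.1
  have hS0 : VanB (-Λ₀) (Fmc (AofV (q : ℝ) g₀ b) m) := by
    intro j t ht y _
    rw [← ld_tOf_neg_log H.Λpos] at ht
    exact ld_Fmc_van _ hm.2 j t ht y
  obtain ⟨U, hU⟩ := ld_wrapper q hqo hq1 hg H.δpos H.bump hA 1 hS hS0
  exact Classical.epsilon_spec (p := fun U : Tri => (∀ j, Sm (U j)) ∧ VanB (-Λ₀) U ∧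
    SolL q g b (AofV q g₀ b) 1 (Fmc (AofV q g₀ b) m) U) ⟨U, hU⟩

/-- causality of the response operator. -/
theorem ld_sh_Wop_van (q : ℕ) (hqo : Odd q) (hq : (100 : ℝ) ≤ q) (hg : BgGood q g)
    (H : HeavyData q g N b δ K g₀ Λ₀ cH) {τa : ℝ} (hτa : -Real.log Λ₀ ≤ τa)
    {m : ℝ → EuclideanSpace ℝ (Fin N)} (hm : CausalSmooth τa m) :
    VanB (tOf τa) (Wop q g b (AofV q g₀ b) Λ₀ m) := by
  have hq1 : 1 < (q : ℝ) := by linarith
  have hA : ∀ i l, CcB δ K (AofV (q : ℝ) g₀ b i l) := fun i l => H.bumpA (by linarith) i l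
  have hS : ∀ j, Sm (Fmc (AofV (q : ℝ) g₀ b) m j) := ld_Fmc_smooth H.δpos hA hm.1
  have hS0 : VanB (tOf τa) (Fmc (AofV (q : ℝ) g₀ b) m) := fun j t ht y _ => ld_Fmc_van _ hm.2 j t ht y
  obtain ⟨U, hU, hv, hs⟩ := ld_wrapper q hqo hq1 hg.sm H.δpos H.bump hA 1 hS hS0
  have hm' : CausalSmooth (-Real.log Λ₀) m := ⟨hm.1, fun τ hτ => hm.2 τ (hτ.trans hτa)⟩
  obtain ⟨a1, a2, a3⟩ := ld_sh_Wop_spec q hqo hq1 hg.sm H hm'
  have hle : -Λ₀ ≤ tOf τa := by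
    rw [← ld_tOf_neg_log H.Λpos]
    exact (ld_tOf_le_iff _ _).2 hτa
  have he := ld_unique2 hq hg H a1 hU a2 (hv.mono hle) a3 hs
  intro j t ht y hy
  rw [he j t (lt_of_le_of_lt ht (ld_tOf_neg τa)) y hy]
  exact hv j t ht y hy

/-- **the field `shift` of `ControlHyp`.**   (`hcl`: the observation functions `c^{(l)}_i` are of class `CcB δ K`.) -/
theorem ld_K_shift (q : ℕ) (hqo : Odd q) (hq : (100 : ℝ) ≤ q) (hg : BgGood q g)
    (H : HeavyData q g N b δ K g₀ Λ₀ cH)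
    (hcl : ∀ (l : ℕ) (i : Fin N) (k : Fin 3), CcB δ K (cLev q b (AofV q g₀ b) K l i k)) :
    ∃ Λ₁ : ℝ, 0 < Λ₁ ∧ Λ₁ ≤ Λ₀ ∧ ∀ Λ₂ : ℝ, 0 < Λ₂ → Λ₂ ≤ Λ₁ → ∀ l : ℕ, ∃ C : ℝ, 0 ≤ C ∧
    ∀ s τa : ℝ, 0 ≤ s → -Real.log Λ₂ ≤ τa → ∀ m : ℝ → EuclideanSpace ℝ (Fin N), CausalSmooth τa m → ∀ τ : ℝ,
      Real.exp (2 * 14 * τ) * ‖Kop q g b (AofV q g₀ b) K Λ₂ l (fun σ => m (σ - s)) (τ + s)
          - Kop q g b (AofV q g₀ b) K Λ₂ l m τ‖ ^ 2
        ≤ C * Real.exp (-2 * τa) * wEnergy 14 m τ := by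
  obtain ⟨Λ₁, hΛ₁, hΛ₁0, hmain⟩ := ld_sh_main hq hg H
  refine ⟨Λ₁, hΛ₁, hΛ₁0, fun Λ₂ hΛ₂ hΛ₂1 l => ?_⟩
  have hq1 : 1 < (q : ℝ) := by linarith
  have H₂ : HeavyData q g N b δ K g₀ Λ₂ cH := H.mono hΛ₂ (hΛ₂1.trans hΛ₁0)
  choose C hC hB using fun i : Fin N => hmain (cLev q b (AofV q g₀ b) K l i) (hcl l i)
  refine ⟨∑ i, C i, Finset.sum_nonneg fun i _ => hC i, ?_⟩
  intro s τa hs hτa m hm τ
  have hlog : -Real.log Λ₁ ≤ -Real.log Λ₂ := by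
    have := Real.log_le_log hΛ₂ hΛ₂1
    linarith
  have hm2 : CausalSmooth (-Real.log Λ₂) m := ⟨hm.1, fun σ hσ => hm.2 σ (hσ.trans hτa)⟩
  have hms : CausalSmooth (τa + s) (fun σ => m (σ - s)) :=
    ⟨hm.1.comp (contDiff_id.sub contDiff_const), fun σ hσ => hm.2 _ (by linarith)⟩
  have hms2 : CausalSmooth (-Real.log Λ₂) (fun σ => m (σ - s)) :=
    ⟨hms.1, fun σ hσ => hms.2 σ (by linarith)⟩
  obtain ⟨a1, _, a3⟩ := ld_sh_Wop_spec q hqo hq1 hg.sm H₂ hm2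
  obtain ⟨b1, _, b3⟩ := ld_sh_Wop_spec q hqo hq1 hg.sm H₂ hms2
  have a2 := ld_sh_Wop_van q hqo hq hg H₂ hτa hm
  have b2 := ld_sh_Wop_van q hqo hq hg H₂ (by linarith : -Real.log Λ₂ ≤ τa + s) hms
  rw [EuclideanSpace.real_norm_sq_eq, Finset.mul_sum, Finset.sum_mul, Finset.sum_mul]
  refine Finset.sum_le_sum fun i _ => ?_
  exact hB i s τa hs (hlog.trans hτa) m _ _ hm.1.continuous hm.2 a1 b1 a2 b2 a3 b3 τ

end

end Claimed.Agent.R324.Core
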