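/-
Row 324 (S0582), PDE core, module LD (`linear_solve`), step LD6 (helper489).      FILE LD/Ctl
`ld_control_hyp`: the hypotheses `ControlHyp` of the control theorem (module V, R325/Pk06, Pk29) for `Kop`, `KmatOp`, `η₀ = 14`, `τmin = -log Λ₁`.
   add, smul, deriv, bound, solve:  LD/KOp.lean (proved).
   shift:  ONE input, `ld_ctl_need_shift`  (sub-architect helper325, files LD/Sh*.lean; to be wired to his `ld_K_shift`:  take `Λ₁ := ` his threshold, `H.mono`).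
-/
import Claimed.Agent.R324.Core.LD.KOp
import Claimed.Agent.R324.Core.LD.Shift

set_option autoImplicit false

namespace Claimed.Agent.R324.Core

open Set Filter Topology MeasureTheory
open scoped ContDiff

noncomputable section

open Claimed.Agent.R325 (wEnergy CausalSmooth ControlHyp)

variable {N : ℕ} {g : Bg} {b : Fin N → Fin 3 → ℝ → ℝ} {δ K g₀ Λ₀ cH : ℝ}

/-- INPUT (helper325): the field `shift`, on a possibly smaller interval `[-Λ₁,0)`. -/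
theorem ld_ctl_need_shift (q : ℕ) (hq : Odd q) (hq6 : 10 ^ 6 ≤ q) (hg : BgGood q g)
    (H : HeavyData q g N b δ K g₀ Λ₀ cH) :
    ∃ Λ₁ : ℝ, 0 < Λ₁ ∧ Λ₁ ≤ Λ₀ ∧ ∀ l : ℕ, ∃ C : ℝ, 0 ≤ C ∧
      ∀ s τa : ℝ, 0 ≤ s → -Real.log Λ₁ ≤ τa → ∀ m : ℝ → EuclideanSpace ℝ (Fin N), CausalSmooth τa m → ∀ τ,
        Real.exp (2 * 14 * τ) * ‖Kop q g b (AofV q g₀ b) K Λ₁ l (fun σ => m (σ - s)) (τ + s)
            - Kop q g b (AofV q g₀ b) K Λ₁ l m τ‖ ^ 2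
          ≤ C * Real.exp (-2 * τa) * wEnergy 14 m τ := by
  have hqR6 : (10 : ℝ) ^ 6 ≤ q := by exact_mod_cast hq6
  have hq2 : (100 : ℝ) ≤ q := le_trans (by norm_num) hqR6
  obtain ⟨Λ₁, hΛ₁, hΛ₁₀, h⟩ := ld_K_shift q hq hq2 hg H
    (fun l i k => ld_cLev_CcB q H.δpos (AofV q g₀ b) H.bump l i k)
  exact ⟨Λ₁, hΛ₁, hΛ₁₀, fun l => h Λ₁ hΛ₁ le_rfl l⟩

/-- **LD6.** -/
theorem ld_control_hyp (q : ℕ) (hq : Odd q) (hq6 : 10 ^ 6 ≤ q) (hg : BgGood q g)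
    (H : HeavyData q g N b δ K g₀ Λ₀ cH) :
    ∃ Λ₁ : ℝ, 0 < Λ₁ ∧ Λ₁ ≤ Λ₀ ∧ ∃ Cst : ℕ → ℝ,
      ControlHyp N (-Real.log Λ₁) 14 Cst (Kop q g b (AofV q g₀ b) K Λ₁) (KmatOp q b (AofV q g₀ b) K) := by
  have hqR6 : (10 : ℝ) ^ 6 ≤ q := by exact_mod_cast hq6
  have hq2 : (100 : ℝ) ≤ q := le_trans (by norm_num) hqR6
  have hq1 : (1 : ℝ) < q := by linarith
  obtain ⟨Λ₁, hΛ₁, hΛ₁₀, hsh⟩ := ld_ctl_need_shift q hq hq6 hg H
  have H₁ : HeavyData q g N b δ K g₀ Λ₁ cH := H.mono hΛ₁ hΛ₁₀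
  choose Cs hCs hS using hsh
  choose Cb hCb hB using fun l => ld_K_bound q hq hq2 hg H₁ l
  refine ⟨Λ₁, hΛ₁, hΛ₁₀, fun l => max (Cb l) (Cs l), ?_⟩
  refine ⟨fun l m₁ m₂ h₁ h₂ => ld_K_add q hq hq2 hg H₁ l m₁ m₂ h₁ h₂,
    fun l c m hm => ld_K_smul q hq hq2 hg H₁ l c m hm,
    fun l m hm τ => ld_K_deriv q hq hg H₁ hq1 l m hm τ, ?_, ?_,
    fun τa hτa ρ hρ => ld_K_solve q hq hq2 hg H₁ τa hτa ρ hρ⟩
  · intro l m hm τ
    exact (hB l m hm τ).trans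
      (mul_le_mul_of_nonneg_right (le_max_left _ _) (ld_wEnergy_nonneg 14 m τ))
  · intro l s τa hs hτa m hm τ
    refine (hS l s τa hs hτa m hm τ).trans ?_
    exact mul_le_mul_of_nonneg_right
      (mul_le_mul_of_nonneg_right (le_max_right _ _) (Real.exp_pos _).le) (ld_wEnergy_nonneg 14 m τ)

end

end Claimed.Agent.R324.Core
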