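/-
Row 324 (S0582), PDE core, module LD (`linear_solve`), architect helper217.   Blueprint 7.4 (origin/helper232:docs/R324_blueprint.md).   PORT of R325/Core/LD (packed in Claimed/Agent/R325/Pk37..Pk48.lean).      FILE LD/Poinc
   Λ = -t,  X = Xf y = 1 - y²,  Y = X/Λ,  τ = tauOf t = -log Λ;   u-form of a slice u = (σ, h₃, b):  uV u = (σ, h₃, X b);   κ = kapJ q;   𝕀 = II  (Core/W/Ibp.lean);   definitions of this module: Core/LD/Defs.lean.
LD1: finite rank Poincare inequality (scale free; pure 1-D calculus).       (R325 analogue: LD/Poinc.lean in Pk39: `ld_Poinc_cs`, `ld_Poinc_diff`, `ld_poinc_interval`, `ld_poinc_bump`, `ld_Poinc_sum` can be copied/adapted; here `Z` is only `C¹` on the closed interval, given by `HasDerivAt` + continuity of the derivative.)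
* `ld_poinc_diff`:  `Z y - Z s = ∫_s^y Z'` (`intervalIntegral.integral_eq_sub_of_hasDerivAt`), Cauchy-Schwarz `ld_poinc_cs`, monotonicity in the interval.
* `ld_poinc_interval`:  for `y ∈ I = [a,a+l]`:  `Z(y) - ∫ β Z = ∫ β(s) (Z(y) - Z(s)) ds`,  `|Z(y) - Z(s)|² ≤ l ∫_I Z'²`,  so  `Z(y)² ≤ 2 (∫ β Z)² + 2 l ∫_I Z'²`;  integrate over `I`.
* `ld_poinc_bump`:  copy from R325.
* `ld_poincare`:   `n` with `l := (K-δ)/n`, `2 l² ≤ ε` (`exists_nat_gt`),  `I_a = [δ + a l, δ + (a+1) l]`, `β_a` the bump of `I_a` (it is `CcB δ K`: it vanishes outside `I_a ⊆ [δ,K]`);    `∫_δ^K = Σ_a ∫_{I_a}` (`ld_Poinc_sum` of R325 / `intervalIntegral.sum_integral_adjacent_intervals`);   `∫_δ^K β_a Z = ∫_{I_a} β_a Z`;     `G₁ := 2 l`.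
-/
import Claimed.Agent.R324.Core.LD.BasicC

set_option autoImplicit false

namespace Claimed.Agent.R324.Core

open Set Filter Topology MeasureTheory
open scoped ContDiff

noncomputable section

variable {δ K : ℝ}

theorem ld_poinc_cs (s y : ℝ) (hsy : s ≤ y) (f : ℝ → ℝ) (hf : ContinuousOn f (Icc s y)) :
    (∫ x in s..y, f x) ^ 2 ≤ (y - s) * ∫ x in s..y, (f x) ^ 2 := by
  rcases hsy.eq_or_lt with rfl | hlt
  · simp
  have hpos : 0 < y - s := sub_pos.2 hlt
  have i1 : IntervalIntegrable f volume s y := hf.intervalIntegrable_of_Icc hsy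
  have i2 : IntervalIntegrable (fun x => (f x) ^ 2) volume s y := (hf.pow 2).intervalIntegrable_of_Icc hsy
  set I := ∫ x in s..y, f x with hI
  set c := I / (y - s) with hc
  have h0 : 0 ≤ ∫ x in s..y, (f x - c) ^ 2 :=
    intervalIntegral.integral_nonneg hsy (fun x _ => sq_nonneg _)
  have h1 : ∫ x in s..y, (f x - c) ^ 2 = (∫ x in s..y, (f x) ^ 2) - 2 * c * I + c ^ 2 * (y - s) := by
    have e : ∀ x, (f x - c) ^ 2 = (f x) ^ 2 - 2 * c * f x + c ^ 2 := fun x => by ring
    simp_rw [e]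
    rw [intervalIntegral.integral_add, intervalIntegral.integral_sub,
      intervalIntegral.integral_const_mul, intervalIntegral.integral_const]
    · simp [hI]; ring
    · exact i2
    · exact i1.const_mul _
    · exact i2.sub (i1.const_mul _)
    · exact intervalIntegrable_const
  rw [h1] at h0
  have h2 : c * (y - s) = I := by rw [hc]; field_simp
  have h3 : 2 * c * I = 2 * c ^ 2 * (y - s) := by rw [← h2]; ring
  have h4 : I ^ 2 = c ^ 2 * (y - s) * (y - s) := by rw [← h2]; ring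
  rw [h4]
  nlinarith [h0, h3, hpos]

theorem ld_poinc_diff (a b : ℝ) (Z Z' : ℝ → ℝ) (hZ : ∀ Y ∈ Icc a b, HasDerivAt Z (Z' Y) Y)
    (hZ' : ContinuousOn Z' (Icc a b)) (s y : ℝ) (hs : s ∈ Icc a b) (hy : y ∈ Icc a b) :
    (Z y - Z s) ^ 2 ≤ (b - a) * ∫ x in a..b, (Z' x) ^ 2 := by
  have hab : a ≤ b := hs.1.trans hs.2
  have key : ∀ s y : ℝ, s ∈ Icc a b → y ∈ Icc a b → s ≤ y →
      (Z y - Z s) ^ 2 ≤ (b - a) * ∫ x in a..b, (Z' x) ^ 2 := by
    intro s y hs hy hsy
    have hsub : Icc s y ⊆ Icc a b := Icc_subset_Icc hs.1 hy.2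
    have hc : ContinuousOn Z' (Icc s y) := hZ'.mono hsub
    have h1 : ∫ x in s..y, Z' x = Z y - Z s :=
      intervalIntegral.integral_eq_sub_of_hasDerivAt
        (fun x hx => hZ x (hsub (by rwa [uIcc_of_le hsy] at hx))) (hc.intervalIntegrable_of_Icc hsy)
    have h2 := ld_poinc_cs s y hsy Z' hc
    rw [h1] at h2
    have h3 : ∫ x in s..y, (Z' x) ^ 2 ≤ ∫ x in a..b, (Z' x) ^ 2 :=
      intervalIntegral.integral_mono_interval hs.1 hsy hy.2
        (Filter.Eventually.of_forall fun x => sq_nonneg _) ((hZ'.pow 2).intervalIntegrable_of_Icc hab)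
    have h4 : 0 ≤ ∫ x in s..y, (Z' x) ^ 2 :=
      intervalIntegral.integral_nonneg hsy (fun x _ => sq_nonneg _)
    have h5 : y - s ≤ b - a := by linarith [hs.1, hy.2]
    calc (Z y - Z s) ^ 2 ≤ (y - s) * ∫ x in s..y, (Z' x) ^ 2 := h2
      _ ≤ (b - a) * ∫ x in s..y, (Z' x) ^ 2 := mul_le_mul_of_nonneg_right h5 h4
      _ ≤ (b - a) * ∫ x in a..b, (Z' x) ^ 2 :=
          mul_le_mul_of_nonneg_left h3 (by linarith [hs.1, hs.2])
  rcases le_total s y with h | h
  · exact key s y hs hy h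
  · have := key y s hy hs h
    calc (Z y - Z s) ^ 2 = (Z s - Z y) ^ 2 := by ring
      _ ≤ _ := this

/-- One interval. -/
theorem ld_poinc_interval (a l : ℝ) (hl : 0 < l) (β : ℝ → ℝ) (hβ : Continuous β) (hβ0 : ∀ y, 0 ≤ β y)
    (hβ1 : ∫ y in a..(a + l), β y = 1) (Z Z' : ℝ → ℝ) (hZ : ∀ Y ∈ Icc a (a + l), HasDerivAt Z (Z' Y) Y)
    (hZ' : ContinuousOn Z' (Icc a (a + l))) :
    ∫ y in a..(a + l), (Z y) ^ 2
      ≤ 2 * l * (∫ y in a..(a + l), β y * Z y) ^ 2 + 2 * l ^ 2 * ∫ y in a..(a + l), (Z' y) ^ 2 := by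
  have hab : a ≤ a + l := by linarith
  have hZc : ContinuousOn Z (Icc a (a + l)) := fun Y hY => (hZ Y hY).continuousAt.continuousWithinAt
  have hβc : ContinuousOn β (Icc a (a + l)) := hβ.continuousOn
  set m := ∫ y in a..(a + l), β y * Z y with hm
  set D := ∫ y in a..(a + l), (Z' y) ^ 2 with hD
  have hD0 : 0 ≤ D := intervalIntegral.integral_nonneg hab (fun x _ => sq_nonneg _)
  set r := Real.sqrt (l * D) with hr
  have hr0 : 0 ≤ r := Real.sqrt_nonneg _
  have hr2 : r ^ 2 = l * D := Real.sq_sqrt (by positivity)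
  have hpt : ∀ y ∈ Icc a (a + l), |Z y - m| ≤ r := by
    intro y hy
    have e1 : Z y - m = ∫ s in a..(a + l), β s * (Z y - Z s) := by
      have : ∀ s, β s * (Z y - Z s) = Z y * β s - β s * Z s := fun s => by ring
      simp_rw [this]
      rw [intervalIntegral.integral_sub, intervalIntegral.integral_const_mul, hβ1]
      · simp [hm]
      · exact (continuous_const.mul hβ).intervalIntegrable _ _
      · exact (hβc.mul hZc).intervalIntegrable_of_Icc hab
    rw [e1]
    have e2 : |∫ s in a..(a + l), β s * (Z y - Z s)| ≤ ∫ s in a..(a + l), |β s * (Z y - Z s)| :=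
      intervalIntegral.abs_integral_le_integral_abs hab
    have e3 : ∫ s in a..(a + l), |β s * (Z y - Z s)| ≤ ∫ s in a..(a + l), β s * r := by
      apply intervalIntegral.integral_mono_on hab
      · exact ((hβc.mul (continuousOn_const.sub hZc)).abs).intervalIntegrable_of_Icc hab
      · exact (hβ.mul continuous_const).intervalIntegrable _ _
      · intro s hs
        rw [abs_mul, abs_of_nonneg (hβ0 s)]
        apply mul_le_mul_of_nonneg_left _ (hβ0 s)
        apply abs_le_of_sq_le_sq _ hr0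
        rw [hr2]
        have := ld_poinc_diff a (a + l) Z Z' hZ hZ' s y hs hy
        simpa using this
    have e4 : ∫ s in a..(a + l), β s * r = r := by
      rw [intervalIntegral.integral_mul_const, hβ1, one_mul]
    linarith
  have hpt2 : ∀ y ∈ Icc a (a + l), (Z y) ^ 2 ≤ 2 * m ^ 2 + 2 * (l * D) := by
    intro y hy
    have h1 : (Z y - m) ^ 2 ≤ l * D := by
      rw [← hr2]; exact sq_le_sq' (by linarith [(abs_le.1 (hpt y hy)).1]) (abs_le.1 (hpt y hy)).2
    nlinarith [sq_nonneg (Z y - 2 * m)]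
  calc ∫ y in a..(a + l), (Z y) ^ 2 ≤ ∫ y in a..(a + l), (2 * m ^ 2 + 2 * (l * D)) := by
        apply intervalIntegral.integral_mono_on hab
        · exact (hZc.pow 2).intervalIntegrable_of_Icc hab
        · exact continuous_const.intervalIntegrable _ _
        · exact hpt2
    _ = 2 * l * m ^ 2 + 2 * l ^ 2 * D := by
        rw [intervalIntegral.integral_const]; simp; ring

/-- normalised bump in an interval. -/
theorem ld_poinc_bump (a l : ℝ) (hl : 0 < l) :
    ∃ β : ℝ → ℝ, ContDiff ℝ ∞ β ∧ (∀ y, 0 ≤ β y) ∧ (∀ y, y ≤ a ∨ a + l ≤ y → β y = 0) ∧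
      ∫ y in a..(a + l), β y = 1 := by
  set g : ℝ → ℝ := fun y => Real.smoothTransition (y - a) * Real.smoothTransition (a + l - y) with hg
  have hgs : ContDiff ℝ ∞ g := by
    apply ContDiff.mul
    · exact Real.smoothTransition.contDiff.comp (contDiff_id.sub contDiff_const)
    · exact Real.smoothTransition.contDiff.comp (contDiff_const.sub contDiff_id)
  have hg0 : ∀ y, 0 ≤ g y := fun y =>
    mul_nonneg (Real.smoothTransition.nonneg _) (Real.smoothTransition.nonneg _)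
  have hgz : ∀ y, y ≤ a ∨ a + l ≤ y → g y = 0 := by
    rintro y (h | h)
    · simp only [hg]; rw [Real.smoothTransition.zero_of_nonpos (by linarith), zero_mul]
    · simp only [hg]; rw [Real.smoothTransition.zero_of_nonpos (x := a + l - y) (by linarith), mul_zero]
  have hgp : ∀ y ∈ Ioo a (a + l), 0 < g y := fun y hy =>
    mul_pos (Real.smoothTransition.pos_of_pos (by linarith [hy.1]))
      (Real.smoothTransition.pos_of_pos (by linarith [hy.2]))
  have hI : 0 < ∫ y in a..(a + l), g y :=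
    intervalIntegral.intervalIntegral_pos_of_pos_on (hgs.continuous.intervalIntegrable _ _) hgp
      (by linarith)
  refine ⟨fun y => (∫ y in a..(a + l), g y)⁻¹ * g y, contDiff_const.mul hgs,
    fun y => mul_nonneg (inv_nonneg.2 hI.le) (hg0 y), fun y hy => by show _ * g y = 0; rw [hgz y hy, mul_zero], ?_⟩
  rw [intervalIntegral.integral_const_mul, inv_mul_cancel₀ hI.ne']

theorem ld_poinc_sum (δ l : ℝ) (hl : 0 ≤ l) (N : ℕ) (f : ℝ → ℝ) (hf : ContinuousOn f (Icc δ (δ + N * l))) :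
    ∑ k ∈ Finset.range N, ∫ y in (δ + k * l)..(δ + k * l + l), f y = ∫ y in δ..(δ + N * l), f y := by
  have hpts : ∀ k : ℕ, δ + ((k + 1 : ℕ) : ℝ) * l = δ + k * l + l := fun k => by push_cast; ring
  have := intervalIntegral.sum_integral_adjacent_intervals (f := f) (μ := volume)
    (a := fun k : ℕ => δ + k * l) (n := N) (fun k hk => by
      have h1 : δ + (k : ℝ) * l ≤ δ + ((k + 1 : ℕ) : ℝ) * l := by rw [hpts]; linarith
      refine (hf.mono (Icc_subset_Icc ?_ ?_)).intervalIntegrable_of_Icc h1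
      · have : 0 ≤ (k : ℝ) * l := by positivity
        linarith
      · have h2 : ((k + 1 : ℕ) : ℝ) ≤ (N : ℝ) := by exact_mod_cast hk
        have := mul_le_mul_of_nonneg_right h2 hl
        linarith)
  simp only [hpts] at this
  rw [this]
  simp

theorem ld_poinc_loc (δ K a b : ℝ) (ha : δ ≤ a) (hab : a ≤ b) (hbK : b ≤ K) (f : ℝ → ℝ)
    (hc : ContinuousOn f (Icc δ K)) (hz : ∀ y, y ≤ a ∨ b ≤ y → f y = 0) :
    ∫ y in δ..K, f y = ∫ y in a..b, f y := by
  have e1 : ∫ y in δ..a, f y = 0 := by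
    rw [intervalIntegral.integral_congr (g := fun _ => (0:ℝ))]
    · simp
    · intro y hy
      rw [uIcc_of_le ha] at hy
      exact hz y (Or.inl hy.2)
  have e2 : ∫ y in b..K, f y = 0 := by
    rw [intervalIntegral.integral_congr (g := fun _ => (0:ℝ))]
    · simp
    · intro y hy
      rw [uIcc_of_le hbK] at hy
      exact hz y (Or.inr hy.1)
  have i1 : IntervalIntegrable f volume δ a :=
    (hc.mono (Icc_subset_Icc le_rfl (hab.trans hbK))).intervalIntegrable_of_Icc ha
  have i2 : IntervalIntegrable f volume a K :=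
    (hc.mono (Icc_subset_Icc ha le_rfl)).intervalIntegrable_of_Icc (hab.trans hbK)
  have i3 : IntervalIntegrable f volume a b :=
    (hc.mono (Icc_subset_Icc ha hbK)).intervalIntegrable_of_Icc hab
  have i4 : IntervalIntegrable f volume b K :=
    (hc.mono (Icc_subset_Icc (ha.trans hab) le_rfl)).intervalIntegrable_of_Icc hbK
  rw [← intervalIntegral.integral_add_adjacent_intervals i1 i2,
    ← intervalIntegral.integral_add_adjacent_intervals i3 i4, e1, e2]
  ring

/-- **LD1 (P), scale free.** -/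
theorem ld_poincare (hδK : δ < K) {ε : ℝ} (hε : 0 < ε) :
    ∃ (n : ℕ) (β : Fin n → ℝ → ℝ) (G₁ : ℝ), 0 ≤ G₁ ∧ (∀ a, CcB δ K (β a)) ∧
      ∀ Z Z' : ℝ → ℝ, (∀ Y ∈ Icc δ K, HasDerivAt Z (Z' Y) Y) → ContinuousOn Z' (Icc δ K) →
        ∫ Y in δ..K, (Z Y) ^ 2
          ≤ ε * (∫ Y in δ..K, (Z' Y) ^ 2) + G₁ * ∑ a, (∫ Y in δ..K, β a Y * Z Y) ^ 2 := by
  have hD : 0 < K - δ := sub_pos.2 hδK
  obtain ⟨N, hN⟩ := exists_nat_gt (max (K - δ) (2 * (K - δ) / ε))
  have hN1 : K - δ < (N : ℝ) := lt_of_le_of_lt (le_max_left _ _) hN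
  have hN2 : 2 * (K - δ) / ε < (N : ℝ) := lt_of_le_of_lt (le_max_right _ _) hN
  have hN0 : (0 : ℝ) < N := hD.trans hN1
  set l : ℝ := (K - δ) / N with hl
  have hl0 : 0 < l := div_pos hD hN0
  have hl1 : l < 1 := by rw [hl, div_lt_one hN0]; exact hN1
  have hl2 : l < ε / 2 := by
    rw [hl, div_lt_iff₀ hN0]
    rw [div_lt_iff₀ hε] at hN2
    linarith
  have hll : 2 * l ^ 2 ≤ ε := by nlinarith
  have hNl : δ + (N : ℝ) * l = K := by
    rw [hl]; field_simp; ring
  choose β hβs hβ0 hβz hβ1 using fun k : ℕ => ld_poinc_bump (δ + k * l) l hl0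
  have hlo : ∀ k : ℕ, δ ≤ δ + (k : ℝ) * l := fun k => by
    have : 0 ≤ (k : ℝ) * l := by positivity
    linarith
  have hhi : ∀ k : ℕ, k < N → δ + (k : ℝ) * l + l ≤ K := fun k hk => by
    have h2 : ((k + 1 : ℕ) : ℝ) ≤ (N : ℝ) := by exact_mod_cast hk
    have := mul_le_mul_of_nonneg_right h2 hl0.le
    push_cast at this
    linarith
  refine ⟨N, fun a => β a, 2 * l, by positivity, fun a => ⟨hβs a, ?_⟩, ?_⟩
  · rintro Y (hY | hY)
    · exact hβz a Y (Or.inl (hY.trans (hlo a)))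
    · exact hβz a Y (Or.inr ((hhi a a.2).trans hY))
  intro Z Z' hZ hZ'
  have hZc : ContinuousOn Z (Icc δ K) := fun Y hY => (hZ Y hY).continuousAt.continuousWithinAt
  have hB1 : ∫ y in δ..K, (Z y) ^ 2 ≤
      2 * l * ∑ k ∈ Finset.range N, (∫ y in (δ + k * l)..(δ + k * l + l), β k y * Z y) ^ 2
        + 2 * l ^ 2 * ∫ y in δ..K, (Z' y) ^ 2 := by
    have s1 := ld_poinc_sum δ l hl0.le N (fun y => (Z y) ^ 2) (by rw [hNl]; exact hZc.pow 2)
    have s2 := ld_poinc_sum δ l hl0.le N (fun y => (Z' y) ^ 2) (by rw [hNl]; exact hZ'.pow 2)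
    rw [hNl] at s1 s2
    rw [← s1, ← s2, Finset.mul_sum, Finset.mul_sum, ← Finset.sum_add_distrib]
    apply Finset.sum_le_sum
    intro k hk
    have hk' : k < N := Finset.mem_range.1 hk
    have hsub : Icc (δ + (k : ℝ) * l) (δ + k * l + l) ⊆ Icc δ K := Icc_subset_Icc (hlo k) (hhi k hk')
    exact ld_poinc_interval (δ + k * l) l hl0 (β k) (hβs k).continuous (hβ0 k) (hβ1 k) Z Z'
      (fun Y hY => hZ Y (hsub hY)) (hZ'.mono hsub)
  have hB2 : ∑ k ∈ Finset.range N, (∫ y in (δ + k * l)..(δ + k * l + l), β k y * Z y) ^ 2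
      = ∑ a : Fin N, (∫ Y in δ..K, β a Y * Z Y) ^ 2 := by
    rw [Finset.sum_range]
    refine Finset.sum_congr rfl fun a _ => ?_
    rw [ld_poinc_loc δ K (δ + (a : ℕ) * l) (δ + (a : ℕ) * l + l) (hlo a) (by linarith) (hhi a a.2)
      (fun y => β a y * Z y) ((hβs a).continuous.continuousOn.mul hZc)
      (fun y hy => by show β a y * Z y = 0; rw [hβz a y hy, zero_mul])]
  rw [hB2] at hB1
  have hD0 : 0 ≤ ∫ y in δ..K, (Z' y) ^ 2 := intervalIntegral.integral_nonneg hδK.le (fun x _ => sq_nonneg _)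
  have := mul_le_mul_of_nonneg_right hll hD0
  linarith

end

end Claimed.Agent.R324.Core
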