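/-
Row 324 (S0582), PDE core, module LD (`linear_solve`), architect helper217.   Blueprint 7.4 (origin/helper232:docs/R324_blueprint.md).   PORT of R325/Core/LD (packed in Claimed/Agent/R325/Pk37..Pk48.lean).      FILE LD/HeavyCo
   Λ = -t,  X = Xf y = 1 - y²,  Y = X/Λ,  τ = tauOf t = -log Λ;   u-form of a slice u = (σ, h₃, b):  uV u = (σ, h₃, X b);   κ = kapJ q;   𝕀 = II  (Core/W/Ibp.lean);   definitions of this module: Core/LD/Defs.lean.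
LD1': existence of the finite rank data `HeavyData`.        (R325 analogue: LD/HeavyCo.lean in Pk41.)       `V = wH 3 52 q t`, `ν = 95/2`, `û_l(Y) = uV u l (yOf t Y)`.
* `ld_hat_hasDerivAt`:  chain rule: `f` is differentiable at `φ = yOf t Y ∈ [19/20,1]` (`hf φ ..` : `ContDiffAt`), `ld_yOf_hasDerivAt`:  derivative `f'(φ) t/(2φ)`;   `tt f φ = -(1-φ²) f'(φ) = t Y f'(φ)` (`ld_Xf_yOf`; `Xf φ = 1 - φ²`), so `f'(φ) = tt f φ/(tY)`; `field_simp`.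
* `ld_poincare_core`.   `C_u` from `ld_core_up`, `C_t` from `ld_core_Dt`;   `ε' := 3 δ² ε/(Kh C_u C_t + 1)`;   `(n, β, G₁)` from `ld_poincare hδK (ε')`.     `N := n * 3`,  `b i l := if (finProdFinEquiv.symm i).2 = l then β (finProdFinEquiv.symm i).1 else 0`  (so `Σ_i F(b_i) = Σ_a Σ_l F(β_a e_l)`: `Fintype.sum_equiv finProdFinEquiv.symm`, `Fintype.sum_prod_type`);   `CcB`: `split_ifs` (`β a` or the zero function `⟨contDiff_const, fun _ _ => rfl⟩`).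
      `Obs (β_a e_l) t u = ∫_0^K β_a û_l = ∫_δ^K β_a û_l`   (`ld_Obs_scaled`; `Fin.sum_univ_three`/`Finset.sum_ite_eq`; `β_a = 0` on `[0,δ]`).
      `Z_l := û_l`, `Z_l' := tt (uV u l)(yOf)/(2 Y yOf)` (`ld_hat_hasDerivAt` with `smI_uV hu l`; continuity of `Z_l'` on `[δ,K]`: `SmI.tt`, `SmI.continuousOn`, `ld_yOf_continuous`),   `Z_l'² ≤ (tt (uV u l))²(yOf)/(3 δ²)`   (`4 Y² yOf² ≥ 4 δ² (361/400) ≥ 3 δ²`).
      `n2 q u (yOf) = Σ κ_l Z_l²`, `n2t q u (yOf) = Σ κ_l (tt (uV u l))²(yOf)` (`n2_eq_nk`, `n2t_eq_nk`), `κ_l ≤ q+1`: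
        `Kh Λ^ν 𝕀[..] ≤ (Kh C_u/Λ) Σ_l κ_l ∫ Z_l² ≤ (Kh C_u/Λ) [ (ε'/(3δ²)) ∫ n2t(û) + (q+1) G₁ Σ_{a,l} Obs² ] ≤ (Kh C_u C_t ε'/(3δ²)) Λ^{97/2}/Λ 𝕀[V n2t] + (G₂/Λ) Σ Obs²`,      `G₂ := Kh C_u (q+1) G₁`,   `Λ^{97/2}/Λ = Λ^{95/2}`.
* `ld_heavy_data`.   `(Λc, C)` from `wc_coefB_R hq hg`;   `(δ₀,K₀,Kh,Λ₁)` from `ld_coerH_static hq (bgR_sm .. hg.sm) .. 3 52 (95/2) hg.coerHB`;  `c₁ := min (1/4) (2/C)`;    `δ := δ₀/2`, `K := 2 K₀`;    `(N,b,G₂)` from `ld_poincare_core` (`ε = c₁/2`);    `g₀ := G₂ + 1`;   `C_i` from `ld_mismatch` for `b i`, `S := Σ_i C_i²`;     `cH := c₁/2`;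
      `Λ₀ := min Λ₁ (min ((δ/4)²) (min (1/(2K))² (min 1 (1/(2 g₀ (S+1))))))`   (then `√Λ₀ ≤ δ/4`, `K √Λ₀ ≤ 1/2`, `g₀ Λ₀² S ≤ 1/2`, `Λ₀ ≤ Λc ≤ 100/q`, `K Λ₀ ≤ 39/400`).
   `coer`:  with `E = Λ^ν En`, `O_i = Obs (b i) t u`, `P_i = Λ^ν pairE q V u (Actu (AofV q g₀ b i))`  (multiply the claim by `Λ^ν > 0`):
      `Λ^ν [QH - ν/Λ En + c₁ Di + 30/Λ En] ≤ Kh Λ^ν 𝕀[ψ₁ cutG (X/Λ) V n2] ≤ (c₁/2) Λ^ν Di + (G₂/Λ) Σ O_i²`      (`cutG δ₀ K₀` vanishes outside `(δ,K)`: `cutG_zero`; `w2_Di_t`),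
      `-2 O_i P_i ≤ -(2 g₀/Λ) O_i² + |O_i| g₀ C_i √E ≤ -(2g₀/Λ) O_i² + (g₀/(2Λ)) O_i² + (g₀ Λ C_i²/2) E`      (`ld_mismatch`, `abs_sub_le_iff`; `2ab ≤ a²/Λ + Λ b²`, `(√E)² = E`),
      `G₂ - 2 g₀ + g₀/2 ≤ 0`,      `(g₀ Λ S/2) E ≤ E/(4Λ)`.
-/
import Claimed.Agent.R324.Core.LD.ObsB
import Claimed.Agent.R324.Core.LD.CoerS
import Claimed.Agent.R324.Core.LD.Poinc

set_option autoImplicit false

namespace Claimed.Agent.R324.Core

open Set Filter Topology MeasureTheory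
open scoped ContDiff

noncomputable section

variable {q δ K t Y : ℝ} {g : Bg}

/-- derivative of `û(Y) = f(yOf t Y)`. -/
theorem ld_hat_hasDerivAt {f : ℝ → ℝ} (hf : SmI f) (ht : t < 0) (hY0 : 0 < Y) (hY : (-t) * Y ≤ 39 / 400) :
    HasDerivAt (fun s => f (yOf t s)) (tt f (yOf t Y) / (2 * Y * yOf t Y)) Y := by
  have hm := ld_yOf_mem ht hY0.le hY
  have hm' : yOf t Y ∈ Icc (-1 : ℝ) 1 := ⟨by linarith [hm.1], hm.2⟩
  have hφ : 0 < yOf t Y := by linarith [hm.1]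
  have h1 : HasDerivAt f (deriv f (yOf t Y)) (yOf t Y) := (hf.differentiableAt hm').hasDerivAt
  have h2 : HasDerivAt (yOf t) (t / (2 * yOf t Y)) Y := ld_yOf_hasDerivAt (by linarith)
  have h3 := h1.comp Y h2
  have e : tt f (yOf t Y) / (2 * Y * yOf t Y) = deriv f (yOf t Y) * (t / (2 * yOf t Y)) := by
    rw [tt_eq_Xf, ld_Xf_yOf (by linarith)]
    field_simp
  rw [e]
  exact h3

/-- **LD1 (P).** -/
theorem ld_poincare_core (hq : 100 ≤ q) (hδ : 0 < δ) (hδK : δ < K) {ε Kh : ℝ} (hε : 0 < ε) (hKh : 0 ≤ Kh) :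
    ∃ (N : ℕ) (b : Fin N → Fin 3 → ℝ → ℝ) (G₂ : ℝ), 0 ≤ G₂ ∧ (∀ i l, CcB δ K (b i l)) ∧
      ∀ G : ℝ → ℝ, Continuous G → (∀ Y, 0 ≤ G Y ∧ G Y ≤ 1) → (∀ Y, Y ≤ δ ∨ K ≤ Y → G Y = 0) →
      ∀ t < 0, -t ≤ 100 / q → K * (-t) ≤ 39 / 400 → ∀ u : Fin 3 → ℝ → ℝ, (∀ l, SmI (u l)) →
        Kh * ((-t) ^ (95 / 2 : ℝ)
            * II (fun y => psi1 y * G (Xf y / (-t)) * (Xf y / (-t) * wH 3 52 q t y * n2 q u y)))
          ≤ ε * ((-t) ^ (95 / 2 : ℝ) * II (fun y => wH 3 52 q t y * n2t q u y))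
            + G₂ / (-t) * ∑ i, (Obs (b i) t u) ^ 2 := by
  obtain ⟨Cu, hCu0, hCu⟩ := ld_core_up hq hδ hδK
  obtain ⟨Ct, hCt0, hCt⟩ := ld_core_Dt hq hδ hδK
  have hq0 : 0 < q := by linarith
  have hx0 : 0 ≤ Kh * Cu * Ct := mul_nonneg (mul_nonneg hKh hCu0) hCt0
  have hε' : 0 < 3 * δ ^ 2 * ε / (Kh * Cu * Ct + 1) := by positivity
  obtain ⟨n, β, G₁, hG₁, hβ, hP⟩ := ld_poincare hδK hε'
  set ε' := 3 * δ ^ 2 * ε / (Kh * Cu * Ct + 1) with hε'def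
  have hb : ∀ (i : Fin (n * 3)) (l : Fin 3), CcB δ K
      (if (finProdFinEquiv.symm i).2 = l then β (finProdFinEquiv.symm i).1 else fun _ => 0) := by
    intro i l
    split_ifs
    · exact hβ _
    · exact ⟨contDiff_const, fun _ _ => rfl⟩
  refine ⟨n * 3, fun i l => if (finProdFinEquiv.symm i).2 = l then β (finProdFinEquiv.symm i).1
    else fun _ => 0, Kh * Cu * (q + 1) * G₁, by positivity, hb, ?_⟩
  intro G hG hG01 hGs t ht hΛ hK u hu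
  have hΛ0 : 0 < -t := by linarith
  have hK0 : 0 ≤ K := by linarith
  have hYb : ∀ Y ∈ Icc δ K, (-t) * Y ≤ 39 / 400 := by
    intro Y hY
    have : (-t) * Y ≤ (-t) * K := mul_le_mul_of_nonneg_left hY.2 hΛ0.le
    linarith
  have hmem : ∀ Y ∈ Icc δ K, yOf t Y ∈ Icc (19 / 20 : ℝ) 1 := fun Y hY =>
    ld_yOf_mem ht (by linarith [hY.1]) (hYb Y hY)
  have hmaps : MapsTo (yOf t) (Icc δ K) (Icc (-1 : ℝ) 1) := fun Y hY =>
    ⟨by linarith [(hmem Y hY).1], (hmem Y hY).2⟩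
  have hcomp : ∀ f : ℝ → ℝ, CI f → ContinuousOn (fun Y => f (yOf t Y)) (Icc δ K) := fun f hf =>
    hf.comp (ld_yOf_continuous t).continuousOn hmaps
  have huV : ∀ l, SmI (uV u l) := smI_uV hu
  have hii : ∀ f : ℝ → ℝ, ContinuousOn f (Icc δ K) → IntervalIntegrable f volume δ K := fun f hf =>
    ContinuousOn.intervalIntegrable (by rwa [uIcc_of_le hδK.le])
  -- the functions `Z_l`, `Z_l'`, `T_l`
  set Z : Fin 3 → ℝ → ℝ := fun l Y => uV u l (yOf t Y) with hZdef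
  set T : Fin 3 → ℝ → ℝ := fun l Y => tt (uV u l) (yOf t Y) with hTdef
  have hZc : ∀ l, ContinuousOn (Z l) (Icc δ K) := fun l => hcomp _ (huV l).continuousOn
  have hTc : ∀ l, ContinuousOn (T l) (Icc δ K) := fun l => hcomp _ (huV l).tt.continuousOn
  have hZd : ∀ l, ∀ Y ∈ Icc δ K, HasDerivAt (Z l) (T l Y / (2 * Y * yOf t Y)) Y := fun l Y hY =>
    ld_hat_hasDerivAt (huV l) ht (by linarith [hY.1]) (hYb Y hY)
  have hZ'c : ∀ l, ContinuousOn (fun Y => T l Y / (2 * Y * yOf t Y)) (Icc δ K) := by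
    intro l
    refine (hTc l).div ((continuousOn_const.mul continuousOn_id).mul
      (ld_yOf_continuous t).continuousOn) ?_
    intro Y hY
    have h1 : 0 < Y := by linarith [hY.1]
    have h2 : 0 < yOf t Y := by linarith [(hmem Y hY).1]
    positivity
  -- Poincare for each component
  have hPl : ∀ l, ∫ Y in δ..K, (Z l Y) ^ 2
      ≤ ε' / (3 * δ ^ 2) * (∫ Y in δ..K, (T l Y) ^ 2)
        + G₁ * ∑ a, (∫ Y in δ..K, β a Y * Z l Y) ^ 2 := by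
    intro l
    have h1 := hP (Z l) (fun Y => T l Y / (2 * Y * yOf t Y)) (hZd l) (hZ'c l)
    have h2 : ∫ Y in δ..K, (T l Y / (2 * Y * yOf t Y)) ^ 2
        ≤ ∫ Y in δ..K, 1 / (3 * δ ^ 2) * (T l Y) ^ 2 := by
      refine intervalIntegral.integral_mono_on hδK.le (hii _ ((hZ'c l).pow 2))
        (hii _ (continuousOn_const.mul ((hTc l).pow 2))) ?_
      intro Y hY
      have hY1 : δ ≤ Y := hY.1
      have hφ : (19 / 20 : ℝ) ≤ yOf t Y := (hmem Y hY).1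
      have hd : 3 * δ ^ 2 ≤ (2 * Y * yOf t Y) ^ 2 := by
        have h3 : δ * (19 / 20) ≤ Y * yOf t Y := mul_le_mul hY1 hφ (by norm_num) (by linarith)
        have h4 : (δ * (19 / 20)) ^ 2 ≤ (Y * yOf t Y) ^ 2 :=
          pow_le_pow_left₀ (by positivity) h3 2
        nlinarith [sq_nonneg δ]
      rw [div_pow, div_eq_mul_inv, mul_comm, one_div]
      refine mul_le_mul_of_nonneg_right ?_ (sq_nonneg _)
      exact inv_anti₀ (by positivity) hd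
    rw [intervalIntegral.integral_const_mul] at h2
    calc ∫ Y in δ..K, (Z l Y) ^ 2
        ≤ ε' * (∫ Y in δ..K, (T l Y / (2 * Y * yOf t Y)) ^ 2)
          + G₁ * ∑ a, (∫ Y in δ..K, β a Y * Z l Y) ^ 2 := h1
      _ ≤ ε' * (1 / (3 * δ ^ 2) * ∫ Y in δ..K, (T l Y) ^ 2)
          + G₁ * ∑ a, (∫ Y in δ..K, β a Y * Z l Y) ^ 2 := by
          have := mul_le_mul_of_nonneg_left h2 hε'.le
          linarith
      _ = _ := by ring
  -- the integrals of `n2`, `n2t`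
  have hn2 : ∫ Y in δ..K, n2 q u (yOf t Y) = ∑ l, kapJ q l * ∫ Y in δ..K, (Z l Y) ^ 2 := by
    have e : (fun Y => n2 q u (yOf t Y)) = fun Y => ∑ l, kapJ q l * (Z l Y) ^ 2 := by
      funext Y
      rw [n2_eq_nk]
      rfl
    have hi : ∀ l ∈ (Finset.univ : Finset (Fin 3)),
        IntervalIntegrable (fun Y => kapJ q l * (Z l Y) ^ 2) volume δ K :=
      fun l _ => hii _ (continuousOn_const.mul ((hZc l).pow 2))
    rw [e, intervalIntegral.integral_finset_sum hi]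
    exact Finset.sum_congr rfl fun l _ => intervalIntegral.integral_const_mul _ _
  have hn2t : ∫ Y in δ..K, n2t q u (yOf t Y) = ∑ l, kapJ q l * ∫ Y in δ..K, (T l Y) ^ 2 := by
    have e : (fun Y => n2t q u (yOf t Y)) = fun Y => ∑ l, kapJ q l * (T l Y) ^ 2 := by
      funext Y
      rw [n2t_eq_nk]
      rfl
    have hi : ∀ l ∈ (Finset.univ : Finset (Fin 3)),
        IntervalIntegrable (fun Y => kapJ q l * (T l Y) ^ 2) volume δ K :=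
      fun l _ => hii _ (continuousOn_const.mul ((hTc l).pow 2))
    rw [e, intervalIntegral.integral_finset_sum hi]
    exact Finset.sum_congr rfl fun l _ => intervalIntegral.integral_const_mul _ _
  have hκ0 : ∀ l, 0 ≤ kapJ q l := fun l => (kapJ_pos hq0 l).le
  have hκ1 : ∀ l, kapJ q l ≤ q + 1 := by
    intro l
    fin_cases l
    · show q + 1 ≤ q + 1
      exact le_rfl
    · show (2 : ℝ) ≤ q + 1
      linarith
    · show q / (q + 1) ≤ q + 1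
      rw [div_le_iff₀ (by linarith)]
      nlinarith
  -- the observations
  have hObs : ∀ i : Fin (n * 3), Obs (fun l => if (finProdFinEquiv.symm i).2 = l then
      β (finProdFinEquiv.symm i).1 else fun _ => 0) t u
      = ∫ Y in δ..K, β (finProdFinEquiv.symm i).1 Y * Z (finProdFinEquiv.symm i).2 Y := by
    intro i
    rw [ld_Obs_scaled (hb i) hK0 ht hK (fun l => (hu l).continuousOn)]
    have e : (fun Y => ∑ l, (if (finProdFinEquiv.symm i).2 = l then β (finProdFinEquiv.symm i).1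
        else fun _ => 0) Y * uV u l (yOf t Y))
        = fun Y => β (finProdFinEquiv.symm i).1 Y * Z (finProdFinEquiv.symm i).2 Y := by
      funext Y
      rw [Finset.sum_eq_single (finProdFinEquiv.symm i).2]
      · simp [hZdef]
      · intro l _ hl
        rw [if_neg (Ne.symm hl)]
        simp
      · intro h
        exact absurd (Finset.mem_univ _) h
    rw [e]
    have h0 : ∫ Y in (0 : ℝ)..δ, β (finProdFinEquiv.symm i).1 Y * Z (finProdFinEquiv.symm i).2 Y = 0 := by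
      have : ∀ Y ∈ uIcc (0 : ℝ) δ,
          β (finProdFinEquiv.symm i).1 Y * Z (finProdFinEquiv.symm i).2 Y = 0 := by
        intro Y hY
        rw [uIcc_of_le hδ.le] at hY
        rw [(hβ _).supp Y (Or.inl hY.2), zero_mul]
      rw [intervalIntegral.integral_congr this]
      simp
    have hi1 : IntervalIntegrable
        (fun Y => β (finProdFinEquiv.symm i).1 Y * Z (finProdFinEquiv.symm i).2 Y) volume 0 δ := by
      have : EqOn (fun _ : ℝ => (0 : ℝ))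
          (fun Y => β (finProdFinEquiv.symm i).1 Y * Z (finProdFinEquiv.symm i).2 Y) (uIoc 0 δ) := by
        intro Y hY
        rw [uIoc_of_le hδ.le] at hY
        show (0 : ℝ) = β (finProdFinEquiv.symm i).1 Y * Z (finProdFinEquiv.symm i).2 Y
        rw [(hβ _).supp Y (Or.inl hY.2), zero_mul]
      exact (intervalIntegrable_const (c := (0 : ℝ))).congr this
    have hi2 := hii _ ((hβ (finProdFinEquiv.symm i).1).continuous.continuousOn.mul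
      (hZc (finProdFinEquiv.symm i).2))
    rw [← intervalIntegral.integral_add_adjacent_intervals hi1 hi2, h0, zero_add]
  have hsum : ∑ i : Fin (n * 3), (Obs (fun l => if (finProdFinEquiv.symm i).2 = l then
      β (finProdFinEquiv.symm i).1 else fun _ => 0) t u) ^ 2
      = ∑ l, ∑ a, (∫ Y in δ..K, β a Y * Z l Y) ^ 2 := by
    rw [Finset.sum_congr rfl fun i _ => by rw [hObs i]]
    rw [Equiv.sum_comp finProdFinEquiv.symm
      (fun p : Fin n × Fin 3 => (∫ Y in δ..K, β p.1 Y * Z p.2 Y) ^ 2), Fintype.sum_prod_type,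
      Finset.sum_comm]
  rw [hsum]
  -- assembling
  set W := II (fun y => wH 3 52 q t y * n2t q u y) with hWdef
  have hW0 : 0 ≤ W := ii_nonneg fun y hy =>
    mul_nonneg (w0_wH_pos (by linarith) ht hy).le (n2t_nonneg hq0 u y)
  set SO := ∑ l, ∑ a, (∫ Y in δ..K, β a Y * Z l Y) ^ 2 with hSOdef
  have h1 := hCu G hG hG01 hGs t ht hΛ hK u (fun l => (hu l).continuousOn)
  have h2 := hCt t ht hK u hu
  have h3 : ∫ Y in δ..K, n2 q u (yOf t Y)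
      ≤ ε' / (3 * δ ^ 2) * (∫ Y in δ..K, n2t q u (yOf t Y)) + (q + 1) * G₁ * SO := by
    rw [hn2, hn2t, Finset.mul_sum, hSOdef, Finset.mul_sum, ← Finset.sum_add_distrib]
    refine Finset.sum_le_sum fun l _ => ?_
    have h4 := mul_le_mul_of_nonneg_left (hPl l) (hκ0 l)
    have h5 : 0 ≤ G₁ * ∑ a, (∫ Y in δ..K, β a Y * Z l Y) ^ 2 :=
      mul_nonneg hG₁ (Finset.sum_nonneg fun a _ => sq_nonneg _)
    have h6 := mul_le_mul_of_nonneg_right (hκ1 l) h5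
    calc kapJ q l * ∫ Y in δ..K, (Z l Y) ^ 2
        ≤ kapJ q l * (ε' / (3 * δ ^ 2) * (∫ Y in δ..K, (T l Y) ^ 2)
          + G₁ * ∑ a, (∫ Y in δ..K, β a Y * Z l Y) ^ 2) := h4
      _ = ε' / (3 * δ ^ 2) * (kapJ q l * ∫ Y in δ..K, (T l Y) ^ 2)
          + kapJ q l * (G₁ * ∑ a, (∫ Y in δ..K, β a Y * Z l Y) ^ 2) := by ring
      _ ≤ ε' / (3 * δ ^ 2) * (kapJ q l * ∫ Y in δ..K, (T l Y) ^ 2)
          + (q + 1) * (G₁ * ∑ a, (∫ Y in δ..K, β a Y * Z l Y) ^ 2) := by linarith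
      _ = _ := by ring
  have hpw : (-t) ^ (97 / 2 : ℝ) = (-t) ^ (95 / 2 : ℝ) * (-t) := by
    rw [show (97 / 2 : ℝ) = 95 / 2 + 1 by norm_num, Real.rpow_add hΛ0, Real.rpow_one]
  have hc0 : 0 ≤ ε' / (3 * δ ^ 2) := by positivity
  have hP0 : 0 ≤ (-t) ^ (95 / 2 : ℝ) := Real.rpow_nonneg hΛ0.le _
  have hcoef : Kh * Cu * Ct * (ε' / (3 * δ ^ 2)) ≤ ε := by
    have e : Kh * Cu * Ct * (ε' / (3 * δ ^ 2)) = Kh * Cu * Ct / (Kh * Cu * Ct + 1) * ε := by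
      rw [hε'def]
      field_simp
    rw [e]
    have : Kh * Cu * Ct / (Kh * Cu * Ct + 1) ≤ 1 := by
      rw [div_le_one (by linarith)]
      linarith
    calc Kh * Cu * Ct / (Kh * Cu * Ct + 1) * ε ≤ 1 * ε := mul_le_mul_of_nonneg_right this hε.le
      _ = ε := one_mul _
  have hKC : 0 ≤ Kh * (Cu / (-t)) := mul_nonneg hKh (div_nonneg hCu0 hΛ0.le)
  calc Kh * ((-t) ^ (95 / 2 : ℝ)
          * II (fun y => psi1 y * G (Xf y / (-t)) * (Xf y / (-t) * wH 3 52 q t y * n2 q u y)))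
      ≤ Kh * (Cu / (-t) * ∫ Y in δ..K, n2 q u (yOf t Y)) := mul_le_mul_of_nonneg_left h1 hKh
    _ = Kh * (Cu / (-t)) * ∫ Y in δ..K, n2 q u (yOf t Y) := by ring
    _ ≤ Kh * (Cu / (-t)) * (ε' / (3 * δ ^ 2) * (Ct * ((-t) ^ (97 / 2 : ℝ) * W))
          + (q + 1) * G₁ * SO) := by
        refine mul_le_mul_of_nonneg_left ?_ hKC
        have := mul_le_mul_of_nonneg_left h2 hc0
        linarith
    _ = Kh * Cu * Ct * (ε' / (3 * δ ^ 2)) * ((-t) ^ (95 / 2 : ℝ) * W)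
          + Kh * Cu * (q + 1) * G₁ / (-t) * SO := by
        rw [hpw]
        have key : ∀ (L P c : ℝ), L ≠ 0 →
            Kh * (Cu / L) * (c * (Ct * (P * L * W)) + (q + 1) * G₁ * SO)
              = Kh * Cu * Ct * c * (P * W) + Kh * Cu * (q + 1) * G₁ / L * SO := by
          intro L P c hL
          field_simp
        exact key _ _ _ hΛ0.ne'
    _ ≤ ε * ((-t) ^ (95 / 2 : ℝ) * W) + Kh * Cu * (q + 1) * G₁ / (-t) * SO := by
        have := mul_le_mul_of_nonneg_right hcoef (mul_nonneg hP0 hW0)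
        linarith

/-- scalar arithmetic of `ld_heavy_data`. -/
theorem ld_heavyco_arith {N : ℕ} {P Λ QQ E0 D0 I1 T c₁ Kh G₂ g₀ S : ℝ} {O p Cm : Fin N → ℝ}
    (hP : 0 < P) (hΛ : 0 < Λ) (hE0 : 0 ≤ E0) (hc₁ : 0 < c₁) (hG₂ : 0 ≤ G₂) (hg₀ : g₀ = G₂ + 1)
    (hS : S = ∑ i, Cm i ^ 2) (hΛS : 2 * g₀ * Λ ^ 2 * S ≤ 1)
    (h1 : QQ + c₁ * D0 + 30 / Λ * E0 ≤ Kh * I1)
    (h2 : Kh * (P * I1) ≤ c₁ / 2 * (P * T) + G₂ / Λ * ∑ i, O i ^ 2)
    (h3 : T ≤ D0)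
    (h4 : ∀ i, |2 * (P * p i) - 2 * g₀ / Λ * O i| ≤ |g₀| * Cm i * Real.sqrt (P * E0)) :
    QQ - 2 * ∑ i, O i * p i + c₁ / 2 * D0 + 119 / 4 / Λ * E0 ≤ 0 := by
  obtain ⟨L, hL⟩ : ∃ L : ℝ, L = Λ⁻¹ := ⟨_, rfl⟩
  have hLΛ : L * Λ = 1 := by rw [hL]; exact inv_mul_cancel₀ hΛ.ne'
  have hL0 : 0 < L := by rw [hL]; exact inv_pos.2 hΛ
  have hg0 : 0 < g₀ := by linarith
  simp only [div_eq_mul_inv, ← hL] at h1 h2 h4 ⊢
  obtain ⟨E, hE⟩ : ∃ E : ℝ, E = P * E0 := ⟨_, rfl⟩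
  have hE0' : 0 ≤ E := by rw [hE]; exact mul_nonneg hP.le hE0
  obtain ⟨s, hs⟩ : ∃ s : ℝ, s = Real.sqrt E := ⟨_, rfl⟩
  have hs2 : s ^ 2 = E := by rw [hs]; exact Real.sq_sqrt hE0'
  rw [← hE, ← hs, abs_of_pos hg0] at h4
  -- the estimate of one term
  have hterm : ∀ i, -(O i * (2 * (P * p i)))
      ≤ -(3 / 2 * g₀ * L) * O i ^ 2 + g₀ * Λ / 2 * E * Cm i ^ 2 := by
    intro i
    obtain ⟨d, hd⟩ : ∃ d : ℝ, d = 2 * (P * p i) - 2 * g₀ * L * O i := ⟨_, rfl⟩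
    have hdi := h4 i
    rw [← hd] at hdi
    obtain ⟨c, hc⟩ : ∃ c : ℝ, c = Cm i * s := ⟨_, rfl⟩
    have hdc : |d| ≤ g₀ * c := by rw [hc]; linarith [hdi, mul_assoc g₀ (Cm i) s]
    have e1 : -(O i * d) ≤ |O i| * |d| := by
      rw [← abs_mul]
      exact (neg_le_abs _)
    have e2 : |O i| * |d| ≤ |O i| * (g₀ * c) := mul_le_mul_of_nonneg_left hdc (abs_nonneg _)
    have e3 : L / 2 * (|O i| - Λ * c) ^ 2 = L / 2 * |O i| ^ 2 - |O i| * c + Λ / 2 * c ^ 2 := by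
      linear_combination (-(|O i| * c) + Λ * c ^ 2 / 2) * hLΛ
    have e4 : 0 ≤ L / 2 * (|O i| - Λ * c) ^ 2 := mul_nonneg (by linarith) (sq_nonneg _)
    have e5 : |O i| * c ≤ L / 2 * O i ^ 2 + Λ / 2 * c ^ 2 := by
      rw [e3, sq_abs] at e4
      linarith
    have e6 : g₀ * (|O i| * c) ≤ g₀ * (L / 2 * O i ^ 2 + Λ / 2 * c ^ 2) :=
      mul_le_mul_of_nonneg_left e5 hg0.le
    have e7 : c ^ 2 = Cm i ^ 2 * E := by rw [hc, mul_pow, hs2]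
    have e8 : O i * (2 * (P * p i)) = O i * d + 2 * g₀ * L * O i ^ 2 := by rw [hd]; ring
    rw [e8]
    rw [e7] at e6
    nlinarith [e1, e2, e6]
  have hsum : -∑ i, O i * (2 * (P * p i))
      ≤ -(3 / 2 * g₀ * L) * ∑ i, O i ^ 2 + g₀ * Λ / 2 * E * S := by
    rw [hS, Finset.mul_sum, Finset.mul_sum, ← Finset.sum_add_distrib, ← Finset.sum_neg_distrib]
    exact Finset.sum_le_sum fun i _ => hterm i
  obtain ⟨SO, hSO⟩ : ∃ SO : ℝ, SO = ∑ i, O i ^ 2 := ⟨_, rfl⟩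
  have hSO0 : 0 ≤ SO := by rw [hSO]; exact Finset.sum_nonneg fun i _ => sq_nonneg _
  rw [← hSO] at hsum h2
  have k1 : P * (QQ + c₁ * D0 + 30 * L * E0) ≤ P * (Kh * I1) := mul_le_mul_of_nonneg_left h1 hP.le
  have k2 : c₁ / 2 * (P * T) ≤ c₁ / 2 * (P * D0) :=
    mul_le_mul_of_nonneg_left (mul_le_mul_of_nonneg_left h3 hP.le) (by linarith)
  have k3 : 0 ≤ L * SO := mul_nonneg hL0.le hSO0
  have k4 : 0 ≤ L / 4 * (1 - 2 * g₀ * Λ ^ 2 * S) * E :=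
    mul_nonneg (mul_nonneg (by linarith) (by linarith)) hE0'
  have k5 : L / 4 * (1 - 2 * g₀ * Λ ^ 2 * S) * E = L / 4 * E - g₀ * Λ / 2 * E * S := by
    linear_combination (-(g₀ * Λ * S * E / 2)) * hLΛ
  have k6 : ∑ i, O i * (2 * (P * p i)) = P * (2 * ∑ i, O i * p i) := by
    rw [Finset.mul_sum, Finset.mul_sum]
    exact Finset.sum_congr rfl fun i _ => by ring
  have key : P * (QQ - 2 * ∑ i, O i * p i + c₁ * 2⁻¹ * D0 + 119 * 4⁻¹ * L * E0) ≤ 0 := by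
    have k7 : P * (QQ - 2 * ∑ i, O i * p i + c₁ * 2⁻¹ * D0 + 119 * 4⁻¹ * L * E0)
        = P * (QQ + c₁ * D0 + 30 * L * E0) - P * (2 * ∑ i, O i * p i) - c₁ / 2 * (P * D0)
          - L / 4 * (P * E0) := by ring
    rw [k7, ← k6, ← hE]
    have k8 : P * (Kh * I1) = Kh * (P * I1) := by ring
    have k9 : c₁ * 2⁻¹ * (P * T) = c₁ / 2 * (P * T) := by ring
    rw [k9] at h2
    have k10 : G₂ * L * SO - 3 / 2 * g₀ * L * SO = -(1 / 2 * G₂ + 3 / 2) * (L * SO) := by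
      rw [hg₀]; ring
    have k11 : -(1 / 2 * G₂ + 3 / 2) * (L * SO) ≤ 0 :=
      mul_nonpos_of_nonpos_of_nonneg (by linarith) k3
    rw [k5] at k4
    linarith
  by_contra hcon
  have := mul_pos hP (not_le.1 hcon)
  linarith

theorem ld_heavyco_En_nonneg {q : ℝ} (hq : 0 < q) {V : ℝ → ℝ} (h0 : ∀ y ∈ Icc (-1 : ℝ) 1, 0 ≤ V y)
    (u : Fin 3 → ℝ → ℝ) : 0 ≤ En q V u := by
  unfold En
  refine ii_nonneg (fun y hy => ?_)
  have hX : 0 ≤ 1 - y ^ 2 := by nlinarith [hy.1, hy.2]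
  exact mul_nonneg (mul_nonneg hX (h0 y hy)) (n2_nonneg hq u y)

/-- **LD1'.** -/
theorem ld_heavy_data (hq : 100 ≤ q) (hg : BgGood q g) :
    ∃ (N : ℕ) (b : Fin N → Fin 3 → ℝ → ℝ) (δ K g₀ Λ₀ cH : ℝ), HeavyData q g N b δ K g₀ Λ₀ cH := by
  have hq1 : (1 : ℝ) < q := by linarith
  have hq0 : (0 : ℝ) < q := by linarith
  obtain ⟨Λc, C, hΛc0, hΛcq, hC1, hcoef⟩ := wc_coefB_R hq hg
  have hC0 : 0 < C := by linarith
  have hs : BgSm (bgR q g) := bgR_sm hq1 hg.sm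
  obtain ⟨δ₀, K₀, Kh, Λ₁, hδ₀, hδK₀, hKh, hΛ₁, hΛ₁c, hKΛ₁, hstat⟩ :=
    ld_coerH_static hq hs hC0 hΛc0 hcoef 3 52 (95 / 2) hg.coerHB
  obtain ⟨c₁, hc₁⟩ : ∃ c : ℝ, c = min (1 / 4) (2 / C) := ⟨_, rfl⟩
  rw [← hc₁] at hstat
  have hc₁0 : 0 < c₁ := by
    rw [hc₁]
    exact lt_min (by norm_num) (by positivity)
  have hK₀ : 0 < K₀ := hδ₀.trans hδK₀
  have hδ : 0 < δ₀ / 2 := by linarith
  have hδK : δ₀ / 2 < 2 * K₀ := by linarith
  have hK : 0 < 2 * K₀ := by linarith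
  obtain ⟨N, b, G₂, hG₂, hb, hP⟩ :=
    ld_poincare_core hq hδ hδK (ε := c₁ / 2) (Kh := Kh) (by linarith) hKh
  choose Cm hCm0 hCm using fun i => ld_mismatch hq hδ hδK (hb i)
  obtain ⟨S, hS⟩ : ∃ S : ℝ, S = ∑ i, Cm i ^ 2 := ⟨_, rfl⟩
  have hS0 : 0 ≤ S := by rw [hS]; exact Finset.sum_nonneg fun i _ => sq_nonneg _
  have hg₀ : 0 < G₂ + 1 := by linarith
  obtain ⟨Λ₀, hΛ₀⟩ : ∃ Λ₀ : ℝ, Λ₀ = min Λ₁ (min ((δ₀ / 2 / 4) ^ 2) (min ((1 / (2 * (2 * K₀))) ^ 2)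
      (min 1 (1 / (2 * (G₂ + 1) * (S + 1)))))) := ⟨_, rfl⟩
  have l1 : Λ₀ ≤ Λ₁ := by rw [hΛ₀]; exact min_le_left _ _
  have l2 : Λ₀ ≤ (δ₀ / 2 / 4) ^ 2 := by
    rw [hΛ₀]; exact (min_le_right _ _).trans (min_le_left _ _)
  have l3 : Λ₀ ≤ (1 / (2 * (2 * K₀))) ^ 2 := by
    rw [hΛ₀]; exact (min_le_right _ _).trans ((min_le_right _ _).trans (min_le_left _ _))
  have l4 : Λ₀ ≤ 1 := by
    rw [hΛ₀]
    exact (min_le_right _ _).trans ((min_le_right _ _).trans ((min_le_right _ _).trans (min_le_left _ _)))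
  have l5 : Λ₀ ≤ 1 / (2 * (G₂ + 1) * (S + 1)) := by
    rw [hΛ₀]
    exact (min_le_right _ _).trans ((min_le_right _ _).trans ((min_le_right _ _).trans (min_le_right _ _)))
  have hΛ₀0 : 0 < Λ₀ := by
    rw [hΛ₀]
    refine lt_min hΛ₁ (lt_min (by positivity) (lt_min (by positivity) (lt_min one_pos (by positivity))))
  have hsmall : 2 * K₀ * Λ₀ ≤ 39 / 400 := (mul_le_mul_of_nonneg_left l1 hK.le).trans hKΛ₁
  have hsq1 : Real.sqrt Λ₀ ≤ δ₀ / 2 / 4 := by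
    have := Real.sqrt_le_sqrt l2
    rwa [Real.sqrt_sq (by positivity)] at this
  have hsq2 : Real.sqrt Λ₀ ≤ 1 / (2 * (2 * K₀)) := by
    have := Real.sqrt_le_sqrt l3
    rwa [Real.sqrt_sq (by positivity)] at this
  have hcone2 : 2 * K₀ * Real.sqrt Λ₀ < 1 := by
    have h1 : 2 * K₀ * Real.sqrt Λ₀ ≤ 2 * K₀ * (1 / (2 * (2 * K₀))) := mul_le_mul_of_nonneg_left hsq2 hK.le
    have h2 : 2 * K₀ * (1 / (2 * (2 * K₀))) = 1 / 2 := by field_simp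
    linarith
  refine ⟨N, b, δ₀ / 2, 2 * K₀, G₂ + 1, Λ₀, c₁ / 2,
    ⟨hδ, hδK, hg₀, by linarith, hΛ₀0, (l1.trans hΛ₁c).trans hΛcq, hsmall, by linarith, hcone2, hb,
      fun t ht u hu => ?_⟩⟩
  have ht0 : t < 0 := ht.2
  have hΛ : 0 < -t := by linarith
  have hΛle : -t ≤ Λ₀ := by linarith [ht.1]
  have hΛq : -t ≤ 100 / q := hΛle.trans ((l1.trans hΛ₁c).trans hΛcq)
  have hKΛ : 2 * K₀ * (-t) ≤ 39 / 400 := (mul_le_mul_of_nonneg_left hΛle hK.le).trans hsmall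
  have hV0 : ∀ y ∈ Icc (-1 : ℝ) 1, 0 ≤ wH 3 52 q t y := fun y hy => (w0_wH_pos hq1 ht0 hy).le
  have hVc : CI (wH 3 52 q t) := ((smS_wH 3 52 q).smI ht0).continuousOn
  have hΛS : 2 * (G₂ + 1) * (-t) ^ 2 * S ≤ 1 := by
    have a1 : (-t) ^ 2 ≤ -t := by nlinarith
    have a2 : -t ≤ 1 / (2 * (G₂ + 1) * (S + 1)) := hΛle.trans l5
    have a3 : (-t) * (2 * (G₂ + 1) * (S + 1)) ≤ 1 := by
      rwa [le_div_iff₀ (by positivity)] at a2
    have a4 : 0 ≤ 2 * (G₂ + 1) * S := by positivity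
    have a5 : 2 * (G₂ + 1) * S * (-t) ^ 2 ≤ 2 * (G₂ + 1) * S * (-t) := mul_le_mul_of_nonneg_left a1 a4
    have a6 : 0 ≤ (-t) * (2 * (G₂ + 1)) := by positivity
    nlinarith
  have h1 := hstat t ⟨by linarith [ht.1], ht0⟩ u hu
  have h2 := hP (cutG δ₀ K₀) (cutG_continuous δ₀ K₀) (cutG_mem δ₀ K₀)
    (fun Y hY => cutG_zero hδ₀ hK₀ hY) t ht0 hΛq hKΛ u hu
  have h3 := w2_Di_t hq1.le hVc hV0 hu
  have h4 : ∀ i, |2 * ((-t) ^ (95 / 2 : ℝ)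
        * pairE q (wH 3 52 q t) u (slT (Actu (AofV q (G₂ + 1) b i)) t)) - 2 * (G₂ + 1) / (-t) * Obs (b i) t u|
      ≤ |G₂ + 1| * Cm i * Real.sqrt ((-t) ^ (95 / 2 : ℝ) * En q (wH 3 52 q t) u) :=
    fun i => hCm i (G₂ + 1) t ht0 hΛq hKΛ u (fun l => (hu l).continuousOn)
  exact ld_heavyco_arith (P := (-t) ^ (95 / 2 : ℝ)) (Λ := -t)
    (QQ := QH q (bgR q g) 3 52 t u - 95 / 2 / (-t) * En q (wH 3 52 q t) u)
    (O := fun i => Obs (b i) t u)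
    (p := fun i => pairE q (wH 3 52 q t) u (slT (Actu (AofV q (G₂ + 1) b i)) t))
    (Real.rpow_pos_of_pos hΛ _) hΛ (ld_heavyco_En_nonneg hq0 hV0 u) hc₁0 hG₂ rfl hS hΛS h1 h2 h3 h4

end

end Claimed.Agent.R324.Core
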