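/-
Row 324 (S0582), PDE core, module LD (`linear_solve`), step LD7 (assembly; helper489).      FILE LD/AsmNeed
The three inputs of LD7 which are produced by the other parts of the module (LD1, LD1', LD6).   They are stated here in the shape in which the assembly uses them;
each of them is to be WIRED (one line) to the theorem of its owner as soon as that theorem is on main:
* `ld7_need_heavy_data`  =  LD1 + LD1' (helper217: Poinc / HeavyCo, R325 analogue `ld_heavy_data`);
* `ld7_need_Obs`         =  (O) of LD1 (helper217: `ld_Obs_bound`, R325 analogue `ld_ObsV_bound`):  `|O_{b_i}[U](t)|² ≤ C EE_B(t)`, summed over `i`;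
* `ld7_need_control`     =  LD6 (helper217: add, smul, deriv, bound, solve;  helper325/232: shift;  R325 analogue `ld_control_hyp`), on a possibly smaller interval `[-Λ₁,0)`.
-/
import Claimed.Agent.R324.Core.LD.HeavyI
import Claimed.Agent.R324.Core.LD.HeavyCo
import Claimed.Agent.R324.Core.LD.Ctl
import Claimed.Agent.R324.Core.LD0.Int
import Claimed.Agent.R325.Pk29

set_option autoImplicit false

namespace Claimed.Agent.R324.Core

open Set Filter Topology MeasureTheory
open scoped ContDiff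

noncomputable section

open Claimed.Agent.R325 (wEnergy CausalSmooth ControlHyp)

variable {N : ℕ} {g : Bg} {b : Fin N → Fin 3 → ℝ → ℝ} {δ K g₀ Λ₀ cH : ℝ}

/-- LD1 + LD1': the finite rank data exist. -/
theorem ld7_need_heavy_data (q : ℝ) (hq : 10 ^ 6 ≤ q) (g : Bg) (hg : BgGood q g) :
    ∃ (N : ℕ) (b : Fin N → Fin 3 → ℝ → ℝ) (δ K g₀ Λ₀ cH : ℝ), HeavyData q g N b δ K g₀ Λ₀ cH :=
  ld_heavy_data (le_trans (by norm_num) hq) hg

/-- (O): the observations are controlled by the heavy energy B. -/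
theorem ld7_need_Obs {q : ℝ} (hq : 100 ≤ q) (H : HeavyData q g N b δ K g₀ Λ₀ cH) : ∃ C : ℝ, 0 ≤ C ∧
    ∀ U : Tri, (∀ j, Sm (U j)) → ∀ t ∈ Ico (-Λ₀) 0, ‖ObsV b U (tauOf t)‖ ^ 2 ≤ C * EEB q U t := by
  obtain ⟨C, hC, h⟩ := ld_ObsV_bound hq H.δpos H.δK H.bump
  exact ⟨C, hC, fun U hU t ht => h U hU t ht.2 (H.core ht)⟩

/-- LD6: the hypotheses of the control theorem (module V, `Claimed.Agent.R325.control`). -/
theorem ld7_need_control (q : ℕ) (hq : Odd q) (hq6 : 10 ^ 6 ≤ q) (hg : BgGood q g)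
    (H : HeavyData q g N b δ K g₀ Λ₀ cH) :
    ∃ Λ₁ : ℝ, 0 < Λ₁ ∧ Λ₁ ≤ Λ₀ ∧ ∃ Cst : ℕ → ℝ,
      ControlHyp N (-Real.log Λ₁) 14 Cst (Kop q g b (AofV q g₀ b) K Λ₁) (KmatOp q b (AofV q g₀ b) K) :=
  ld_control_hyp q hq hq6 hg H

end

end Claimed.Agent.R324.Core
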