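/-
Row 324 (S0582), PDE core, module LD (`linear_solve`), step LD7 (assembly; helper489).      FILE LD/AsmA
Part A: the response `Wop`; the observation of the free solution; decomposition of the controlled solution.      (R325 analogue: LD/AsmA.lean in Pk47.)
-/
import Claimed.Agent.R324.Core.LD.AsmNeed

set_option autoImplicit false

namespace Claimed.Agent.R324.Core

open Set Filter Topology MeasureTheory
open scoped ContDiff

noncomputable section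

open Claimed.Agent.R325 (wEnergy CausalSmooth ControlHyp)

variable {N : ℕ} {g : Bg} {b : Fin N → Fin 3 → ℝ → ℝ} {δ K g₀ Λ₀ cH : ℝ}

/-- `-Λ₀ ≤ t(τ)` for `τ ≥ -log Λ₀`. -/
theorem ld7_tOf_ge {Λ τ : ℝ} (hΛ : 0 < Λ) (hτ : -Real.log Λ ≤ τ) : -Λ ≤ tOf τ := by
  rw [← ld_tOf_neg_log hΛ]
  exact (ld_tOf_le_iff _ _).2 hτ

/-- the response `W[M]` is a smooth solution of `(L_1)` with forcing `Σ M_i Ac_i`, zero for `t ≤ -Λ₀`. -/
theorem ld7_Wop_spec (q : ℕ) (hq : Odd q) (hq1 : 1 < (q : ℝ)) (hg : BgSm g)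
    (H : HeavyData q g N b δ K g₀ Λ₀ cH) {M : ℝ → EuclideanSpace ℝ (Fin N)}
    (hM : CausalSmooth (-Real.log Λ₀) M) :
    (∀ j, Sm (Wop q g b (AofV q g₀ b) Λ₀ M j)) ∧ VanB (-Λ₀) (Wop q g b (AofV q g₀ b) Λ₀ M) ∧
      SolL q g b (AofV q g₀ b) 1 (Fmc (AofV q g₀ b) M) (Wop q g b (AofV q g₀ b) Λ₀ M) := by
  have hA : ∀ i l, CcB δ K (AofV (q : ℝ) g₀ b i l) := fun i l => H.bumpA (by linarith) i l
  have hS : ∀ j, Sm (Fmc (AofV (q : ℝ) g₀ b) M j) := ld_Fmc_smooth H.δpos hA hM.1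
  have hS0 : VanB (-Λ₀) (Fmc (AofV (q : ℝ) g₀ b) M) := by
    intro j t ht y _
    rw [← ld_tOf_neg_log H.Λpos] at ht
    exact ld_Fmc_van _ hM.2 j t ht y
  obtain ⟨U, hU⟩ := ld_wrapper q hq hq1 hg H.δpos H.bump hA 1 hS hS0
  exact Classical.epsilon_spec (p := fun U : Tri => (∀ j, Sm (U j)) ∧ VanB (-Λ₀) U ∧
    SolL q g b (AofV q g₀ b) 1 (Fmc (AofV q g₀ b) M) U) ⟨U, hU⟩

/-- `G` solves `(L_1)` with forcing `S`, zero for `t ≤ t₁`:   `∫ Λ^{-2η-1} |ObsV b G|² ≤ C ∫ HY(S)`. -/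
theorem ld7_rho_energy {q : ℝ} (hq : 100 ≤ q) (hg : BgGood q g) (H : HeavyData q g N b δ K g₀ Λ₀ cH) :
    ∃ C : ℝ, 0 ≤ C ∧
    ∀ η ∈ Icc (0 : ℝ) 14, ∀ (G S : Tri) (t₁ : ℝ), (∀ j, Sm (G j)) → (∀ j, Sm (S j)) → t₁ ∈ Ico (-Λ₀) 0 →
    VanB t₁ G → SolL q g b (AofV q g₀ b) 1 S G →
    ∀ t ∈ Ico t₁ 0, mEn η (ObsV b G) t₁ t ≤ C * ∫ s in t₁..t, HY q η S s := by
  obtain ⟨CH, hCH, hH⟩ := ld_heavy_int hq hg H
  obtain ⟨CB, hCB, hB⟩ := ld7_need_Obs hq H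
  refine ⟨CB * CH, by positivity, ?_⟩
  intro η hη G S t₁ hG hS ht₁ hvan hsol t ht
  have hq1 : 1 < q := by linarith
  have hsub : Icc t₁ t ⊆ Iio (0 : ℝ) := fun s hs => lt_of_le_of_lt hs.2 ht.2
  have hsol1 : SolL q g b (AofV q g₀ b) 1
      (fun j p => S j p + Fmc (AofV q g₀ b) (fun _ => (0 : EuclideanSpace ℝ (Fin N))) j p) G :=
    hsol.congr_S fun j t _ y _ => by rw [ld_Fmc_zero, add_zero]
  have hh := hH η hη G S (fun _ => 0) t₁ hG hS continuous_const ht₁ hvan hsol1 t ht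
  rw [ld_mEn_zero, mul_zero, zero_add] at hh
  have hOc : Continuous (ObsV b G) :=
    (ld_ObsV_contDiff (fun i l => (H.bump i l).smooth) hG).continuous
  have cE : ContinuousOn (EEB q G) (Icc t₁ t) := (ld_EEB_cont q hG).mono hsub
  have cr : ∀ a : ℝ, ContinuousOn (fun s : ℝ => (-s) ^ a) (Icc t₁ t) := fun a =>
    (ld_rpow_contDiffOn a).continuousOn.mono hsub
  have i1 : IntervalIntegrable (fun s : ℝ => (-s) ^ (-2 * η - 1) * EEB q G s) volume t₁ t :=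
    ((cr _).mul cE).intervalIntegrable_of_Icc ht.1
  have i2 : IntervalIntegrable (fun s : ℝ => (-s) ^ (-2 * η - 1) * ‖ObsV b G (tauOf s)‖ ^ 2)
      volume t₁ t := ((ld_WE_contOn _ hOc).mono hsub).intervalIntegrable_of_Icc ht.1
  have hmono : mEn η (ObsV b G) t₁ t
      ≤ ∫ s in t₁..t, CB * ((-s) ^ (-2 * η - 1) * EEB q G s) := by
    unfold mEn
    refine intervalIntegral.integral_mono_on ht.1 i2 (i1.const_mul _) fun s hs => ?_
    have hs0 : s < 0 := hsub hs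
    have hsI : s ∈ Ico (-Λ₀) 0 := ⟨le_trans ht₁.1 hs.1, hs0⟩
    have hpos : 0 < -s := by linarith
    have hO := hB G hG s hsI
    calc (-s) ^ (-2 * η - 1) * ‖ObsV b G (tauOf s)‖ ^ 2
        ≤ (-s) ^ (-2 * η - 1) * (CB * EEB q G s) :=
          mul_le_mul_of_nonneg_left hO (Real.rpow_nonneg hpos.le _)
      _ = _ := by ring
  rw [intervalIntegral.integral_const_mul] at hmono
  have hEt : 0 ≤ (-t) ^ (-2 * η) * EEB q G t :=
    mul_nonneg (Real.rpow_nonneg (by linarith [ht.2]) _) (ld_EEB_nonneg hq1 G ht.2)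
  have hDH : 0 ≤ ∫ s in t₁..t, (-s) ^ (-2 * η) * DDB q G s :=
    intervalIntegral.integral_nonneg ht.1 fun s hs =>
      mul_nonneg (Real.rpow_nonneg (neg_nonneg.2 (le_of_lt (hsub hs))) _)
        (ld_DDB_nonneg hq1 G (hsub hs))
  set IE : ℝ := ∫ s in t₁..t, (-s) ^ (-2 * η - 1) * EEB q G s with hIE
  set IH : ℝ := ∫ s in t₁..t, HY q η S s with hIH
  have hIE8 : IE ≤ CH * IH :=
    le_trans (le_add_of_nonneg_left (add_nonneg hEt (mul_nonneg (by linarith [H.cpos]) hDH))) hh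
  calc mEn η (ObsV b G) t₁ t ≤ CB * IE := hmono
    _ ≤ CB * (CH * IH) := mul_le_mul_of_nonneg_left hIE8 hCB
    _ = CB * CH * IH := by ring

/-- the same in the variable `τ`. -/
theorem ld7_rho_wEnergy {q : ℝ} (hq : 100 ≤ q) (hg : BgGood q g) (H : HeavyData q g N b δ K g₀ Λ₀ cH) :
    ∃ C : ℝ, 0 ≤ C ∧
    ∀ η ∈ Icc (0 : ℝ) 14, ∀ (G S : Tri) (τs R : ℝ), (∀ j, Sm (G j)) → (∀ j, Sm (S j)) →
    -Real.log Λ₀ ≤ τs → VanB (tOf τs) G → SolL q g b (AofV q g₀ b) 1 S G →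
    (∀ t ∈ Ioo (tOf τs) 0, ∫ s in (tOf τs)..t, HY q η S s ≤ R ^ 2) →
    ∀ τ, wEnergy η (ObsV b G) τ ≤ C * R ^ 2 := by
  obtain ⟨C, hC, hE⟩ := ld7_rho_energy hq hg H
  refine ⟨C, hC, ?_⟩
  intro η hη G S τs R hG hS hτs hvan hsol hR τ
  have h0 : ∀ σ ≤ τs, ObsV b G σ = 0 := ld_ObsV_van b hvan
  have hOc : Continuous (ObsV b G) :=
    (ld_ObsV_contDiff (fun i l => (H.bump i l).smooth) hG).continuous
  rcases le_or_gt τ τs with hτ | hτ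
  · rw [ld_wEnergy_zero η h0 hτ]
    positivity
  · rw [ld_wEnergy_eq η hOc h0 hτ.le]
    have h1 : tOf τs < tOf τ := by
      by_contra hcon
      exact absurd ((ld_tOf_le_iff τ τs).1 (not_lt.1 hcon)) (not_le.2 hτ)
    have hL : -Λ₀ ≤ tOf τs := ld7_tOf_ge H.Λpos hτs
    have hk := hE η hη G S (tOf τs) hG hS ⟨hL, ld_tOf_neg τs⟩ hvan hsol (tOf τ)
      ⟨h1.le, ld_tOf_neg τ⟩
    exact hk.trans (mul_le_mul_of_nonneg_left (hR (tOf τ) ⟨h1, ld_tOf_neg τ⟩) hC)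

/-- `U = G + Wop M` on `[-1,1]` (uniqueness), hence `ObsV b U = ObsV b G + Kop 0 M`. -/
theorem ld7_obs_decomp (q : ℕ) (hq : Odd q) (hq2 : (100 : ℝ) ≤ q) (hg : BgGood q g)
    (H : HeavyData q g N b δ K g₀ Λ₀ cH) {G U S : Tri}
    {M : ℝ → EuclideanSpace ℝ (Fin N)} (hM : CausalSmooth (-Real.log Λ₀) M) (hG : ∀ j, Sm (G j))
    (hU : ∀ j, Sm (U j)) (hG0 : VanB (-Λ₀) G) (hU0 : VanB (-Λ₀) U)
    (hsG : SolL q g b (AofV q g₀ b) 1 S G)
    (hsU : SolL q g b (AofV q g₀ b) 1 (fun j p => S j p + Fmc (AofV q g₀ b) M j p) U) :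
    ∀ τ, ObsV b U τ = ObsV b G τ + Kop q g b (AofV q g₀ b) K Λ₀ 0 M τ := by
  obtain ⟨a1, a2, a3⟩ := ld7_Wop_spec q hq (by linarith) hg.sm H hM
  have hb : ∀ i l, Continuous (b i l) := fun i l => (H.bump i l).smooth.continuous
  have hs : SolL q g b (AofV q g₀ b) 1 (fun j p => S j p + Fmc (AofV q g₀ b) M j p)
      (fun j p => G j p + Wop q g b (AofV q g₀ b) Λ₀ M j p) := SolL.add hb hG a1 hsG a3
  have he := ld_unique2 hq2 hg H hU (fun j => (hG j).add (a1 j)) hU0 (hG0.add a2) hsU hs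
  intro τ
  rw [ld_ObsV_congr b (V := fun j p => G j p + Wop q g b (AofV q g₀ b) Λ₀ M j p) he]
  ext i
  show Obs (b i) (tOf τ)
      (fun l y => slT G (tOf τ) l y + slT (Wop q g b (AofV q g₀ b) Λ₀ M) (tOf τ) l y)
    = Obs (b i) (tOf τ) (slT G (tOf τ))
      + Obs (cLev q b (AofV q g₀ b) K 0 i) (tOf τ) (slT (Wop q g b (AofV q g₀ b) Λ₀ M) (tOf τ))
  exact ld_Obs_add (hb i) (tOf τ)
    (fun l => ((hG l).sl (ld_tOf_neg τ)).continuous.continuousOn)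
    (fun l => ((a1 l).sl (ld_tOf_neg τ)).continuous.continuousOn)

end

end Claimed.Agent.R324.Core
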