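/-
Row 324 (S0582), PDE core, module LD (`linear_solve`), step LD7 (assembly; helper489).      FILE LD/AsmAc
The forcing norm of one actuator (crude bound, no use of the small support in `ϑ`):      `Di q (V1 q Γ t) (slT (Actu A) t) ≤ C Λ^{-28}`,   `Λ = -t`.
PROOF.   Fix `t < 0`, `Λ = -t`, `u = slT (Actu A) t`, i.e. `u j y = ψ₁(y) A_j(X/Λ)/(Λ x_j(y))`, `x_j = xJ j = (1,1,X)`, `X = Xf y = 1 - y²`.     Put `F c y = ψ₁(y) c(Xf y/Λ)/Λ`.
 (1) `u 0 = F (A 0)`, `u 1 = F (A 1)` (`xJ` = 1; `funext`, `unfold slT Actu xJ`, `simp`),   and `(fun z => (1 - z²) * u 2 z) = F (A 2)`:   if `Xf z = 0` both sides vanish (`(hA 2).supp 0 (Or.inl hδ.le)`, `zero_div`), otherwise `field_simp`.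
     Hence `n2 q u y = (q+1) F₀² + 2 F₁² + q/(q+1) F₂²`,  `n2t q u y = (q+1) (tt F₀)² + 2 (tt F₁)² + q/(q+1) (tt F₂)²`   (unfold `n2`, `n2t`; rewrite with (1)).
 (2) for `c ∈ CcB δ K` with `|c| ≤ C₀`, `|c'| ≤ C₁` (`CcB.bdd`, `CcB.deriv`), `y ∈ [-1,1]`:     `|F c y| ≤ C₀/Λ`   (`0 ≤ ψ₁ ≤ 1`),     `|tt (F c) y| ≤ 2 K C₁/Λ`:
     `HasDerivAt (F c) ((ψ₁'(y) c(Y) + ψ₁(y) c'(Y) (-2y/Λ))/Λ) y`, `Y = Xf y/Λ`;    `ψ₁'(y) c(Y) = 0`:  if `c(Y) ≠ 0` then `Y < K`, `X < KΛ ≤ 39/400`, `y² > 361/400`, so `y > 19/20` (`ψ₁ = 1` near `y`: `psi1_eq_one`, `Filter.EventuallyEq.deriv_eq`)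
     or `y < -19/20` (`ψ₁ = 0` near `y`: `psi1_eq_zero`), in both cases `deriv psi1 y = 0`;     `X |c'(Y)| ≤ K Λ C₁`  (if `c'(Y) ≠ 0` then `X < KΛ`; `X ≥ 0`);   `tt f y = -(1-y²) deriv f y`.
 (3) weight, `y ∈ [-1,1]`:   `V1 q Γ t y = wL 4 30 q Γ t y = r̂⁸ ((1+Γ)Λ + X̃)/Θ³¹ ≤ (1+Γ)/Λ²⁶`:    `0 < r̂² ≤ Θ` (`w0_rh2_pos`, `w0_rh2_le_Th hq ht hΛ y`), `(1+Γ)Λ + X̃ ≤ (1+Γ) Θ` (`Th = Λ + X̃`, `X̃ ≥ 0`: `Xt_nonneg`), `Θ ≥ Λ` (`w0_Lam_le_Th`).
 (4) integrand `≤ (1+Γ) Λ^{-26} (q+4) (4K²C₁² + q C₀²) Λ^{-2}`;   `ii_mono` (continuity: `(smS_wL 4 30 q Γ).smI ht |>.continuousOn`, `ci_n2t`, `ci_n2`, `smI_slT (ld_Actu_smooth hδ hA) ht`), `ii_const`;    `Λ^{-(28:ℝ)} = (Λ^28)⁻¹` (`Real.rpow_neg`, `Real.rpow_natCast`).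
-/
import Claimed.Agent.R324.Core.LD.AsmNeed

set_option autoImplicit false

namespace Claimed.Agent.R324.Core

open Set Filter Topology MeasureTheory
open scoped ContDiff

noncomputable section

variable {δ K : ℝ}

/-- the profile `ψ₁(y) c(X/Λ)/Λ` and its `tt`-derivative. -/
theorem ld7_Ac_prof {c : ℝ → ℝ} (hc : CcB δ K c) {C₀ C₁ : ℝ} (h0 : ∀ y, |c y| ≤ C₀)
    (h1 : ∀ y, |deriv c y| ≤ C₁) (hK : 0 < K) {Λ : ℝ} (hΛ : 0 < Λ) (hKΛ : K * Λ ≤ 39 / 400) {y : ℝ}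
    (hy : y ∈ Icc (-1 : ℝ) 1) :
    |psi1 y * c (Xf y / Λ) / Λ| ≤ C₀ / Λ ∧
      |tt (fun z => psi1 z * c (Xf z / Λ) / Λ) y| ≤ 2 * K * C₁ / Λ := by
  have hC1 : 0 ≤ C₁ := (abs_nonneg _).trans (h1 0)
  have hX0 : 0 ≤ 1 - y ^ 2 := by nlinarith [hy.1, hy.2]
  constructor
  · rw [abs_div, abs_mul, abs_of_pos hΛ, abs_of_nonneg (psi1_nonneg y)]
    apply div_le_div_of_nonneg_right _ hΛ.le
    calc psi1 y * |c (Xf y / Λ)| ≤ 1 * C₀ :=
          mul_le_mul (psi1_le_one y) (h0 _) (abs_nonneg _) zero_le_one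
      _ = C₀ := one_mul _
  · set Y : ℝ := Xf y / Λ with hY
    have hXd : HasDerivAt (fun z => Xf z / Λ) (-(2 * y) / Λ) y := by
      have h : HasDerivAt (fun z : ℝ => 1 - z ^ 2) (-(2 * y)) y := by
        have := ((hasDerivAt_id y).pow 2).const_sub 1
        refine this.congr_deriv ?_
        simp
      exact h.div_const Λ
    have hcd : HasDerivAt c (deriv c Y) Y := ((hc.smooth.differentiable (by simp)) Y).hasDerivAt
    have hcomp : HasDerivAt (fun z => c (Xf z / Λ)) (deriv c Y * (-(2 * y) / Λ)) y :=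
      hcd.comp y hXd
    have hpsi : HasDerivAt psi1 (deriv psi1 y) y :=
      ((psi1_contDiff.differentiable (by simp)) y).hasDerivAt
    have hF : HasDerivAt (fun z => psi1 z * c (Xf z / Λ) / Λ)
        ((deriv psi1 y * c Y + psi1 y * (deriv c Y * (-(2 * y) / Λ))) / Λ) y :=
      (hpsi.mul hcomp).div_const Λ
    have hlt : ∀ f : ℝ → ℝ, (∀ Z, Z ≤ δ ∨ K ≤ Z → f Z = 0) → f Y ≠ 0 → Xf y < K * Λ := by
      intro f hf hne
      have : Y < K := by
        by_contra hcon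
        exact hne (hf Y (Or.inr (not_lt.1 hcon)))
      rwa [hY, div_lt_iff₀ hΛ] at this
    have key1 : deriv psi1 y * c Y = 0 := by
      by_cases hcY : c Y = 0
      · rw [hcY, mul_zero]
      · have hX : Xf y < K * Λ := hlt c hc.supp hcY
        have hy2 : 361 / 400 < y ^ 2 := by
          unfold Xf at hX
          linarith
        have hd : deriv psi1 y = 0 := by
          rcases lt_or_ge 0 y with hpos | hneg
          · have h19 : 19 / 20 < y := by nlinarith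
            have he : psi1 =ᶠ[𝓝 y] fun _ => (1 : ℝ) := by
              filter_upwards [Ioi_mem_nhds h19] with z hz
              exact psi1_eq_one (le_of_lt hz)
            rw [he.deriv_eq]
            simp
          · have h34 : y < 3 / 4 := by linarith
            have he : psi1 =ᶠ[𝓝 y] fun _ => (0 : ℝ) := by
              filter_upwards [Iio_mem_nhds h34] with z hz
              exact psi1_eq_zero (le_of_lt hz)
            rw [he.deriv_eq]
            simp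
        rw [hd, zero_mul]
    have key2 : |(1 - y ^ 2) * deriv c Y| ≤ K * Λ * C₁ := by
      by_cases hcY : deriv c Y = 0
      · rw [hcY, mul_zero, abs_zero]
        positivity
      · have hX : Xf y < K * Λ := hlt (deriv c) hc.deriv.supp hcY
        rw [abs_mul, abs_of_nonneg hX0]
        exact mul_le_mul (le_of_lt hX) (h1 Y) (abs_nonneg _) (by positivity)
    have key3 : |psi1 y * (2 * y)| ≤ 2 := by
      rw [abs_mul, abs_of_nonneg (psi1_nonneg y), abs_mul, abs_two]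
      have hay : |y| ≤ 1 := abs_le.2 hy
      calc psi1 y * (2 * |y|) ≤ 1 * (2 * 1) :=
            mul_le_mul (psi1_le_one y) (by linarith) (by positivity) zero_le_one
        _ = 2 := by norm_num
    have e : tt (fun z => psi1 z * c (Xf z / Λ) / Λ) y
        = ((1 - y ^ 2) * deriv c Y) * (psi1 y * (2 * y)) / Λ ^ 2 := by
      unfold tt
      rw [hF.deriv, key1]
      field_simp
      ring
    rw [e, abs_div, abs_mul, abs_of_pos (by positivity : 0 < Λ ^ 2)]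
    rw [div_le_div_iff₀ (by positivity) hΛ]
    calc |(1 - y ^ 2) * deriv c Y| * |psi1 y * (2 * y)| * Λ ≤ (K * Λ * C₁) * 2 * Λ := by
          gcongr
      _ = 2 * K * C₁ * Λ ^ 2 := by ring

theorem ld7_Di_Actu {q : ℝ} (hq : 100 ≤ q) {Γ : ℝ} (hΓ : 0 ≤ Γ) (hδ : 0 < δ) (hδK : δ < K)
    {A : Fin 3 → ℝ → ℝ} (hA : ∀ l, CcB δ K (A l)) :
    ∃ C : ℝ, 0 ≤ C ∧ ∀ t < 0, -t ≤ 100 / q → K * (-t) ≤ 39 / 400 →
      Di q (V1 q Γ t) (slT (Actu A) t) ≤ C * (-t) ^ (-(28 : ℝ)) := by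
  have hq0 : 0 < q := by linarith
  have hq1 : 1 < q := by linarith
  have hK : 0 < K := hδ.trans hδK
  choose C0 hC0 hb0 using fun l => (hA l).bdd
  choose C1 hC1 hb1 using fun l => (hA l).deriv.bdd
  set B0 : ℝ := C0 0 + C0 1 + C0 2 with hB0
  set B1 : ℝ := C1 0 + C1 1 + C1 2 with hB1
  have hB0n : 0 ≤ B0 := by have := hC0 0; have := hC0 1; have := hC0 2; positivity
  have hB1n : 0 ≤ B1 := by have := hC1 0; have := hC1 1; have := hC1 2; positivity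
  have hC0B : ∀ l, C0 l ≤ B0 := by
    intro l
    have h0 := hC0 0; have h1 := hC0 1; have h2 := hC0 2
    fin_cases l <;> simp only [hB0] <;> simp <;> linarith
  have hC1B : ∀ l, C1 l ≤ B1 := by
    intro l
    have h0 := hC1 0; have h1 := hC1 1; have h2 := hC1 2
    fin_cases l <;> simp only [hB1] <;> simp <;> linarith
  refine ⟨Real.pi * ((1 + Γ) * ((q + 4) * ((2 * K * B1) ^ 2 + q * B0 ^ 2))),
    by have := Real.pi_pos; positivity, ?_⟩
  intro t ht hΛq hKΛ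
  set Λ : ℝ := -t with hΛdef
  have hΛ : 0 < Λ := by rw [hΛdef]; linarith
  set F : Fin 3 → ℝ → ℝ := fun l z => psi1 z * A l (Xf z / Λ) / Λ with hF
  have hu0 : slT (Actu A) t 0 = F 0 := by
    funext z
    simp [slT, Actu, xJ, hF, hΛdef]
  have hu1 : slT (Actu A) t 1 = F 1 := by
    funext z
    simp [slT, Actu, xJ, hF, hΛdef]
  have hu2 : (fun z => (1 - z ^ 2) * slT (Actu A) t 2 z) = F 2 := by
    funext z
    have hx : xJ 2 z = Xf z := by simp [xJ]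
    show (1 - z ^ 2) * (psi1 z * A 2 (Xf z / (-t)) / ((-t) * xJ 2 z)) = psi1 z * A 2 (Xf z / Λ) / Λ
    rw [hx, ← hΛdef]
    by_cases hz : Xf z = 0
    · have h0 : A 2 (Xf z / Λ) = 0 := by
        rw [hz, zero_div]
        exact (hA 2).supp 0 (Or.inl hδ.le)
      rw [h0]
      simp
    · have hz' : (1 - z ^ 2) = Xf z := rfl
      rw [hz']
      field_simp
  have hn2 : ∀ y, n2 q (slT (Actu A) t) y
      = (q + 1) * (F 0 y) ^ 2 + 2 * (F 1 y) ^ 2 + q / (q + 1) * (F 2 y) ^ 2 := by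
    intro y
    have h2 : (1 - y ^ 2) * slT (Actu A) t 2 y = F 2 y := congrFun hu2 y
    unfold n2
    rw [hu0, hu1, h2]
  have hn2t : ∀ y, n2t q (slT (Actu A) t) y
      = (q + 1) * (tt (F 0) y) ^ 2 + 2 * (tt (F 1) y) ^ 2 + q / (q + 1) * (tt (F 2) y) ^ 2 := by
    intro y
    unfold n2t
    rw [hu0, hu1, hu2]
  have hqq : q / (q + 1) ≤ 1 := by
    rw [div_le_one (by linarith)]
    linarith
  have hqq0 : 0 ≤ q / (q + 1) := by positivity
  set c₀ : ℝ := (1 + Γ) / Λ ^ 26 * ((q + 4) * ((2 * K * B1) ^ 2 + q * B0 ^ 2) / Λ ^ 2) with hc₀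
  have hpt : ∀ y ∈ Icc (-1 : ℝ) 1,
      V1 q Γ t y * (n2t q (slT (Actu A) t) y + q * n2 q (slT (Actu A) t) y) ≤ c₀ := by
    intro y hy
    have hr := w0_rh2_pos hq1 ht hy
    have hθ := w0_Th_pos ht hy
    have hrθ := w0_rh2_le_Th hq ht hΛq y
    have hΛθ : Λ ≤ Th t y := w0_Lam_le_Th hy
    have hXt := (Xt_nonneg hy.1 hy.2).1
    have hnum : (1 + Γ) * Λ + Xt y ≤ (1 + Γ) * Th t y := by
      unfold Th
      rw [← hΛdef]
      nlinarith
    have hnum0 : 0 ≤ (1 + Γ) * Λ + Xt y := by positivity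
    have hV : V1 q Γ t y ≤ (1 + Γ) / Λ ^ 26 := by
      unfold V1 wL
      rw [← hΛdef, div_le_div_iff₀ (by positivity) (by positivity)]
      calc rh2 q t y ^ 4 * ((1 + Γ) * Λ + Xt y) * Λ ^ 26
          ≤ Th t y ^ 4 * ((1 + Γ) * Th t y) * Th t y ^ 26 := by gcongr
        _ = (1 + Γ) * Th t y ^ (30 + 1) := by ring
    have hV0 : 0 ≤ V1 q Γ t y := (w0_wL_pos hq1 hΓ ht hy).le
    have hb : ∀ l, (F l y) ^ 2 ≤ (B0 / Λ) ^ 2 ∧ (tt (F l) y) ^ 2 ≤ (2 * K * B1 / Λ) ^ 2 := by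
      intro l
      obtain ⟨a1, a2⟩ := ld7_Ac_prof (hA l) (hb0 l) (hb1 l) hK hΛ hKΛ hy
      constructor
      · rw [← sq_abs (F l y)]
        refine pow_le_pow_left₀ (abs_nonneg _) (a1.trans ?_) 2
        exact div_le_div_of_nonneg_right (hC0B l) hΛ.le
      · rw [← sq_abs (tt (F l) y)]
        refine pow_le_pow_left₀ (abs_nonneg _) (a2.trans ?_) 2
        refine div_le_div_of_nonneg_right ?_ hΛ.le
        exact mul_le_mul_of_nonneg_left (hC1B l) (by positivity)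
    have hs0 : 0 ≤ (B0 / Λ) ^ 2 := sq_nonneg _
    have hs1 : 0 ≤ (2 * K * B1 / Λ) ^ 2 := sq_nonneg _
    have e1 : n2 q (slT (Actu A) t) y ≤ (q + 4) * (B0 / Λ) ^ 2 := by
      rw [hn2]
      have h0 := mul_le_mul_of_nonneg_left (hb 0).1 (by linarith : 0 ≤ q + 1)
      have h1 := mul_le_mul_of_nonneg_left (hb 1).1 (by norm_num : (0 : ℝ) ≤ 2)
      have h2 : q / (q + 1) * (F 2 y) ^ 2 ≤ 1 * (B0 / Λ) ^ 2 :=
        mul_le_mul hqq (hb 2).1 (sq_nonneg _) zero_le_one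
      linarith
    have e2 : n2t q (slT (Actu A) t) y ≤ (q + 4) * (2 * K * B1 / Λ) ^ 2 := by
      rw [hn2t]
      have h0 := mul_le_mul_of_nonneg_left (hb 0).2 (by linarith : 0 ≤ q + 1)
      have h1 := mul_le_mul_of_nonneg_left (hb 1).2 (by norm_num : (0 : ℝ) ≤ 2)
      have h2 : q / (q + 1) * (tt (F 2) y) ^ 2 ≤ 1 * (2 * K * B1 / Λ) ^ 2 :=
        mul_le_mul hqq (hb 2).2 (sq_nonneg _) zero_le_one
      linarith
    have e3 : n2t q (slT (Actu A) t) y + q * n2 q (slT (Actu A) t) y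
        ≤ (q + 4) * ((2 * K * B1) ^ 2 + q * B0 ^ 2) / Λ ^ 2 := by
      have h := mul_le_mul_of_nonneg_left e1 hq0.le
      have e : (q + 4) * ((2 * K * B1) ^ 2 + q * B0 ^ 2) / Λ ^ 2
          = (q + 4) * (2 * K * B1 / Λ) ^ 2 + q * ((q + 4) * (B0 / Λ) ^ 2) := by
        field_simp
      rw [e]
      linarith
    have e4 : 0 ≤ n2t q (slT (Actu A) t) y + q * n2 q (slT (Actu A) t) y :=
      add_nonneg (n2t_nonneg hq0 _ y) (mul_nonneg hq0.le (n2_nonneg hq0 _ y))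
    exact mul_le_mul hV e3 e4 (by positivity)
  have hsm : ∀ j, SmI (slT (Actu A) t j) := smI_slT (ld_Actu_smooth hδ hA) ht
  have hci : CI (fun y => V1 q Γ t y * (n2t q (slT (Actu A) t) y + q * n2 q (slT (Actu A) t) y)) :=
    (((smS_wL 4 30 q Γ).smI ht).continuousOn).mul
      ((ci_n2t hsm).add (continuousOn_const.mul (ci_n2 hsm)))
  have hmain : Di q (V1 q Γ t) (slT (Actu A) t) ≤ Real.pi * c₀ := by
    unfold Di
    rw [← ii_const c₀]
    exact ii_mono hci continuousOn_const hpt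
  refine hmain.trans (le_of_eq ?_)
  have hp : Λ ^ (-(28 : ℝ)) = (Λ ^ 28)⁻¹ := by
    rw [Real.rpow_neg hΛ.le, show (28 : ℝ) = ((28 : ℕ) : ℝ) by norm_num, Real.rpow_natCast]
  rw [hp, hc₀]
  field_simp

end

end Claimed.Agent.R324.Core
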