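/-
Row 324 (S0582), PDE core, module LD (`linear_solve`), step LD7 (assembly; helper489).      FILE LD/AsmAd
The forcing norm of the control term:      `DY q Γ (Fmc A β) t ≤ C Λ^{-28} |β(τ(t))|²`.
-/
import Claimed.Agent.R324.Core.LD.AsmAc

set_option autoImplicit false

namespace Claimed.Agent.R324.Core

open Set Filter Topology MeasureTheory
open scoped ContDiff

noncomputable section

variable {N : ℕ} {g : Bg} {b : Fin N → Fin 3 → ℝ → ℝ} {δ K g₀ Λ₀ cH : ℝ}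

theorem ld7_Di_zero (q : ℝ) (V : ℝ → ℝ) : Di q V (fun _ _ => 0) = 0 := by
  have h := ld0_Di_smul q V 0 (u := fun _ _ => 0) (fun _ => smI_const 0)
  simpa using h

/-- `Di` of a finite linear combination. -/
theorem ld7_Di_sum {q : ℝ} (hq : 1 ≤ q) {V : ℝ → ℝ} (hV : CI V) (h0 : ∀ y ∈ Icc (-1 : ℝ) 1, 0 ≤ V y)
    {ι : Type} (s : Finset ι) (c : ι → ℝ) {u : ι → Fin 3 → ℝ → ℝ} (hu : ∀ i j, SmI (u i j)) :
    Di q V (fun j y => ∑ i ∈ s, c i * u i j y) ≤ 2 ^ s.card * ∑ i ∈ s, (c i) ^ 2 * Di q V (u i) := by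
  classical
  have hq0 : 0 < q := by linarith
  induction s using Finset.induction_on with
  | empty => simp [ld7_Di_zero]
  | insert a s ha ih =>
    have hsum : ∀ j, SmI (fun y => ∑ i ∈ s, c i * u i j y) := fun j =>
      smI_sum s (fun i _ => (hu i j).const_mul (c i))
    have e : (fun (j : Fin 3) (y : ℝ) => ∑ i ∈ insert a s, c i * u i j y)
        = fun j y => c a * u a j y + ∑ i ∈ s, c i * u i j y := by
      funext j y
      rw [Finset.sum_insert ha]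
    rw [e, Finset.sum_insert ha, Finset.card_insert_of_notMem ha]
    have h1 := ld0_Di_add_le hq0 hV h0 (u := fun j y => c a * u a j y)
      (u' := fun j y => ∑ i ∈ s, c i * u i j y) (fun j => (hu a j).const_mul (c a)) hsum
    rw [ld0_Di_smul q V (c a) (hu a)] at h1
    have hn : 0 ≤ (c a) ^ 2 * Di q V (u a) := mul_nonneg (sq_nonneg _) (w2_Di_nonneg hq h0 _)
    have hp : (1 : ℝ) ≤ 2 ^ s.card := one_le_pow₀ (by norm_num)
    have h2 : 2 * ((c a) ^ 2 * Di q V (u a)) ≤ 2 ^ (s.card + 1) * ((c a) ^ 2 * Di q V (u a)) := by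
      refine mul_le_mul_of_nonneg_right ?_ hn
      rw [pow_succ]
      linarith
    calc Di q V (fun j y => c a * u a j y + ∑ i ∈ s, c i * u i j y)
        ≤ 2 * ((c a) ^ 2 * Di q V (u a)) + 2 * Di q V (fun j y => ∑ i ∈ s, c i * u i j y) := h1
      _ ≤ 2 ^ (s.card + 1) * ((c a) ^ 2 * Di q V (u a))
          + 2 * (2 ^ s.card * ∑ i ∈ s, (c i) ^ 2 * Di q V (u i)) := by linarith
      _ = 2 ^ (s.card + 1) * ((c a) ^ 2 * Di q V (u a) + ∑ i ∈ s, (c i) ^ 2 * Di q V (u i)) := by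
          rw [pow_succ]
          ring

/-- the control term in the norm `DY`. -/
theorem ld7_DY_Fmc {q : ℝ} (hq : 100 ≤ q) {Γ : ℝ} (hΓ : 0 ≤ Γ) (H : HeavyData q g N b δ K g₀ Λ₀ cH) :
    ∃ C : ℝ, 0 ≤ C ∧ ∀ (β : ℝ → EuclideanSpace ℝ (Fin N)), ∀ t ∈ Ico (-Λ₀) 0,
      DY q Γ (Fmc (AofV q g₀ b) β) t ≤ C * ((-t) ^ (-(28 : ℝ)) * ‖β (tauOf t)‖ ^ 2) := by
  have hq0 : 0 < q := by linarith
  have hq1 : 1 < q := by linarith
  have hA : ∀ i l, CcB δ K (AofV q g₀ b i l) := fun i l => H.bumpA hq0 i l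
  choose C hC hCb using fun i => ld7_Di_Actu hq hΓ H.δpos H.δK (hA i)
  refine ⟨2 ^ N * ∑ i, C i, mul_nonneg (by positivity) (Finset.sum_nonneg fun i _ => hC i), ?_⟩
  intro β t ht
  have ht0 : t < 0 := ht.2
  have hΛ : -t ≤ 100 / q := le_trans (by linarith [ht.1]) H.Λle
  have hV : CI (V1 q Γ t) := ((smS_wL 4 30 q Γ).smI ht0).continuousOn
  have hV0 : ∀ y ∈ Icc (-1 : ℝ) 1, 0 ≤ V1 q Γ t y := fun y hy => (w0_wL_pos hq1 hΓ ht0 hy).le
  have hsm : ∀ i j, SmI (slT (Actu (AofV q g₀ b i)) t j) := fun i =>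
    smI_slT (ld_Actu_smooth H.δpos (hA i)) ht0
  have h1 := ld7_Di_sum hq1.le hV hV0 Finset.univ (fun i => β (tauOf t) i) hsm
  have hr : 0 ≤ (-t) ^ (-(28 : ℝ)) := Real.rpow_nonneg (by linarith) _
  have hnorm : ∀ i, (β (tauOf t) i) ^ 2 ≤ ‖β (tauOf t)‖ ^ 2 := by
    intro i
    rw [EuclideanSpace.real_norm_sq_eq]
    exact Finset.single_le_sum (f := fun k => (β (tauOf t) k) ^ 2) (fun k _ => sq_nonneg _)
      (Finset.mem_univ i)
  have h2 : ∑ i, (β (tauOf t) i) ^ 2 * Di q (V1 q Γ t) (slT (Actu (AofV q g₀ b i)) t)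
      ≤ ∑ i, C i * ((-t) ^ (-(28 : ℝ)) * ‖β (tauOf t)‖ ^ 2) := by
    refine Finset.sum_le_sum fun i _ => ?_
    have a1 := hCb i t ht0 hΛ (H.core ht)
    have a2 : 0 ≤ Di q (V1 q Γ t) (slT (Actu (AofV q g₀ b i)) t) := w2_Di_nonneg hq1.le hV0 _
    calc (β (tauOf t) i) ^ 2 * Di q (V1 q Γ t) (slT (Actu (AofV q g₀ b i)) t)
        ≤ ‖β (tauOf t)‖ ^ 2 * (C i * (-t) ^ (-(28 : ℝ))) :=
          mul_le_mul (hnorm i) a1 a2 (sq_nonneg _)
      _ = C i * ((-t) ^ (-(28 : ℝ)) * ‖β (tauOf t)‖ ^ 2) := by ring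
  rw [← Finset.sum_mul] at h2
  have h3 : DY q Γ (Fmc (AofV q g₀ b) β) t
      = Di q (V1 q Γ t) (fun j y => ∑ i, β (tauOf t) i * slT (Actu (AofV q g₀ b i)) t j y) := rfl
  rw [h3]
  refine h1.trans ?_
  rw [Finset.card_univ, Fintype.card_fin, mul_assoc]
  exact mul_le_mul_of_nonneg_left h2 (by positivity)

end

end Claimed.Agent.R324.Core
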