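/-
Row 324 (S0582), PDE core, module LD (`linear_solve`), step LD7 (assembly; helper489).      FILE LD/AsmB
Part B: the `𝒳` bound of the controlled solution; the integral of the control.      (R325 analogue: LD/AsmB.lean in Pk47.)
-/
import Claimed.Agent.R324.Core.LD.AsmAd
import Claimed.Agent.R324.Core.LD.AsmA

set_option autoImplicit false

namespace Claimed.Agent.R324.Core

open Set Filter Topology MeasureTheory
open scoped ContDiff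

noncomputable section

open Claimed.Agent.R325 (wEnergy CausalSmooth ControlHyp)

variable {N : ℕ} {g : Bg} {b : Fin N → Fin 3 → ℝ → ℝ} {δ K g₀ Λ₀ cH : ℝ}

/-- pure arithmetic closing `ld7_XB`. -/
theorem ld7_XB_arith {Ch CF R RM Rβ IH I55 IB IY ID mE IHY : ℝ}
    (hCh : 0 ≤ Ch) (hCF : 0 ≤ CF) (hR : 0 ≤ R) (hRM : 0 ≤ RM) (hRβ : 0 ≤ Rβ)
    (hH : IH ≤ Ch * mE + Ch * IHY) (hmE : mE ≤ RM ^ 2) (hIHY : IHY ≤ R ^ 2)
    (h55 : I55 ≤ IH) (hIB : IB ≤ Rβ ^ 2) (hIY : IY ≤ R ^ 2) (hID : ID ≤ 2 * IY + 2 * CF * IB) :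
    I55 + ID ≤ (Real.sqrt (Ch + 2 + 2 * CF) * (R + RM + Rβ)) ^ 2 := by
  rw [mul_pow, Real.sq_sqrt (by positivity)]
  set T := R + RM + Rβ with hT
  have hsum : R ^ 2 + RM ^ 2 + Rβ ^ 2 ≤ T ^ 2 := by
    rw [hT]; nlinarith [mul_nonneg hR hRM, mul_nonneg hR hRβ, mul_nonneg hRM hRβ]
  have hR2 : 0 ≤ R ^ 2 := by positivity
  have hRM2 : 0 ≤ RM ^ 2 := by positivity
  have hRβ2 : 0 ≤ Rβ ^ 2 := by positivity
  have a1 : Ch * mE + Ch * IHY ≤ Ch * T ^ 2 := by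
    have h1 : Ch * mE ≤ Ch * RM ^ 2 := mul_le_mul_of_nonneg_left hmE hCh
    have h2 : Ch * IHY ≤ Ch * R ^ 2 := mul_le_mul_of_nonneg_left hIHY hCh
    have h3 : Ch * (RM ^ 2 + R ^ 2) ≤ Ch * T ^ 2 := mul_le_mul_of_nonneg_left (by linarith) hCh
    linarith
  have a2 : 2 * CF * IB ≤ 2 * CF * T ^ 2 := mul_le_mul_of_nonneg_left (by linarith) (by positivity)
  have a3 : 2 * IY ≤ 2 * T ^ 2 := by linarith
  have e : (Ch + 2 + 2 * CF) * T ^ 2 = Ch * T ^ 2 + 2 * T ^ 2 + 2 * CF * T ^ 2 := by ring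
  rw [e]
  linarith

/-- **the `𝒳` bound.**  `U = 0` for `t ≤ ts`;  `U` solves `(L_1)` with forcing `S + Σ M_i Ac_i` and `(L_0)` with forcing `S + Σ β_i Ac_i`;  `27/2 ≤ η ≤ 14`.
 (a) `ld_heavy_int`:  `∫ Λ^{-2η-1} EE_B ≤ C (RM² + R²)`.
 (b) `∫ Λ^{20} E_{wH 3 52} = ∫ Λ^{-55/2} EE_B ≤ ∫ Λ^{-2η-1} EE_B`   (`Λ ≤ 1`, `2η + 1 ≥ 55/2`).
 (c) `dfL U = S + Σ β_i Ac_i` on `[-1,1]`:  `DY(dfL U) ≤ 2 DY(S) + 2 C Λ^{-28} |β|²`   (`ld7_DY_Fmc`).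
 (d) `ld0_xb`. -/
theorem ld7_XB {q : ℝ} (hq : 100 ≤ q) (hg : BgGood q g) (H : HeavyData q g N b δ K g₀ Λ₀ cH) :
    ∃ Γ₁ : ℝ, 0 ≤ Γ₁ ∧ ∀ Γ : ℝ, Γ₁ ≤ Γ → ∃ C Λ₁ : ℝ, 0 ≤ C ∧ 0 < Λ₁ ∧ ∀ η ∈ Icc (27 / 2 : ℝ) 14,
    ∀ (U S : Tri) (M β : ℝ → EuclideanSpace ℝ (Fin N)) (ts R RM Rβ : ℝ),
    0 ≤ R → 0 ≤ RM → 0 ≤ Rβ → (∀ j, Sm (U j)) → (∀ j, Sm (S j)) → Continuous M → Continuous β →
    ts ∈ Ico (-Λ₀) 0 → -Λ₁ ≤ ts → VanB ts U →
    SolL q g b (AofV q g₀ b) 1 (fun j p => S j p + Fmc (AofV q g₀ b) M j p) U →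
    SolL q g b (AofV q g₀ b) 0 (fun j p => S j p + Fmc (AofV q g₀ b) β j p) U →
    YB q Γ η ts R S →
    (∀ t ∈ Ico ts 0, mEn η M ts t ≤ RM ^ 2) →
    (∀ t ∈ Ico ts 0, ∫ s in ts..t, (-s) ^ (-(28 : ℝ)) * ‖β (tauOf s)‖ ^ 2 ≤ Rβ ^ 2) →
    XB q g Γ ts (C * (R + RM + Rβ)) U := by
  have hq0 : 0 < q := by linarith
  have hq1 : 1 < q := by linarith
  obtain ⟨Ch, hCh, hH⟩ := ld_heavy_int hq hg H
  obtain ⟨Γ₁, hΓ₁, hX⟩ := ld0_xb q hq g hg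
  refine ⟨Γ₁, hΓ₁, fun Γ hΓ => ?_⟩
  have hΓ0 : 0 ≤ Γ := hΓ₁.trans hΓ
  obtain ⟨C0, Λ₁, hC0, hΛ₁, hX⟩ := hX Γ hΓ
  obtain ⟨CF, hCF, hF⟩ := ld7_DY_Fmc hq hΓ0 H
  refine ⟨C0 * Real.sqrt (Ch + 2 + 2 * CF), Λ₁, mul_nonneg hC0 (Real.sqrt_nonneg _), hΛ₁, ?_⟩
  intro η hη U S M β ts R RM Rβ hR hRM hRβ hU hS hM hβ hts hts1 hvan hs1 hsz hY hME hBE
  have hΛ01 : Λ₀ ≤ 1 := H.Λle.trans (by rw [div_le_one hq0]; exact hq)
  have hA : ∀ i l, CcB δ K (AofV q g₀ b i l) := fun i l => H.bumpA hq0 i l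
  have hsR : BgSm (bgR q g) := bgR_sm hq1 hg.sm
  have hdf : ∀ j, Sm (dfL q (bgR q g) U j) := sm_dfL q hsR hU
  rw [mul_assoc]
  refine hX ts ⟨hts1, hts.2⟩ U hU (fun j y hy => hvan j ts le_rfl y hy) _
    (mul_nonneg (Real.sqrt_nonneg _) (by positivity)) ?_
  intro t ht
  have ht' : t ∈ Ico ts 0 := ⟨ht.1.le, ht.2⟩
  have hle : ts ≤ t := ht.1.le
  have hsub : Icc ts t ⊆ Iio (0 : ℝ) := fun s hs => lt_of_le_of_lt hs.2 ht.2
  have cr : ∀ a : ℝ, ContinuousOn (fun s : ℝ => (-s) ^ a) (Icc ts t) := fun a =>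
    (ld_rpow_contDiffOn a).continuousOn.mono hsub
  have cE : ContinuousOn (EEB q U) (Icc ts t) := (ld_EEB_cont q hU).mono hsub
  have i1 : IntervalIntegrable (fun s : ℝ => (-s) ^ (-2 * η - 1) * EEB q U s) volume ts t :=
    ((cr _).mul cE).intervalIntegrable_of_Icc hle
  have i2 : IntervalIntegrable (fun s : ℝ => (-s) ^ 20 * En q (wH 3 52 q s) (slT U s)) volume ts t :=
    (((continuous_neg.pow 20).continuousOn.mul (ld0_En_contOn q (smS_wH 3 52 q) hU)).mono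
      hsub).intervalIntegrable_of_Icc hle
  have i3 : IntervalIntegrable (fun s : ℝ => (-s) ^ (-(28 : ℝ)) * ‖β (tauOf s)‖ ^ 2) volume ts t :=
    ((ld_WE_contOn _ hβ).mono hsub).intervalIntegrable_of_Icc hle
  have i4 : IntervalIntegrable (fun s : ℝ => DY q Γ (dfL q (bgR q g) U) s) volume ts t :=
    ((ld0_Di_contOn q (smS_wL 4 30 q Γ) hdf).mono hsub).intervalIntegrable_of_Icc hle
  have i5 : IntervalIntegrable (fun s : ℝ => DY q Γ S s) volume ts t :=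
    ((ld0_Di_contOn q (smS_wL 4 30 q Γ) hS).mono hsub).intervalIntegrable_of_Icc hle
  -- heavy
  have hheavy := hH η ⟨by linarith [hη.1], hη.2⟩ U S M ts hU hS hM hts hvan hs1 t ht'
  have n1 : 0 ≤ (-t) ^ (-2 * η) * EEB q U t :=
    mul_nonneg (Real.rpow_nonneg (by linarith [ht.2]) _) (ld_EEB_nonneg hq1 U ht.2)
  have n2' : 0 ≤ ∫ s in ts..t, (-s) ^ (-2 * η) * DDB q U s :=
    intervalIntegral.integral_nonneg hle (fun s hs =>
      mul_nonneg (Real.rpow_nonneg (neg_nonneg.2 (le_of_lt (hsub hs))) _)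
        (ld_DDB_nonneg hq1 U (hsub hs)))
  have hH' : (∫ s in ts..t, (-s) ^ (-2 * η - 1) * EEB q U s)
      ≤ Ch * mEn η M ts t + Ch * ∫ s in ts..t, HY q η S s := by
    have := mul_nonneg (by linarith [H.cpos] : 0 ≤ cH / 2) n2'
    linarith
  -- exponent comparison
  have h55 : ∫ s in ts..t, (-s) ^ 20 * En q (wH 3 52 q s) (slT U s)
      ≤ ∫ s in ts..t, (-s) ^ (-2 * η - 1) * EEB q U s := by
    apply intervalIntegral.integral_mono_on hle i2 i1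
    intro s hs
    have hs0 : s < 0 := hsub hs
    rw [ld0_core_EEB q U hs0]
    apply mul_le_mul_of_nonneg_right _ (ld_EEB_nonneg hq1 U hs0)
    apply Real.rpow_le_rpow_of_exponent_ge (by linarith)
    · linarith [hs.1, hts.1]
    · linarith [hη.1]
  -- the forcing
  have hpt : ∀ s ∈ Icc ts t, DY q Γ (dfL q (bgR q g) U) s
      ≤ 2 * DY q Γ S s + 2 * CF * ((-s) ^ (-(28 : ℝ)) * ‖β (tauOf s)‖ ^ 2) := by
    intro s hs
    have hs0 : s < 0 := hsub hs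
    have hsI : s ∈ Ico (-Λ₀) 0 := ⟨hts.1.trans hs.1, hs0⟩
    have hV : CI (V1 q Γ s) := ((smS_wL 4 30 q Γ).smI hs0).continuousOn
    have hV0 : ∀ y ∈ Icc (-1 : ℝ) 1, 0 ≤ V1 q Γ s y := fun y hy => (w0_wL_pos hq1 hΓ0 hs0 hy).le
    have hFs : ∀ j, SmI (slT (Fmc (AofV q g₀ b) β) s j) := by
      intro j
      have : slT (Fmc (AofV q g₀ b) β) s j
          = fun y => ∑ i ∈ Finset.univ, β (tauOf s) i * slT (Actu (AofV q g₀ b i)) s j y := rfl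
      rw [this]
      exact smI_sum _ fun i _ => (smI_slT (ld_Actu_smooth H.δpos (hA i)) hs0 j).const_mul _
    have e1 : DY q Γ (dfL q (bgR q g) U) s
        = Di q (V1 q Γ s) (fun j y => slT S s j y + slT (Fmc (AofV q g₀ b) β) s j y) := by
      unfold DY
      refine ld0_Di_congr q _ fun j y hy => ?_
      have h := hsz j s hs0 y hy
      show dT (U j) (s, y) - Lop q (bgR q g) U j (s, y) = S j (s, y) + Fmc (AofV q g₀ b) β j (s, y)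
      rw [h]
      unfold Lt
      ring
    rw [e1]
    have h2 := ld0_Di_add_le hq0 hV hV0 (smI_slT hS hs0) hFs
    have h3 := hF β s hsI
    unfold DY at h3 ⊢
    linarith
  have hID : ∫ s in ts..t, DY q Γ (dfL q (bgR q g) U) s
      ≤ 2 * (∫ s in ts..t, DY q Γ S s)
        + 2 * CF * ∫ s in ts..t, (-s) ^ (-(28 : ℝ)) * ‖β (tauOf s)‖ ^ 2 := by
    rw [← intervalIntegral.integral_const_mul, ← intervalIntegral.integral_const_mul,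
      ← intervalIntegral.integral_add (i5.const_mul _) (i3.const_mul _)]
    exact intervalIntegral.integral_mono_on hle i4 ((i5.const_mul _).add (i3.const_mul _)) hpt
  rw [intervalIntegral.integral_add i2 i4]
  exact ld7_XB_arith hCh hCF hR hRM hRβ hH' (hME t ht') (hY.hy t ht) h55 (hBE t ht') (hY.dy t ht) hID

/-- the control term:  `∫ Λ^{-28} |β(τ(s))|² ds = ∫ e^{27σ} |β(σ)|² dσ ≤ Δ e^{27(τs+Δ)} B²`  for `β` supported in `[τs, τs+Δ]`, `|β| ≤ B`. -/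
theorem ld7_beta_int {β : ℝ → EuclideanSpace ℝ (Fin N)} (hβ : Continuous β) {τs Δ B : ℝ} (hΔ : 0 < Δ)
    (h0 : ∀ τ, τ ≤ τs ∨ τs + Δ ≤ τ → β τ = 0) (hB : ∀ τ, ‖β τ‖ ≤ B) :
    ∀ t ∈ Ico (tOf τs) 0, ∫ s in (tOf τs)..t, (-s) ^ (-(28 : ℝ)) * ‖β (tauOf s)‖ ^ 2
      ≤ Δ * Real.exp (27 * (τs + Δ)) * B ^ 2 := by
  intro t ht
  have htt : tOf (tauOf t) = t := ld_tOf_tauOf ht.2
  have hτ : τs ≤ tauOf t := by
    rw [← ld_tOf_le_iff, htt]; exact ht.1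
  have h0' : ∀ τ ≤ τs, β τ = 0 := fun τ h => h0 τ (Or.inl h)
  have e1 : ∫ s in (tOf τs)..t, (-s) ^ (-(28 : ℝ)) * ‖β (tauOf s)‖ ^ 2
      = mEn (27 / 2) β (tOf τs) (tOf (tauOf t)) := by
    rw [htt]
    unfold mEn
    have : (-2 * (27 / 2) - 1 : ℝ) = -(28 : ℝ) := by norm_num
    rw [this]
  rw [e1, ← ld_wEnergy_eq (27 / 2) hβ h0' hτ, ld_wEnergy_interval (27 / 2) h0' hτ]
  set τ := tauOf t with hτdef
  set K : ℝ := Real.exp (27 * (τs + Δ)) * B ^ 2 with hK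
  have hK0 : 0 ≤ K := by positivity
  have hcont : Continuous (fun σ : ℝ => Real.exp (2 * (27 / 2) * σ) * ‖β σ‖ ^ 2) := by fun_prop
  have hle : ∀ σ, Real.exp (2 * (27 / 2) * σ) * ‖β σ‖ ^ 2 ≤ K := by
    intro σ
    by_cases hσ : τs + Δ ≤ σ
    · rw [h0 σ (Or.inr hσ)]; simpa using hK0
    · push Not at hσ
      have h1 : Real.exp (2 * (27 / 2) * σ) ≤ Real.exp (27 * (τs + Δ)) :=
        Real.exp_le_exp.mpr (by linarith)
      have h2 : ‖β σ‖ ^ 2 ≤ B ^ 2 := pow_le_pow_left₀ (norm_nonneg _) (hB σ) 2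
      exact mul_le_mul h1 h2 (by positivity) (by positivity)
  have hbd : ∀ c, τs ≤ c → c ≤ τs + Δ →
      ∫ σ in τs..c, Real.exp (2 * (27 / 2) * σ) * ‖β σ‖ ^ 2 ≤ Δ * K := by
    intro c hc1 hc2
    have h1 : ∫ σ in τs..c, Real.exp (2 * (27 / 2) * σ) * ‖β σ‖ ^ 2 ≤ ∫ _σ in τs..c, K :=
      intervalIntegral.integral_mono_on hc1 (hcont.intervalIntegrable _ _)
        (continuous_const.intervalIntegrable _ _) (fun σ _ => hle σ)
    rw [intervalIntegral.integral_const, smul_eq_mul] at h1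
    have h2 : (c - τs) * K ≤ Δ * K := mul_le_mul_of_nonneg_right (by linarith) hK0
    linarith
  have hgoal : Δ * Real.exp (27 * (τs + Δ)) * B ^ 2 = Δ * K := by rw [hK]; ring
  rw [hgoal]
  by_cases hc : τ ≤ τs + Δ
  · exact hbd τ hτ hc
  · push Not at hc
    rw [← intervalIntegral.integral_add_adjacent_intervals (b := τs + Δ)
      (hcont.intervalIntegrable _ _) (hcont.intervalIntegrable _ _)]
    have hz : ∫ σ in (τs + Δ)..τ, Real.exp (2 * (27 / 2) * σ) * ‖β σ‖ ^ 2 = 0 := by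
      have : ∫ σ in (τs + Δ)..τ, Real.exp (2 * (27 / 2) * σ) * ‖β σ‖ ^ 2
          = ∫ _σ in (τs + Δ)..τ, (0 : ℝ) := by
        apply intervalIntegral.integral_congr
        intro σ hσ
        rw [uIcc_of_le hc.le] at hσ
        simp only
        rw [h0 σ (Or.inr hσ.1)]; simp
      rw [this]; simp
    rw [hz, add_zero]
    exact hbd _ (by linarith) le_rfl

end

end Claimed.Agent.R324.Core
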