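/-
Row 324 (S0582), PDE core, module LD (`linear_solve`), step LD7 (assembly; helper489).      FILE LD/Assembly
Assembly of `linear_solve` (blueprint 7.4, LD7).      (R325 analogue: LD/Assembly.lean in Pk48.)
   `G` = solution of `(L_1)` with forcing `S`,  `ρ = ObsV b G`,  `wEnergy η ρ ≤ C R²` (`ld7_rho_wEnergy`);   `β, M` from `control` (module V);
   `U` = solution of `(L_1)` with forcing `S + Σ M_i Ac_i`,  `= G + W[M]` (`ld7_obs_decomp`), so `β = M - ObsV b U` and `U` solves `(L_0)` with forcing `S + Σ β_i Ac_i`;   `ld7_XB`.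
-/
import Claimed.Agent.R324.Core.LD.AsmB

set_option autoImplicit false

namespace Claimed.Agent.R324.Core

open Set Filter Topology MeasureTheory
open scoped ContDiff

open Claimed.Agent.R325 (wEnergy CausalSmooth ControlHyp)

theorem ld7_linear_solve (q : ℕ) (hq : Odd q) (hq6 : 10 ^ 6 ≤ q) (g : Bg) (hg : BgGood q g) :
    ∃ Γ₁ : ℝ, ∀ Γ : ℝ, Γ₁ ≤ Γ →
    ∃ (η C Δ τbar : ℝ) (N : ℕ) (Ac : Fin N → Tri) (Cd : ℕ → ℝ),
      27 / 2 < η ∧ η < 139 / 10 ∧ 0 < Δ ∧ 0 ≤ C ∧ (∀ i j, Sm (Ac i j)) ∧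
      ∀ τs : ℝ, τbar ≤ τs → ∀ (S : Tri) (R : ℝ), 0 ≤ R → (∀ j, Sm (S j)) →
        (∀ j, ∀ t ≤ tOf (τs + Δ), ∀ y ∈ Icc (-1 : ℝ) 1, S j (t, y) = 0) →
        YB q Γ η (tOf τs) R S →
        ∃ (U : Tri) (β : ℝ → EuclideanSpace ℝ (Fin N)),
          (∀ j, Sm (U j)) ∧ (∀ j, ∀ t ≤ tOf τs, ∀ y ∈ Icc (-1 : ℝ) 1, U j (t, y) = 0) ∧
          ContDiff ℝ ∞ β ∧ (∀ τ, τ ≤ τs ∨ τs + Δ ≤ τ → β τ = 0) ∧
          (∀ l τ, ‖iteratedDeriv l β τ‖ ≤ Cd l * R) ∧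
          (∀ j, ∀ t < 0, ∀ y ∈ Icc (-1 : ℝ) 1,
            dT (U j) (t, y) = Lt q g U j (t, y) + S j (t, y) + ∑ i, β (tauOf t) i * Ac i j (t, y)) ∧
          XB q g Γ (tOf τs) (C * R) U := by
  have hqR6 : (10 : ℝ) ^ 6 ≤ q := by exact_mod_cast hq6
  have hq2 : (100 : ℝ) ≤ q := le_trans (by norm_num) hqR6
  have hq1 : (1 : ℝ) < q := by linarith
  have hq0 : (0 : ℝ) < q := by linarith
  obtain ⟨N, b, δ, K, g₀, Λa, cH, Ha⟩ := ld7_need_heavy_data q hqR6 g hg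
  obtain ⟨Λ₀, hΛ₀, hΛ₀a, Cst, hK⟩ := ld7_need_control q hq hq6 hg Ha
  have H : HeavyData q g N b δ K g₀ Λ₀ cH := Ha.mono hΛ₀ hΛ₀a
  obtain ⟨η, hη, Cc, Δ, τbar, Cd, hΔ, hτbar, hctl⟩ :=
    Claimed.Agent.R325.control N (-Real.log Λ₀) 14 (27 / 2) (139 / 10) Cst _ _ hK (by norm_num)
      (by norm_num) (by norm_num)
  obtain ⟨Γ₁, _, hXB⟩ := ld7_XB hq2 hg H
  obtain ⟨Cρ, hCρ, hρE⟩ := ld7_rho_wEnergy hq2 hg H
  refine ⟨Γ₁, fun Γ hΓ => ?_⟩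
  obtain ⟨CX, Λ₁, hCX, hΛ₁, hX⟩ := hXB Γ hΓ
  have hη1 : (27 : ℝ) / 2 < η := hη.1
  have hη2 : η < 139 / 10 := hη.2
  have hA : ∀ i l, CcB δ K (AofV (q : ℝ) g₀ b i l) := fun i l => H.bumpA hq0 i l
  set kβ : ℝ := Real.sqrt (Δ * Real.exp (27 * Δ)) with hkβ
  have hkβ0 : 0 ≤ kβ := Real.sqrt_nonneg _
  have hkβsq : kβ ^ 2 = Δ * Real.exp (27 * Δ) :=
    Real.sq_sqrt (mul_nonneg hΔ.le (Real.exp_pos _).le)
  set sρ : ℝ := Real.sqrt Cρ with hsρ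
  have hsρ0 : 0 ≤ sρ := Real.sqrt_nonneg _
  have hsρsq : sρ ^ 2 = Cρ := Real.sq_sqrt hCρ
  refine ⟨η, CX * (1 + |Cc| * sρ + kβ * |Cd 0| * sρ), Δ, max τbar (max 0 (-Real.log Λ₁)), N,
    fun i => Actu (AofV (q : ℝ) g₀ b i), fun l => |Cd l| * sρ, hη1, hη2, hΔ, ?_, ?_, ?_⟩
  · positivity
  · exact fun i j => ld_Actu_smooth H.δpos (hA i) j
  intro τs hτs S R hR hS hS0 hYB
  have hτs1 : τbar ≤ τs := (le_max_left _ _).trans hτs
  have hτs0 : 0 ≤ τs := ((le_max_left _ _).trans (le_max_right _ _)).trans hτs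
  have hτsΛ : -Real.log Λ₁ ≤ τs := ((le_max_right _ _).trans (le_max_right _ _)).trans hτs
  have hτmin : -Real.log Λ₀ ≤ τs := hτbar.trans hτs1
  have hΛts : -Λ₀ ≤ tOf τs := ld7_tOf_ge H.Λpos hτmin
  have hΛts1 : -Λ₁ ≤ tOf τs := ld7_tOf_ge hΛ₁ hτsΛ
  have htsΔ : tOf τs ≤ tOf (τs + Δ) := (ld_tOf_le_iff _ _).2 (by linarith)
  have hts : tOf τs ∈ Ico (-Λ₀) 0 := ⟨hΛts, ld_tOf_neg τs⟩
  have hS0' : VanB (tOf (τs + Δ)) S := hS0
  -- the free solution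
  obtain ⟨G, hG, hG0, hGs⟩ := ld_wrapper q hq hq1 hg.sm H.δpos H.bump hA 1 hS hS0'
  have hρ : CausalSmooth (τs + Δ) (ObsV b G) :=
    ld_ObsV_causal (fun i l => (H.bump i l).smooth) hG hG0
  have hR1 : 0 ≤ sρ * R := mul_nonneg hsρ0 hR
  have hρE' : ∀ τ, wEnergy η (ObsV b G) τ ≤ (sρ * R) ^ 2 := by
    intro τ
    have h := hρE η ⟨by linarith, by linarith⟩ G S τs R hG hS hτmin (hG0.mono htsΔ) hGs hYB.hy τ
    rw [mul_pow, hsρsq]
    exact h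
  -- the control
  obtain ⟨β, M, hβ, hβ2, hM, hMeq, hME, hβd⟩ := hctl τs hτs1 (ObsV b G) (sρ * R) hR1 hρ hρE'
  -- the controlled solution
  have hS2 : ∀ j, Sm (fun p => S j p + Fmc (AofV (q : ℝ) g₀ b) M j p) := fun j =>
    (hS j).add (ld_Fmc_smooth H.δpos hA hM.1 j)
  have hS2v : VanB (tOf τs) (fun j p => S j p + Fmc (AofV (q : ℝ) g₀ b) M j p) := by
    intro j t ht y hy
    show S j (t, y) + Fmc (AofV (q : ℝ) g₀ b) M j (t, y) = 0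
    rw [hS0 j t (ht.trans htsΔ) y hy, ld_Fmc_van (AofV (q : ℝ) g₀ b) hM.2 j t ht y, add_zero]
  obtain ⟨U, hU, hU0, hUs⟩ := ld_wrapper q hq hq1 hg.sm H.δpos H.bump hA 1 hS2 hS2v
  have hMc : CausalSmooth (-Real.log Λ₀) M := ⟨hM.1, fun τ h => hM.2 τ (h.trans hτmin)⟩
  have hdec := ld7_obs_decomp q hq hq2 hg H hMc hG hU
    (hG0.mono (hΛts.trans htsΔ)) (hU0.mono hΛts) hGs hUs
  have hβeq : ∀ τ, β τ = M τ - ObsV b U τ := by
    intro τ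
    rw [hdec τ]
    have h := hMeq τ
    rw [h]
    abel
  have hUs0 : SolL q g b (AofV (q : ℝ) g₀ b) 0 (fun j p => S j p + Fmc (AofV (q : ℝ) g₀ b) β j p) U :=
    (ld_SolL_one_iff M β hβeq).1 hUs
  have hβ0 : ∀ τ, τ ≤ τs ∨ τs + Δ ≤ τ → β τ = 0 := by
    rintro τ (h | h)
    · exact hβ.2 τ h
    · exact hβ2 τ h
  have hexp1 : Real.exp (-η * τs) ≤ 1 := by
    rw [Real.exp_le_one_iff]
    nlinarith
  have hβd' : ∀ l τ, ‖iteratedDeriv l β τ‖ ≤ |Cd l| * Real.exp (-η * τs) * (sρ * R) := by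
    intro l τ
    refine (hβd l τ).trans ?_
    exact mul_le_mul_of_nonneg_right
      (mul_le_mul_of_nonneg_right (le_abs_self _) (Real.exp_pos _).le) hR1
  refine ⟨U, β, hU, hU0, hβ.1, hβ0, ?_, ?_, ?_⟩
  · intro l τ
    refine (hβd' l τ).trans ?_
    have : |Cd l| * Real.exp (-η * τs) * (sρ * R) ≤ |Cd l| * 1 * (sρ * R) :=
      mul_le_mul_of_nonneg_right (mul_le_mul_of_nonneg_left hexp1 (abs_nonneg _)) hR1
    calc _ ≤ |Cd l| * 1 * (sρ * R) := this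
      _ = |Cd l| * sρ * R := by ring
  · intro j t ht y hy
    have h := hUs0 j t ht y hy
    rw [h]
    simp only [Fmc, zero_mul, sub_zero]
    ring
  · -- the estimates
    have hMen : ∀ t ∈ Ico (tOf τs) 0, mEn η M (tOf τs) t ≤ (|Cc| * (sρ * R)) ^ 2 := by
      intro t ht
      have h1 : τs ≤ tauOf t := by
        rw [← ld_tOf_le_iff, ld_tOf_tauOf ht.2]
        exact ht.1
      have h2 := ld_wEnergy_eq η hM.1.continuous hM.2 h1
      rw [ld_tOf_tauOf ht.2] at h2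
      rw [← h2]
      refine (hME (tauOf t)).trans (le_of_eq ?_)
      rw [mul_pow, mul_pow |Cc|, sq_abs]
    have hβint : ∀ t ∈ Ico (tOf τs) 0,
        ∫ s in (tOf τs)..t, (-s) ^ (-(28 : ℝ)) * ‖β (tauOf s)‖ ^ 2
          ≤ (kβ * |Cd 0| * (sρ * R)) ^ 2 := by
      intro t ht
      have hB : ∀ τ, ‖β τ‖ ≤ |Cd 0| * Real.exp (-η * τs) * (sρ * R) := by
        intro τ
        have := hβd' 0 τ
        rwa [iteratedDeriv_zero] at this
      refine (ld7_beta_int hβ.1.continuous hΔ hβ0 hB t ht).trans ?_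
      have e1 : Δ * Real.exp (27 * (τs + Δ)) * (|Cd 0| * Real.exp (-η * τs) * (sρ * R)) ^ 2
          = (kβ * |Cd 0| * (sρ * R)) ^ 2 * Real.exp ((27 - 2 * η) * τs) := by
        have e2 : Real.exp (27 * (τs + Δ)) * Real.exp (-η * τs) ^ 2
            = Real.exp (27 * Δ) * Real.exp ((27 - 2 * η) * τs) := by
          rw [← Real.exp_nat_mul, ← Real.exp_add, ← Real.exp_add]
          congr 1
          push_cast
          ring
        calc Δ * Real.exp (27 * (τs + Δ)) * (|Cd 0| * Real.exp (-η * τs) * (sρ * R)) ^ 2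
            = Δ * (Real.exp (27 * (τs + Δ)) * Real.exp (-η * τs) ^ 2) * (|Cd 0| * (sρ * R)) ^ 2 := by
              ring
          _ = (Δ * Real.exp (27 * Δ)) * (|Cd 0| * (sρ * R)) ^ 2
                * Real.exp ((27 - 2 * η) * τs) := by rw [e2]; ring
          _ = (kβ * |Cd 0| * (sρ * R)) ^ 2 * Real.exp ((27 - 2 * η) * τs) := by
              rw [← hkβsq]; ring
      rw [e1]
      have hexp2 : Real.exp ((27 - 2 * η) * τs) ≤ 1 := by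
        rw [Real.exp_le_one_iff]
        nlinarith
      exact mul_le_of_le_one_right (sq_nonneg _) hexp2
    have hfin := hX η ⟨hη1.le, by linarith⟩ U S M β (tOf τs) R (|Cc| * (sρ * R))
      (kβ * |Cd 0| * (sρ * R)) hR (mul_nonneg (abs_nonneg _) hR1)
      (mul_nonneg (mul_nonneg hkβ0 (abs_nonneg _)) hR1) hU hS hM.1.continuous hβ.1.continuous hts
      hΛts1 hU0 hUs hUs0 hYB hMen hβint
    have e : CX * (1 + |Cc| * sρ + kβ * |Cd 0| * sρ) * R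
        = CX * (R + |Cc| * (sρ * R) + kβ * |Cd 0| * (sρ * R)) := by ring
    rw [e]
    exact hfin

end Claimed.Agent.R324.Core
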