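/-
Row 324 (S0582), PDE core, module LD.   Blueprint 7.4, tag LD6 "shift".      FILE LD/ShId      (helper325)
   Λ = -t,  X = Xf y = 1 - y²,  tt f = -X f' (rules: Core/W/TtCalc.lean, Core/W/TBa.lean: `tt_mul`, `tt_tt_mul`, `tt_congr`);   uV u = (σ, h₃, X b);   `chS, hS, ScF, cSF, scT, GsT`: Core/LD/ShDefs.lean;  chain rules: Core/LD/ShCalc.lean.
THE ERROR OF THE RESCALING IN tt-FORM.       c = cSF r,   v_i = vSF r U t i = (uV (slT U (t/r)) i) ∘ ScF r   (smooth on ℝ),    Z, b̂, 𝐦 = coefficients at (t,y);   Z₂, b̂₂, 𝐦₂ = coefficients at (t/r, ScF r y);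
      aa = y² Z,  bb = y b̂ - X Z   (the quantities of `BgDev`),   so that  Z = aa/y²,  b̂ = bb/y + X aa/y³   for y ≠ 0.
   `ld_sh_Gs_id`:     X (uV Gs)_i = P2 tt² v_i + P1 tt v_i + Σ_j P0_ij v_j.
PROOF.   (1) [frame 1]  `w1_pointwise q g (sm_scT hr hU) ht y i` and `ld_sh_uV_scT`:   X uV(L (scT r U))_i = Z tt²(c v_i) + b̂ tt(c v_i) + Σ_j 𝐦_ij c v_j;     `tt_mul`, `tt_tt_mul` (c and v_i are `ContDiff`, `smI_of_contDiff`; `tt_tt_mul` is stated on [-1,1]):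
             = c (Z tt² v_i + b̂ tt v_i + Σ 𝐦_ij v_j) + Z (tt²c v_i + 2 tt c tt v_i) + b̂ tt c v_i.
         (2) [frame 2]  `ld_sh_X_uV_scT` and `w1_pointwise q g hU (t/r < 0) (ScF r y) i`:     X (1/r) uV(scT r (L U))_i = c (Z₂ T2 + b̂₂ T1 + Σ_j 𝐦₂_ij v_j),   T1 = (tt u_i)(ScF r y),  T2 = (tt² u_i)(ScF r y),  u_i = uV (slT U (t/r)) i.
         (3) if c(y) = 0 the terms with c drop and the identity is (1).   If c(y) ≠ 0:  X/r < 9/100, y > 3/4 (`ld_sh_cSF_supp`),  `ld_sh_tt_comp`, `ld_sh_tt_tt_comp` express tt v_i, tt² v_i through T1, T2;   with S = ScF r y > 0, S² = 1 - X/r, X(S) = X/r: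
             `field_simp` and `ring` (aa₂ = S² Z₂,  bb₂ = S b̂₂ - (X/r) Z₂).      Check:  (aa₂/y²) ((y/S)² T2 + (-X/S + (X/r) y²/S³) T1) + (bb₂/y + X aa₂/y³)(y/S) T1 = Z₂ T2 + b̂₂ T1.
-/
import Claimed.Agent.R324.Core.LD.ShCalc

set_option autoImplicit false

namespace Claimed.Agent.R324.Core

open Set Filter Topology MeasureTheory
open scoped ContDiff

noncomputable section

/-- `aa = y² Z`. -/
def aaF (g : Bg) (p : ℝ × ℝ) : ℝ := p.2 ^ 2 * g.Z p

/-- `bb = y b̂ - X Z`. -/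
def bbF (q : ℝ) (g : Bg) (p : ℝ × ℝ) : ℝ := p.2 * g.bh q p - Xf p.2 * g.Z p

/-- the rescaled `u`-form, without cut-off. -/
def vSF (r : ℝ) (U : Tri) (t : ℝ) (i : Fin 3) (y : ℝ) : ℝ := uV (slT U (t / r)) i (ScF r y)

/-- coefficient of `tt² v`. -/
def P2F (g : Bg) (r t y : ℝ) : ℝ := cSF r y * ((aaF g (t / r, ScF r y) - aaF g (t, y)) / y ^ 2)

/-- coefficient of `tt v`. -/
def P1F (q : ℝ) (g : Bg) (r t y : ℝ) : ℝ :=
  cSF r y * ((bbF q g (t / r, ScF r y) - bbF q g (t, y)) / y + Xf y * (aaF g (t / r, ScF r y) - aaF g (t, y)) / y ^ 3)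
    - 2 * g.Z (t, y) * tt (cSF r) y

/-- coefficient of `v`. -/
def P0F (q : ℝ) (g : Bg) (r t : ℝ) (i j : Fin 3) (y : ℝ) : ℝ :=
  cSF r y * (mF q g i j (t / r, ScF r y) - mF q g i j (t, y))
    - (if i = j then g.Z (t, y) * tt (tt (cSF r)) y + g.bh q (t, y) * tt (cSF r) y else 0)

/-- the size of the coefficients. -/
def JsF (q : ℝ) (g : Bg) (r t y : ℝ) : ℝ :=
  |P2F g r t y| + |tt (P2F g r t) y| + |P1F q g r t y| + ∑ i, ∑ j, |P0F q g r t i j y|

/-- hygiene. -/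
theorem core_ld_shid_hygiene : True := by
  have := @aaF.eq_1
  have := @bbF.eq_1
  have := @vSF.eq_1
  have := @P2F.eq_1
  have := @P1F.eq_1
  have := @P0F.eq_1
  have := @JsF.eq_1
  trivial

variable {q r t y : ℝ} {g : Bg} {U : Tri}

theorem ld_sh_uV_contDiff (hU : ∀ j, Sm (U j)) (ht : t < 0) (i : Fin 3) : ContDiff ℝ ∞ (uV (slT U t) i) := by
  rw [uV_slT]
  exact (sm_uT hU i).sl ht

theorem ld_sh_vSF_contDiff (hr : 0 < r) (hU : ∀ j, Sm (U j)) (ht : t < 0) (i : Fin 3) : ContDiff ℝ ∞ (vSF r U t i) :=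
  (ld_sh_uV_contDiff hU (div_neg_of_neg_of_pos ht hr) i).comp (ld_sh_ScF_contDiff r)

/-- frame 1. -/
theorem ld_sh_Gs_id1 (q : ℝ) (g : Bg) (hr : 0 < r) (hU : ∀ j, Sm (U j)) (ht : t < 0) (i : Fin 3) (hy : y ∈ Icc (-1 : ℝ) 1) :
    Xf y * uV (slT (Lop q g (scT r U)) t) i y
      = cSF r y * (g.Z (t, y) * tt (tt (vSF r U t i)) y + g.bh q (t, y) * tt (vSF r U t i) y
            + ∑ j, mF q g i j (t, y) * vSF r U t j y)
        + g.Z (t, y) * (tt (tt (cSF r)) y * vSF r U t i y + 2 * tt (cSF r) y * tt (vSF r U t i) y)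
        + g.bh q (t, y) * tt (cSF r) y * vSF r U t i y := by
  have hc : ContDiff ℝ ∞ (cSF r) := ld_sh_cSF_contDiff r
  have hv : ContDiff ℝ ∞ (vSF r U t i) := ld_sh_vSF_contDiff hr hU ht i
  have e : ∀ j, uV (slT (scT r U) t) j = fun y => cSF r y * vSF r U t j y :=
    fun j => ld_sh_uV_scT hr U t j
  rw [w1_pointwise q g (sm_scT hr hU) ht y i]
  simp only [e]
  rw [tt_tt_mul (smI_of_contDiff hc) (smI_of_contDiff hv) hy,
    tt_mul (hc.differentiable (by simp)).differentiableAt (hv.differentiable (by simp)).differentiableAt]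
  simp only [Fin.sum_univ_three]
  ring

/-- frame 2. -/
theorem ld_sh_Gs_id2 (q : ℝ) (g : Bg) (hr : 0 < r) (hU : ∀ j, Sm (U j)) (ht : t < 0) (i : Fin 3) (y : ℝ) :
    Xf y * (1 / r * uV (slT (scT r (Lop q g U)) t) i y)
      = cSF r y * (g.Z (t / r, ScF r y) * tt (tt (uV (slT U (t / r)) i)) (ScF r y)
          + g.bh q (t / r, ScF r y) * tt (uV (slT U (t / r)) i) (ScF r y)
          + ∑ j, mF q g i j (t / r, ScF r y) * vSF r U t j y) := by
  rw [ld_sh_X_uV_scT hr (Lop q g U) t i y,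
    w1_pointwise q g hU (div_neg_of_neg_of_pos ht hr) (ScF r y) i]
  rfl

/-- **the error of the rescaling in tt-form.** -/
theorem ld_sh_Gs_id (q : ℝ) (g : Bg) (hr : 0 < r) (hr1 : r ≤ 1) (hU : ∀ j, Sm (U j)) (ht : t < 0) (i : Fin 3)
    (hy : y ∈ Icc (-1 : ℝ) 1) :
    Xf y * uV (slT (GsT q g r U) t) i y
      = P2F g r t y * tt (tt (vSF r U t i)) y + P1F q g r t y * tt (vSF r U t i) y
        + ∑ j, P0F q g r t i j y * vSF r U t j y := by
  have hA : uV (slT (GsT q g r U) t) i y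
      = 1 / r * uV (slT (scT r (Lop q g U)) t) i y - uV (slT (Lop q g (scT r U)) t) i y := by
    fin_cases i <;> simp [uV, slT, GsT] <;> ring
  have hsum : ∑ j, P0F q g r t i j y * vSF r U t j y
      = cSF r y * (∑ j, mF q g i j (t / r, ScF r y) * vSF r U t j y)
        - cSF r y * (∑ j, mF q g i j (t, y) * vSF r U t j y)
        - (g.Z (t, y) * tt (tt (cSF r)) y + g.bh q (t, y) * tt (cSF r) y) * vSF r U t i y := by
    have h1 : ∀ j, P0F q g r t i j y * vSF r U t j y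
        = cSF r y * (mF q g i j (t / r, ScF r y) * vSF r U t j y)
          - cSF r y * (mF q g i j (t, y) * vSF r U t j y)
          - (if i = j then (g.Z (t, y) * tt (tt (cSF r)) y + g.bh q (t, y) * tt (cSF r) y) * vSF r U t j y
              else 0) := by
      intro j
      unfold P0F
      split_ifs <;> ring
    rw [Finset.sum_congr rfl (fun j _ => h1 j), Finset.sum_sub_distrib, Finset.sum_sub_distrib,
      ← Finset.mul_sum, ← Finset.mul_sum, Finset.sum_ite_eq]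
    simp
  have h1 := ld_sh_Gs_id1 q g hr hU ht i hy
  have h2 := ld_sh_Gs_id2 q g hr hU ht i y
  rw [hA, mul_sub, h2, h1, hsum]
  by_cases hc : cSF r y = 0
  · unfold P2F P1F
    rw [hc]
    ring
  · obtain ⟨hX, hy34⟩ := ld_sh_cSF_supp hc
    have hX' : Xf y / r < 1 / 10 := by linarith
    have hy0 : y ≠ 0 := by linarith
    have hS : ScF r y ≠ 0 := (ld_sh_ScF_pos r y).ne'
    have htr : t / r < 0 := div_neg_of_neg_of_pos ht hr
    have hf : ContDiff ℝ ∞ (uV (slT U (t / r)) i) := ld_sh_uV_contDiff hU htr i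
    have e1 : tt (vSF r U t i) y = y / ScF r y * tt (uV (slT U (t / r)) i) (ScF r y) :=
      ld_sh_tt_comp hr hX' (hf.differentiable (by simp)).differentiableAt
    have e2 : tt (tt (vSF r U t i)) y
        = (y / ScF r y) ^ 2 * tt (tt (uV (slT U (t / r)) i)) (ScF r y)
          + (-(Xf y) / ScF r y + Xf y / r * y ^ 2 / ScF r y ^ 3) * tt (uV (slT U (t / r)) i) (ScF r y) :=
      ld_sh_tt_tt_comp hr hX' hf
    have e3 : Xf (ScF r y) = Xf y / r := ld_sh_Xf_ScF hX'.le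
    rw [e1, e2]
    unfold P2F P1F aaF bbF
    simp only [e3]
    generalize Xf y / r = w
    field_simp
    ring

/-- a function which is smooth on `y > 1/2`, multiplied by a smooth function vanishing for `y ≤ 3/4`, is of class `SmI`.
(At `y > 1/2`: product.   At `y ≤ 1/2`: the product vanishes near `y`; `ContDiffAt.congr_of_eventuallyEq`.) -/
theorem ld_sh_smI_cut {c f : ℝ → ℝ} (hc : ContDiff ℝ ∞ c) (h0 : ∀ y ≤ 3 / 4, c y = 0)
    (hf : ∀ y, 1 / 2 < y → ContDiffAt ℝ ∞ f y) : SmI (fun y => c y * f y) := by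
  intro y _
  rcases lt_or_ge (1 / 2) y with h | h
  · exact hc.contDiffAt.mul (hf y h)
  · have h1 : (fun y => c y * f y) =ᶠ[𝓝 y] fun _ => (0 : ℝ) := by
      filter_upwards [Iio_mem_nhds (show y < 3 / 4 by linarith)] with z hz
      rw [h0 z (le_of_lt hz), zero_mul]
    exact contDiffAt_const.congr_of_eventuallyEq h1

theorem ld_sh_cd1 {f : Fn} (hf : Sm f) (ht : t < 0) : ContDiff ℝ ∞ (fun y => f (t, y)) := hf.sl ht

theorem ld_sh_cd2 {f : Fn} (hf : Sm f) (hr : 0 < r) (ht : t < 0) :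
    ContDiff ℝ ∞ (fun y => f (t / r, ScF r y)) :=
  (hf.sl (div_neg_of_neg_of_pos ht hr)).comp (ld_sh_ScF_contDiff r)

theorem ld_sh_aa_cd1 (hs : BgSm g) (ht : t < 0) : ContDiff ℝ ∞ (fun y => aaF g (t, y)) :=
  (contDiff_id.pow 2).mul (ld_sh_cd1 hs.smZ ht)

theorem ld_sh_aa_cd2 (hs : BgSm g) (hr : 0 < r) (ht : t < 0) :
    ContDiff ℝ ∞ (fun y => aaF g (t / r, ScF r y)) :=
  ((ld_sh_ScF_contDiff r).pow 2).mul (ld_sh_cd2 hs.smZ hr ht)

theorem ld_sh_Xf_cd : ContDiff ℝ ∞ Xf := contDiff_const.sub (contDiff_id.pow 2)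

theorem ld_sh_bb_cd1 (q : ℝ) (hs : BgSm g) (ht : t < 0) : ContDiff ℝ ∞ (fun y => bbF q g (t, y)) :=
  (contDiff_id.mul (ld_sh_cd1 (hs.smbh q) ht)).sub (ld_sh_Xf_cd.mul (ld_sh_cd1 hs.smZ ht))

theorem ld_sh_bb_cd2 (q : ℝ) (hs : BgSm g) (hr : 0 < r) (ht : t < 0) :
    ContDiff ℝ ∞ (fun y => bbF q g (t / r, ScF r y)) :=
  ((ld_sh_ScF_contDiff r).mul (ld_sh_cd2 (hs.smbh q) hr ht)).sub
    ((ld_sh_Xf_cd.comp (ld_sh_ScF_contDiff r)).mul (ld_sh_cd2 hs.smZ hr ht))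

theorem ld_sh_P2_smI (hs : BgSm g) (hr : 0 < r) (ht : t < 0) : SmI (P2F g r t) := by
  refine ld_sh_smI_cut (ld_sh_cSF_contDiff r) (fun y hy => ld_sh_cSF_zero (Or.inr hy)) fun y hy => ?_
  have hy0 : y ^ 2 ≠ 0 := pow_ne_zero 2 (by linarith)
  exact (((ld_sh_aa_cd2 hs hr ht).sub (ld_sh_aa_cd1 hs ht)).contDiffAt).div
    (contDiff_id.pow 2).contDiffAt hy0

theorem ld_sh_P1_smI (q : ℝ) (hs : BgSm g) (hr : 0 < r) (ht : t < 0) : SmI (P1F q g r t) := by
  have h1 : SmI (fun y => cSF r y * ((bbF q g (t / r, ScF r y) - bbF q g (t, y)) / y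
      + Xf y * (aaF g (t / r, ScF r y) - aaF g (t, y)) / y ^ 3)) := by
    refine ld_sh_smI_cut (ld_sh_cSF_contDiff r) (fun y hy => ld_sh_cSF_zero (Or.inr hy)) fun y hy => ?_
    have hy1 : y ≠ 0 := by linarith
    have hy0 : y ^ 3 ≠ 0 := pow_ne_zero 3 hy1
    exact ((((ld_sh_bb_cd2 q hs hr ht).sub (ld_sh_bb_cd1 q hs ht)).contDiffAt).div
      contDiff_id.contDiffAt hy1).add
      (((ld_sh_Xf_cd.mul ((ld_sh_aa_cd2 hs hr ht).sub (ld_sh_aa_cd1 hs ht))).contDiffAt).div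
        (contDiff_id.pow 3).contDiffAt hy0)
  have h2 : SmI (fun y => 2 * g.Z (t, y) * tt (cSF r) y) :=
    ((smI_of_contDiff (ld_sh_cd1 hs.smZ ht)).const_mul 2).mul (smI_of_contDiff (ld_sh_cSF_contDiff r)).tt
  exact h1.sub h2

theorem ld_sh_P0_smI (q : ℝ) (hs : BgSm g) (hr : 0 < r) (ht : t < 0) (i j : Fin 3) : SmI (P0F q g r t i j) := by
  have hc : SmI (cSF r) := smI_of_contDiff (ld_sh_cSF_contDiff r)
  have h1 : SmI (fun y => cSF r y * (mF q g i j (t / r, ScF r y) - mF q g i j (t, y))) :=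
    hc.mul (smI_of_contDiff ((ld_sh_cd2 (hs.smmF q i j) hr ht).sub (ld_sh_cd1 (hs.smmF q i j) ht)))
  have h2 : SmI (fun y => if i = j then g.Z (t, y) * tt (tt (cSF r)) y + g.bh q (t, y) * tt (cSF r) y else 0) := by
    by_cases hij : i = j
    · simp only [if_pos hij]
      exact ((smI_of_contDiff (ld_sh_cd1 hs.smZ ht)).mul hc.tt.tt).add
        ((smI_of_contDiff (ld_sh_cd1 (hs.smbh q) ht)).mul hc.tt)
    · simp only [if_neg hij]
      exact smI_const 0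
  exact h1.sub h2

theorem ld_sh_Js_ci (q : ℝ) (hs : BgSm g) (hr : 0 < r) (ht : t < 0) : CI (JsF q g r t) := by
  have h2 := ld_sh_P2_smI hs hr ht
  have h1 := ld_sh_P1_smI q hs hr ht
  have h0 := fun i j => ld_sh_P0_smI q hs hr ht i j
  unfold JsF
  refine ((h2.continuousOn.abs.add h2.tt.continuousOn.abs).add h1.continuousOn.abs).add ?_
  exact continuousOn_finsetSum _ fun i _ => continuousOn_finsetSum _ fun j _ => (h0 i j).continuousOn.abs

theorem ld_sh_Js_nonneg (q : ℝ) (g : Bg) (r t y : ℝ) : 0 ≤ JsF q g r t y := by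
  unfold JsF
  positivity

theorem ld_sh_cSF_ev_zero (h : 9 / 100 < Xf y / r ∨ y < 3 / 4) : ∀ᶠ z in 𝓝 y, cSF r z = 0 := by
  rcases h with h | h
  · have hc : ContinuousAt (fun z => Xf z / r) y := (ld_sh_Xf_cd.continuous.div_const r).continuousAt
    filter_upwards [hc.eventually (lt_mem_nhds h)] with z hz
    exact ld_sh_cSF_zero (Or.inl hz.le)
  · filter_upwards [Iio_mem_nhds h] with z hz
    exact ld_sh_cSF_zero (Or.inr (le_of_lt hz))

theorem ld_sh_tt_ev_zero {f : ℝ → ℝ} (h : ∀ᶠ z in 𝓝 y, f z = 0) : ∀ᶠ z in 𝓝 y, tt f z = 0 := by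
  filter_upwards [h.eventually_nhds] with z hz
  have h1 : f =ᶠ[𝓝 z] fun _ => (0 : ℝ) := hz
  rw [tt_congr h1, tt_const]

/-- the coefficients vanish outside of the support of the cut-off (the exterior is open, so `cSF r = 0` NEAR `y`: `tt_congr`). -/
theorem ld_sh_Js_zero (q : ℝ) (g : Bg) (hr : 0 < r) (t : ℝ) (h : 9 / 100 < Xf y / r ∨ y < 3 / 4) : JsF q g r t y = 0 := by
  have h0 : ∀ᶠ z in 𝓝 y, cSF r z = 0 := ld_sh_cSF_ev_zero h
  have h1 := ld_sh_tt_ev_zero h0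
  have h2 := ld_sh_tt_ev_zero h1
  have hP2 : ∀ᶠ z in 𝓝 y, P2F g r t z = 0 := by
    filter_upwards [h0] with z hz
    rw [P2F, hz, zero_mul]
  have hP2' := ld_sh_tt_ev_zero hP2
  have e0 := h0.self_of_nhds
  have e1 := h1.self_of_nhds
  have e2 := h2.self_of_nhds
  unfold JsF
  rw [hP2.self_of_nhds, hP2'.self_of_nhds]
  simp [P1F, P0F, e0, e1, e2]

end

end Claimed.Agent.R324.Core
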