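/-
Row 324 (S0582), PDE core, module LD.   Blueprint 7.4, tag LD6 "shift".      FILE LD/ShCoef      (helper325)
   Λ = -t,  X = Xf y = 1 - y²,  tt f = -X f' (rules: Core/W/TtCalc.lean, Core/W/TBa.lean);   `chS, hS, ScF, cSF`: Core/LD/ShDefs.lean;  chain rules: Core/LD/ShCalc.lean;   `aaF, bbF, P2F, P1F, P0F, JsF`: Core/LD/ShId.lean;   `JJ`: Core/Defs.lean;  `BgDev`: Core/Bgd.lean;  `CoefB`: Core/W/Coef.lean.
SIZE OF THE COEFFICIENTS OF THE RESCALING ERROR.       On the closed set  S = {3/4 ≤ y ≤ 1, X/r ≤ 9/100}  (there 19/20 < y, and 19/20 < ScF r y ≤ 1, (ScF r y)² = 1 - X/r ≥ 91/100):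
      JsF ≤ C (JJ(t/r, ScF r y) + JJ(t, y) + zS r y),       zS r y = 1 if X/r ≥ 1/20, = 0 otherwise.
* `ld_sh_tt_fX`:  `tt_apply`, chain rule;  derivative of `z ↦ Xf z / r` is `-2y/r`.
* `ld_sh_chS_bd`:  `deriv chS`, `deriv (deriv chS)` are continuous and vanish outside `[1/20, 9/100]` (chS is locally constant there: `ld_sh_chS_one`, `ld_sh_chS_zero`, `Filter.EventuallyEq.deriv_eq`), so they are bounded (`IsCompact.exists_bound_of_continuousOn` on `Icc (1/20) (9/100)`), and |s| ≤ 9/100 on that interval.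
* `ld_sh_tt_cSF`:  for y > 19/20, `cSF r = fun z => chS (Xf z / r)` near y (`ld_sh_cSF_eq`, the set {z > 19/20} is open), `tt_congr`, `ld_sh_tt_fX`:   tt c = 2 y φ₁(X/r),  φ₁(s) = s chS'(s);    tt² c = -2 X φ₁(s) + 4 y² (s chS'(s) + s² chS''(s)),  s = X/r   (again `tt_congr`, `tt_mul`, `tt_id`, `ld_sh_tt_fX` for φ₁).   |y| ≤ 1, 0 ≤ X ≤ 1.   If s < 1/20 everything vanishes.
* `ld_sh_dev_a/b/m`:  `DevC` at (t/r, ScF r y) and at (t, y), j = 0 (`Function.iterate_zero`), triangle inequality through the cone values z₀, q-1, mCone.     t ∈ Ico (-Λ₀) 0 because t = r (t/r), 0 < r ≤ 1.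
* `ld_sh_dev_ta`:  `tt_sub`;  `ld_sh_tt_comp` with f = fun z => z² Z(t/r, z) - z₀  (tt of a constant is 0: the functions aaF g (t/r, ·) and f differ by a constant; `tt_congr`/`tt_sub`, `tt_const`),  j = 1 (`Function.iterate_one`);   y/ScF r y ≤ 20/19.
* `ld_sh_P2_le`, `ld_sh_ttP2_le`:   0 ≤ c ≤ 1, 1/y² ≤ (20/19)²;    tt (c D y⁻²) = tt c · D y⁻² + c tt D y⁻² + c D (2 X y⁻³)   (`tt_mul`, `tt_div`/`tt_inv`, `tt_pow`, near y the function `P2F g r t` is this product);  |tt c| ≤ C₀.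
* `ld_sh_P1_le`, `ld_sh_P0_le`:  |Z|, |b̂| ≤ Cc (`hc.Z.b00`, `hc.bh.b00`).
-/
import Claimed.Agent.R324.Core.LD.ShId

set_option autoImplicit false

namespace Claimed.Agent.R324.Core

open Set Filter Topology MeasureTheory
open scoped ContDiff

noncomputable section

/-- `BgDev q g = ∃ Λ₀ C, 0 < Λ₀ ∧ DevC q g Λ₀ C`  (by `Iff.rfl`). -/
def DevC (q : ℝ) (g : Bg) (Λ₀ C : ℝ) : Prop :=
  ∀ t ∈ Ico (-Λ₀) 0, ∀ y ∈ Icc (19 / 20 : ℝ) 1, ∀ j ≤ 2,
    |(tt^[j] (fun z => z ^ 2 * g.Z (t, z) - z0F q)) y| ≤ C * JJ q t y ∧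
    |(tt^[j] (fun z => z * g.bh q (t, z) - Xf z * g.Z (t, z) - (q - 1))) y| ≤ C * JJ q t y ∧
    ∀ i k, |(tt^[j] (fun z => mF q g i k (t, z) - mCone q i k)) y| ≤ C * JJ q t y

/-- indicator of the commutator zone. -/
def zS (r y : ℝ) : ℝ := if 1 / 20 ≤ Xf y / r then 1 else 0

/-- `JJ(t/r, ScF r y) + JJ(t, y)`. -/
def jjS (q r t y : ℝ) : ℝ := JJ q (t / r) (ScF r y) + JJ q t y

theorem core_ld_shcoef_hygiene : True := by
  have := @DevC.eq_1
  have := @zS.eq_1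
  have := @jjS.eq_1
  trivial

theorem bgDev_iff (q : ℝ) (g : Bg) : BgDev q g ↔ ∃ Λ₀ C : ℝ, 0 < Λ₀ ∧ DevC q g Λ₀ C := Iff.rfl

variable {q r t y Λ₀ Cd Cc : ℝ} {g : Bg}

theorem ld_sh_zS_nonneg (r y : ℝ) : 0 ≤ zS r y := by
  unfold zS
  split_ifs <;> norm_num

theorem ld_sh_JJ_nonneg (hq : 1 < q) (ht : t < 0) (hy : y ∈ Icc (-1 : ℝ) 1) : 0 ≤ JJ q t y := by
  unfold JJ
  exact mul_nonneg (pow_nonneg (w0_Th_pos ht hy).le 8) (Real.rpow_nonneg (w0_rh2_pos hq ht hy).le _)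

/-- geometry of the closed support. -/
theorem ld_sh_S_geom (hr : 0 < r) (hr1 : r ≤ 1) (h1 : 3 / 4 ≤ y) (h2 : y ≤ 1) (h3 : Xf y / r ≤ 9 / 100) :
    19 / 20 < y ∧ 19 / 20 < ScF r y ∧ ScF r y ≤ 1 ∧ 0 ≤ Xf y ∧ Xf y ≤ 9 / 100 := by
  have hX0 : 0 ≤ Xf y := by
    unfold Xf
    nlinarith
  have hX1 : Xf y ≤ 9 / 100 := by
    rw [div_le_iff₀ hr] at h3
    nlinarith
  have hsq := ld_sh_ScF_sq (r := r) (y := y) (by linarith)
  have hpos := ld_sh_ScF_pos r y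
  refine ⟨ld_sh_supp_y hr hr1 (by linarith) (by linarith), ?_,
    (ld_sh_ScF_mem hr ⟨by linarith, h2⟩).2, hX0, hX1⟩
  by_contra hcon
  rw [not_lt] at hcon
  nlinarith

theorem ld_sh_t_mem (hr : 0 < r) (hr1 : r ≤ 1) (ht : t / r ∈ Ico (-Λ₀) 0) : t ∈ Ico (-Λ₀) 0 := by
  obtain ⟨h1, h2⟩ := ht
  have e : t = r * (t / r) := by field_simp
  constructor
  · rw [e]
    nlinarith
  · rw [e]
    exact mul_neg_of_pos_of_neg hr h2

theorem ld_sh_tt_fX {f : ℝ → ℝ} (hf : DifferentiableAt ℝ f (Xf y / r)) :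
    tt (fun z => f (Xf z / r)) y = 2 * y * (Xf y / r) * deriv f (Xf y / r) := by
  have hd : HasDerivAt (fun z => Xf z / r) (-2 * y / r) y := (hasDerivAt_Xf y).div_const r
  rw [tt_comp (f := fun z => Xf z / r) hf hd.differentiableAt, tt_eq_Xf, hd.deriv]
  ring

theorem ld_sh_chS_bd : ∃ M : ℝ, 0 ≤ M ∧ (∀ s, |s * deriv chS s| ≤ M ∧ |s ^ 2 * deriv (deriv chS) s| ≤ M) ∧
    ∀ s < 1 / 20, deriv chS s = 0 ∧ deriv (deriv chS) s = 0 := by
  have hc1 : Continuous (deriv chS) := ld_sh_chS_contDiff.continuous_deriv (by simp)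
  have hcd1 : ContDiff ℝ ∞ (deriv chS) := by
    have := (contDiff_infty_iff_deriv.1 ld_sh_chS_contDiff).2
    exact this
  have hc2 : Continuous (deriv (deriv chS)) := hcd1.continuous_deriv (by simp)
  -- vanishing to the left
  have hL1 : ∀ s < (1 / 20 : ℝ), deriv chS s = 0 := by
    intro s hs
    have : chS =ᶠ[𝓝 s] fun _ => (1 : ℝ) := by
      filter_upwards [Iio_mem_nhds hs] with z hz
      exact ld_sh_chS_one (le_of_lt hz)
    rw [this.deriv_eq, deriv_const]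
  have hL2 : ∀ s < (1 / 20 : ℝ), deriv (deriv chS) s = 0 := by
    intro s hs
    have : deriv chS =ᶠ[𝓝 s] fun _ => (0 : ℝ) := by
      filter_upwards [Iio_mem_nhds hs] with z hz
      exact hL1 z hz
    rw [this.deriv_eq, deriv_const]
  have hR1 : ∀ s > (9 / 100 : ℝ), deriv chS s = 0 := by
    intro s hs
    have : chS =ᶠ[𝓝 s] fun _ => (0 : ℝ) := by
      filter_upwards [Ioi_mem_nhds hs] with z hz
      exact ld_sh_chS_zero (le_of_lt hz)
    rw [this.deriv_eq, deriv_const]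
  have hR2 : ∀ s > (9 / 100 : ℝ), deriv (deriv chS) s = 0 := by
    intro s hs
    have : deriv chS =ᶠ[𝓝 s] fun _ => (0 : ℝ) := by
      filter_upwards [Ioi_mem_nhds hs] with z hz
      exact hR1 z hz
    rw [this.deriv_eq, deriv_const]
  obtain ⟨C1, hC1⟩ := (isCompact_Icc (a := (1 / 20 : ℝ)) (b := 9 / 100)).exists_bound_of_continuousOn
    (f := fun s => s * deriv chS s) (continuous_id.mul hc1).continuousOn
  obtain ⟨C2, hC2⟩ := (isCompact_Icc (a := (1 / 20 : ℝ)) (b := 9 / 100)).exists_bound_of_continuousOn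
    (f := fun s => s ^ 2 * deriv (deriv chS) s) ((continuous_id.pow 2).mul hc2).continuousOn
  refine ⟨|C1| + |C2|, by positivity, fun s => ?_, fun s hs => ⟨hL1 s hs, hL2 s hs⟩⟩
  rcases lt_or_ge s (1 / 20) with h | h
  · rw [hL1 s h, hL2 s h, mul_zero, mul_zero, abs_zero]
    exact ⟨by positivity, by positivity⟩
  · rcases lt_or_ge (9 / 100) s with h' | h'
    · rw [hR1 s h', hR2 s h', mul_zero, mul_zero, abs_zero]
      exact ⟨by positivity, by positivity⟩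
    · have a1 := hC1 s ⟨h, h'⟩
      have a2 := hC2 s ⟨h, h'⟩
      rw [Real.norm_eq_abs] at a1 a2
      constructor
      · linarith [le_abs_self C1, abs_nonneg C2]
      · linarith [le_abs_self C2, abs_nonneg C1]

/-- the derivatives of the cut-off are bounded uniformly in `r` and live in the commutator zone. -/
theorem ld_sh_tt_cSF : ∃ C₀ : ℝ, 0 ≤ C₀ ∧ ∀ r : ℝ, 0 < r → ∀ y : ℝ, 19 / 20 < y → y ≤ 1 →
    |tt (cSF r) y| ≤ C₀ * zS r y ∧ |tt (tt (cSF r)) y| ≤ C₀ * zS r y := by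
  obtain ⟨M, hM, hb, hz⟩ := ld_sh_chS_bd
  have hcd1 : ContDiff ℝ ∞ (deriv chS) := (contDiff_infty_iff_deriv.1 ld_sh_chS_contDiff).2
  have hd0 : ∀ s, DifferentiableAt ℝ chS s := fun s =>
    (ld_sh_chS_contDiff.differentiable (by simp)) s
  have hd1 : ∀ s, DifferentiableAt ℝ (deriv chS) s := fun s => (hcd1.differentiable (by simp)) s
  refine ⟨10 * M, by positivity, fun r hr y hy hy1 => ?_⟩
  set s := Xf y / r with hs
  have hX0 : 0 ≤ Xf y := by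
    unfold Xf
    nlinarith
  have hX1 : Xf y ≤ 1 := by
    unfold Xf
    nlinarith
  -- near y
  have e0 : cSF r =ᶠ[𝓝 y] fun z => chS (Xf z / r) := by
    filter_upwards [Ioi_mem_nhds hy] with z hz'
    exact ld_sh_cSF_eq (le_of_lt hz')
  have e1 : tt (cSF r) =ᶠ[𝓝 y] fun z => (2 * z) * ((fun u => u * deriv chS u) (Xf z / r)) := by
    refine (tt_ev_congr e0).trans (Eventually.of_forall fun z => ?_)
    show tt (fun z => chS (Xf z / r)) z = (2 * z) * ((Xf z / r) * deriv chS (Xf z / r))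
    rw [ld_sh_tt_fX (hd0 _)]
    ring
  have v1 : tt (cSF r) y = 2 * y * (s * deriv chS s) := e1.eq_of_nhds
  have hφ : DifferentiableAt ℝ (fun u => u * deriv chS u) s := differentiableAt_id.mul (hd1 s)
  have hφd : deriv (fun u => u * deriv chS u) s = deriv chS s + s * deriv (deriv chS) s := by
    have := (hasDerivAt_id s).mul (hd1 s).hasDerivAt
    have h2 := this.deriv
    simp only [id, one_mul] at h2
    exact h2
  have hXd : DifferentiableAt ℝ (fun z => Xf z / r) y := ((hasDerivAt_Xf y).div_const r).differentiableAt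
  have v2 : tt (tt (cSF r)) y =
      -2 * Xf y * (s * deriv chS s) + 4 * y ^ 2 * (s * deriv chS s + s ^ 2 * deriv (deriv chS) s) := by
    have hA : DifferentiableAt ℝ (fun z : ℝ => 2 * z) y := (differentiableAt_id).const_mul 2
    have hB : DifferentiableAt ℝ (fun z => (fun u => u * deriv chS u) (Xf z / r)) y :=
      DifferentiableAt.comp (g := fun u => u * deriv chS u) y hφ hXd
    have hC : tt (fun z : ℝ => 2 * z) y = 2 * -(Xf y) := by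
      rw [tt_const_mul 2 (f := fun z => z) differentiableAt_id, tt_id]
    rw [tt_congr e1, tt_mul (f := fun z : ℝ => 2 * z)
      (g := fun z => (fun u => u * deriv chS u) (Xf z / r)) hA hB, hC,
      ld_sh_tt_fX (f := fun u => u * deriv chS u) hφ, hφd]
    ring
  have b1 := (hb s).1
  have b2 := (hb s).2
  unfold zS
  split_ifs with hzone
  · rw [mul_one, v1, v2]
    have hy0 : |y| ≤ 1 := abs_le.2 ⟨by linarith, hy1⟩
    constructor
    · rw [abs_mul, abs_mul, abs_two]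
      nlinarith [abs_nonneg y, abs_nonneg (s * deriv chS s)]
    · have t1 : |-2 * Xf y * (s * deriv chS s)| ≤ 2 * M := by
        rw [abs_mul, abs_mul, abs_neg, abs_two, abs_of_nonneg hX0]
        nlinarith [abs_nonneg (s * deriv chS s)]
      have t2 : |4 * y ^ 2 * (s * deriv chS s + s ^ 2 * deriv (deriv chS) s)| ≤ 8 * M := by
        rw [abs_mul, abs_of_nonneg (by positivity : (0:ℝ) ≤ 4 * y ^ 2)]
        have h3 : |s * deriv chS s + s ^ 2 * deriv (deriv chS) s| ≤ 2 * M :=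
          (abs_add_le _ _).trans (by linarith)
        have h4 : y ^ 2 ≤ 1 := by nlinarith
        nlinarith [abs_nonneg (s * deriv chS s + s ^ 2 * deriv (deriv chS) s)]
      exact (abs_add_le _ _).trans (by linarith)
  · rw [not_le] at hzone
    obtain ⟨z1, z2⟩ := hz s hzone
    rw [v1, v2, z1, z2]
    simp

theorem ld_sh_dev_a (hd : DevC q g Λ₀ Cd) (hr : 0 < r) (hr1 : r ≤ 1) (ht : t / r ∈ Ico (-Λ₀) 0)
    (h1 : 3 / 4 ≤ y) (h2 : y ≤ 1) (h3 : Xf y / r ≤ 9 / 100) :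
    |aaF g (t / r, ScF r y) - aaF g (t, y)| ≤ Cd * jjS q r t y := by
  obtain ⟨g1, g2, g3, _, _⟩ := ld_sh_S_geom hr hr1 h1 h2 h3
  have A := (hd (t / r) ht (ScF r y) ⟨g2.le, g3⟩ 0 (by norm_num)).1
  have B := (hd t (ld_sh_t_mem hr hr1 ht) y ⟨g1.le, h2⟩ 0 (by norm_num)).1
  simp only [Function.iterate_zero, id] at A B
  have e : aaF g (t / r, ScF r y) - aaF g (t, y)
      = (ScF r y ^ 2 * g.Z (t / r, ScF r y) - z0F q) - (y ^ 2 * g.Z (t, y) - z0F q) := by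
    simp only [aaF]
    ring
  rw [e]
  unfold jjS
  calc |(ScF r y ^ 2 * g.Z (t / r, ScF r y) - z0F q) - (y ^ 2 * g.Z (t, y) - z0F q)|
      ≤ |ScF r y ^ 2 * g.Z (t / r, ScF r y) - z0F q| + |y ^ 2 * g.Z (t, y) - z0F q| := abs_sub _ _
    _ ≤ Cd * (JJ q (t / r) (ScF r y) + JJ q t y) := by linarith

theorem ld_sh_dev_b (hd : DevC q g Λ₀ Cd) (hr : 0 < r) (hr1 : r ≤ 1) (ht : t / r ∈ Ico (-Λ₀) 0)
    (h1 : 3 / 4 ≤ y) (h2 : y ≤ 1) (h3 : Xf y / r ≤ 9 / 100) :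
    |bbF q g (t / r, ScF r y) - bbF q g (t, y)| ≤ Cd * jjS q r t y := by
  obtain ⟨g1, g2, g3, _, _⟩ := ld_sh_S_geom hr hr1 h1 h2 h3
  have A := (hd (t / r) ht (ScF r y) ⟨g2.le, g3⟩ 0 (by norm_num)).2.1
  have B := (hd t (ld_sh_t_mem hr hr1 ht) y ⟨g1.le, h2⟩ 0 (by norm_num)).2.1
  simp only [Function.iterate_zero, id] at A B
  have e : bbF q g (t / r, ScF r y) - bbF q g (t, y)
      = (ScF r y * g.bh q (t / r, ScF r y) - Xf (ScF r y) * g.Z (t / r, ScF r y) - (q - 1))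
        - (y * g.bh q (t, y) - Xf y * g.Z (t, y) - (q - 1)) := by
    simp only [bbF]
    ring
  rw [e]
  unfold jjS
  calc |(ScF r y * g.bh q (t / r, ScF r y) - Xf (ScF r y) * g.Z (t / r, ScF r y) - (q - 1))
        - (y * g.bh q (t, y) - Xf y * g.Z (t, y) - (q - 1))|
      ≤ |ScF r y * g.bh q (t / r, ScF r y) - Xf (ScF r y) * g.Z (t / r, ScF r y) - (q - 1)|
        + |y * g.bh q (t, y) - Xf y * g.Z (t, y) - (q - 1)| := abs_sub _ _
    _ ≤ Cd * (JJ q (t / r) (ScF r y) + JJ q t y) := by linarith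

theorem ld_sh_dev_m (hd : DevC q g Λ₀ Cd) (hr : 0 < r) (hr1 : r ≤ 1) (ht : t / r ∈ Ico (-Λ₀) 0)
    (h1 : 3 / 4 ≤ y) (h2 : y ≤ 1) (h3 : Xf y / r ≤ 9 / 100) (i j : Fin 3) :
    |mF q g i j (t / r, ScF r y) - mF q g i j (t, y)| ≤ Cd * jjS q r t y := by
  obtain ⟨g1, g2, g3, _, _⟩ := ld_sh_S_geom hr hr1 h1 h2 h3
  have A := (hd (t / r) ht (ScF r y) ⟨g2.le, g3⟩ 0 (by norm_num)).2.2 i j
  have B := (hd t (ld_sh_t_mem hr hr1 ht) y ⟨g1.le, h2⟩ 0 (by norm_num)).2.2 i j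
  simp only [Function.iterate_zero, id] at A B
  have e : mF q g i j (t / r, ScF r y) - mF q g i j (t, y)
      = (mF q g i j (t / r, ScF r y) - mCone q i j) - (mF q g i j (t, y) - mCone q i j) := by
    ring
  rw [e]
  unfold jjS
  calc |(mF q g i j (t / r, ScF r y) - mCone q i j) - (mF q g i j (t, y) - mCone q i j)|
      ≤ |mF q g i j (t / r, ScF r y) - mCone q i j| + |mF q g i j (t, y) - mCone q i j| := abs_sub _ _
    _ ≤ Cd * (JJ q (t / r) (ScF r y) + JJ q t y) := by linarith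

theorem ld_sh_dev_ta (hq : 1 < q) (hs : BgSm g) (hd : DevC q g Λ₀ Cd) (hr : 0 < r) (hr1 : r ≤ 1) (ht : t / r ∈ Ico (-Λ₀) 0)
    (h1 : 3 / 4 ≤ y) (h2 : y ≤ 1) (h3 : Xf y / r ≤ 9 / 100) :
    |tt (fun z => aaF g (t / r, ScF r z) - aaF g (t, z)) y| ≤ 2 * Cd * jjS q r t y := by
  obtain ⟨g1, g2, g3, _, _⟩ := ld_sh_S_geom hr hr1 h1 h2 h3
  have ht' := ld_sh_t_mem hr hr1 ht
  have A := (hd (t / r) ht (ScF r y) ⟨g2.le, g3⟩ 1 (by norm_num)).1
  have B := (hd t ht' y ⟨g1.le, h2⟩ 1 (by norm_num)).1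
  simp only [Function.iterate_one] at A B
  have hsm : ∀ s : ℝ, s < 0 → ContDiff ℝ ∞ (fun z => z ^ 2 * g.Z (s, z) - z0F q) := fun s hs0 =>
    ((contDiff_id.pow 2).mul (hs.smZ.sl hs0)).sub contDiff_const
  have d1 : Differentiable ℝ (fun z => z ^ 2 * g.Z (t / r, z) - z0F q) :=
    (hsm _ ht.2).differentiable (by simp)
  have d2 : Differentiable ℝ (fun z => z ^ 2 * g.Z (t, z) - z0F q) :=
    (hsm _ ht'.2).differentiable (by simp)
  have dS : Differentiable ℝ (ScF r) := (ld_sh_ScF_contDiff r).differentiable (by simp)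
  have e : (fun z => aaF g (t / r, ScF r z) - aaF g (t, z))
      = fun z => (fun w => w ^ 2 * g.Z (t / r, w) - z0F q) (ScF r z) - (fun w => w ^ 2 * g.Z (t, w) - z0F q) z := by
    funext z
    simp only [aaF]
    ring
  have d3 : DifferentiableAt ℝ (fun z => (fun w => w ^ 2 * g.Z (t / r, w) - z0F q) (ScF r z)) y :=
    (d1.comp dS).differentiableAt
  rw [e, tt_sub d3 d2.differentiableAt,
    ld_sh_tt_comp hr (by linarith) d1.differentiableAt]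
  have hS0 : 0 < ScF r y := by linarith
  have hy0 : 0 < y := by linarith
  have hq1 : |y / ScF r y| ≤ 2 := by
    rw [abs_of_pos (div_pos hy0 hS0), div_le_iff₀ hS0]
    linarith
  have hA0 : 0 ≤ Cd * JJ q (t / r) (ScF r y) := (abs_nonneg _).trans A
  have hB0 : 0 ≤ Cd * JJ q t y := (abs_nonneg _).trans B
  unfold jjS
  calc |y / ScF r y * tt (fun w => w ^ 2 * g.Z (t / r, w) - z0F q) (ScF r y)
        - tt (fun w => w ^ 2 * g.Z (t, w) - z0F q) y|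
      ≤ |y / ScF r y * tt (fun w => w ^ 2 * g.Z (t / r, w) - z0F q) (ScF r y)|
        + |tt (fun w => w ^ 2 * g.Z (t, w) - z0F q) y| := abs_sub _ _
    _ = |y / ScF r y| * |tt (fun w => w ^ 2 * g.Z (t / r, w) - z0F q) (ScF r y)|
        + |tt (fun w => w ^ 2 * g.Z (t, w) - z0F q) y| := by rw [abs_mul]
    _ ≤ 2 * (Cd * JJ q (t / r) (ScF r y)) + Cd * JJ q t y :=
        add_le_add (mul_le_mul hq1 A (abs_nonneg _) (by norm_num)) B
    _ ≤ 2 * Cd * (JJ q (t / r) (ScF r y) + JJ q t y) := by linarith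

theorem ld_sh_P2_le (hq : 1 < q) (hd : DevC q g Λ₀ Cd) (hr : 0 < r) (hr1 : r ≤ 1) (ht : t / r ∈ Ico (-Λ₀) 0)
    (h1 : 3 / 4 ≤ y) (h2 : y ≤ 1) (h3 : Xf y / r ≤ 9 / 100) :
    |P2F g r t y| ≤ 2 * Cd * jjS q r t y := by
  obtain ⟨hy, -, -, -, -⟩ := ld_sh_S_geom hr hr1 h1 h2 h3
  have hD := ld_sh_dev_a hd hr hr1 ht h1 h2 h3
  have hc0 := ld_sh_cSF_nonneg r y
  have hc1 := ld_sh_cSF_le_one r y
  have hA := abs_nonneg (aaF g (t / r, ScF r y) - aaF g (t, y))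
  have hy2 : (1 : ℝ) / 2 ≤ y ^ 2 := by nlinarith
  have h5 : |aaF g (t / r, ScF r y) - aaF g (t, y)| / y ^ 2
      ≤ 2 * |aaF g (t / r, ScF r y) - aaF g (t, y)| := by
    rw [div_le_iff₀ (by positivity)]
    nlinarith
  unfold P2F
  rw [abs_mul, abs_div, abs_of_nonneg hc0, abs_of_nonneg (sq_nonneg y)]
  calc cSF r y * (|aaF g (t / r, ScF r y) - aaF g (t, y)| / y ^ 2)
      ≤ 1 * (2 * |aaF g (t / r, ScF r y) - aaF g (t, y)|) :=
        mul_le_mul hc1 h5 (by positivity) (by norm_num)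
    _ ≤ 2 * Cd * jjS q r t y := by linarith

theorem ld_sh_ttP2_le (hq : 1 < q) (hs : BgSm g) (hd : DevC q g Λ₀ Cd) : ∃ C : ℝ, 0 ≤ C ∧ ∀ r : ℝ, 0 < r → r ≤ 1 →
    ∀ t : ℝ, t / r ∈ Ico (-Λ₀) 0 → ∀ y : ℝ, 3 / 4 ≤ y → y ≤ 1 → Xf y / r ≤ 9 / 100 →
    |tt (P2F g r t) y| ≤ C * jjS q r t y := by
  obtain ⟨C₀, hC₀, hc⟩ := ld_sh_tt_cSF
  refine ⟨(2 * C₀ + 16) * |Cd|, by positivity, fun r hr hr1 t ht y h1 h2 h3 => ?_⟩
  obtain ⟨hy, -, -, hX0, hX1⟩ := ld_sh_S_geom hr hr1 h1 h2 h3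
  have ht0 : t < 0 := (ld_sh_t_mem hr hr1 ht).2
  have hyI : y ∈ Icc (-1 : ℝ) 1 := ⟨by linarith, h2⟩
  have hj : 0 ≤ jjS q r t y := by
    unfold jjS
    exact add_nonneg (ld_sh_JJ_nonneg hq (div_neg_of_neg_of_pos ht0 hr) (ld_sh_ScF_mem hr hyI))
      (ld_sh_JJ_nonneg hq ht0 hyI)
  have hD := ld_sh_dev_a hd hr hr1 ht h1 h2 h3
  have hTD := ld_sh_dev_ta hq hs hd hr hr1 ht h1 h2 h3
  have hTc := (hc r hr y hy h2).1
  have hz : zS r y ≤ 1 := by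
    unfold zS
    split_ifs <;> norm_num
  have hc0 := ld_sh_cSF_nonneg r y
  have hc1 := ld_sh_cSF_le_one r y
  have hDd : DifferentiableAt ℝ (fun z => aaF g (t / r, ScF r z) - aaF g (t, z)) y :=
    (((ld_sh_aa_cd2 hs hr ht0).sub (ld_sh_aa_cd1 hs ht0)).differentiable (by simp)).differentiableAt
  have hcd : DifferentiableAt ℝ (cSF r) y :=
    ((ld_sh_cSF_contDiff r).differentiable (by simp)).differentiableAt
  have hpd : DifferentiableAt ℝ (fun z : ℝ => z ^ 2) y := by fun_prop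
  have hy0 : y ^ 2 ≠ 0 := by positivity
  have e1 : tt (fun z : ℝ => z ^ 2) y = -(2 * y * Xf y) := by
    rw [tt_pow (f := fun z : ℝ => z) differentiableAt_fun_id 2, tt_id]
    norm_num
  generalize hDv : aaF g (t / r, ScF r y) - aaF g (t, y) = Dv at hD
  generalize hTv : tt (fun z => aaF g (t / r, ScF r z) - aaF g (t, z)) y = Tv at hTD
  have e : tt (P2F g r t) y = tt (cSF r) y * (Dv / y ^ 2)
      + cSF r y * ((Tv * y ^ 2 - Dv * (-(2 * y * Xf y))) / (y ^ 2) ^ 2) := by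
    have e0 : P2F g r t = fun z => cSF r z * ((aaF g (t / r, ScF r z) - aaF g (t, z)) / z ^ 2) := rfl
    have hqd : DifferentiableAt ℝ (fun z => (aaF g (t / r, ScF r z) - aaF g (t, z)) / z ^ 2) y :=
      hDd.div hpd hy0
    rw [e0, tt_mul hcd hqd, tt_div hDd hpd hy0, e1, hTv, hDv]
  rw [e]
  set J : ℝ := |Cd| * jjS q r t y with hJ
  have hJ0 : 0 ≤ J := by positivity
  have hCJ : Cd * jjS q r t y ≤ J := mul_le_mul_of_nonneg_right (le_abs_self _) hj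
  have hD' : |Dv| ≤ J := hD.trans hCJ
  have hT' : |Tv| ≤ 2 * J := hTD.trans (by linarith)
  have hTc' : |tt (cSF r) y| ≤ C₀ := hTc.trans (mul_le_of_le_one_right hC₀ hz)
  have hy2 : (1 : ℝ) / 2 ≤ y ^ 2 := by nlinarith
  have hy21 : y ^ 2 ≤ 1 := by nlinarith
  have b1 : |tt (cSF r) y * (Dv / y ^ 2)| ≤ C₀ * (2 * J) := by
    rw [abs_mul, abs_div, abs_of_nonneg (sq_nonneg y)]
    refine mul_le_mul hTc' ?_ (by positivity) hC₀
    rw [div_le_iff₀ (by positivity)]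
    have h10 : 2 * J * (1 / 2) ≤ 2 * J * y ^ 2 := mul_le_mul_of_nonneg_left hy2 (by positivity)
    linarith
  have b2 : |cSF r y * ((Tv * y ^ 2 - Dv * (-(2 * y * Xf y))) / (y ^ 2) ^ 2)| ≤ 1 * (16 * J) := by
    rw [abs_mul, abs_div, abs_of_nonneg hc0, abs_of_nonneg (sq_nonneg (y ^ 2))]
    refine mul_le_mul hc1 ?_ (by positivity) (by norm_num)
    rw [div_le_iff₀ (by positivity)]
    have h4 : (1 : ℝ) / 4 ≤ (y ^ 2) ^ 2 := by nlinarith
    have h5 : |Tv * y ^ 2 - Dv * (-(2 * y * Xf y))| ≤ 2 * J + J := by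
      have h6 : |Tv * y ^ 2| ≤ 2 * J := by
        rw [abs_mul, abs_of_nonneg (sq_nonneg y)]
        calc |Tv| * y ^ 2 ≤ (2 * J) * 1 := mul_le_mul hT' hy21 (sq_nonneg y) (by positivity)
          _ = 2 * J := mul_one _
      have h7 : |Dv * (-(2 * y * Xf y))| ≤ J := by
        rw [abs_mul, abs_neg, abs_of_nonneg (by positivity : 0 ≤ 2 * y * Xf y)]
        have h8 : 2 * y * Xf y ≤ 1 := by
          have : y * Xf y ≤ 1 * (9 / 100) := mul_le_mul h2 hX1 hX0 (by norm_num)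
          linarith
        calc |Dv| * (2 * y * Xf y) ≤ J * 1 := mul_le_mul hD' h8 (by positivity) hJ0
          _ = J := mul_one J
      exact (abs_sub _ _).trans (by linarith)
    have h10 : 16 * J * (1 / 4) ≤ 16 * J * (y ^ 2) ^ 2 := mul_le_mul_of_nonneg_left h4 (by positivity)
    linarith
  calc |tt (cSF r) y * (Dv / y ^ 2) + cSF r y * ((Tv * y ^ 2 - Dv * (-(2 * y * Xf y))) / (y ^ 2) ^ 2)|
      ≤ C₀ * (2 * J) + 1 * (16 * J) := (abs_add_le _ _).trans (add_le_add b1 b2)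
    _ = (2 * C₀ + 16) * |Cd| * jjS q r t y := by rw [hJ]; ring

theorem ld_sh_P1_le (hq : 1 < q) (hd : DevC q g Λ₀ Cd) (hc : CoefB q g Λ₀ Cc) : ∃ C : ℝ, 0 ≤ C ∧ ∀ r : ℝ, 0 < r → r ≤ 1 →
    ∀ t : ℝ, t / r ∈ Ico (-Λ₀) 0 → ∀ y : ℝ, 3 / 4 ≤ y → y ≤ 1 → Xf y / r ≤ 9 / 100 →
    |P1F q g r t y| ≤ C * (jjS q r t y + zS r y) := by
  obtain ⟨C₀, hC₀, h0⟩ := ld_sh_tt_cSF
  refine ⟨3 * |Cd| + 2 * |Cc| * C₀, by positivity, fun r hr hr1 t ht y h1 h2 h3 => ?_⟩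
  obtain ⟨g1, -, -, g4, g5⟩ := ld_sh_S_geom hr hr1 h1 h2 h3
  have htm := ld_sh_t_mem hr hr1 ht
  have hy : y ∈ Icc (-1 : ℝ) 1 := ⟨by linarith, h2⟩
  have hy0 : 0 < y := by linarith
  have hj : 0 ≤ jjS q r t y := by
    unfold jjS
    exact add_nonneg (ld_sh_JJ_nonneg hq (div_neg_of_neg_of_pos htm.2 hr) (ld_sh_ScF_mem hr hy))
      (ld_sh_JJ_nonneg hq htm.2 hy)
  have hz := ld_sh_zS_nonneg r y
  have da := ld_sh_dev_a hd hr hr1 ht h1 h2 h3
  have db := ld_sh_dev_b hd hr hr1 ht h1 h2 h3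
  have hZ : |g.Z (t, y)| ≤ |Cc| := by
    have : |g.Z (t, y)| ≤ Cc := by simpa using hc.Z.b00 htm hy
    exact this.trans (le_abs_self _)
  have hcc := (h0 r hr y g1 h2).1
  have c0 := ld_sh_cSF_nonneg r y
  have c1 := ld_sh_cSF_le_one r y
  unfold P1F
  generalize aaF g (t / r, ScF r y) - aaF g (t, y) = A at da ⊢
  generalize bbF q g (t / r, ScF r y) - bbF q g (t, y) = B at db ⊢
  have hA : |A| ≤ |Cd| * jjS q r t y := da.trans (mul_le_mul_of_nonneg_right (le_abs_self _) hj)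
  have hB : |B| ≤ |Cd| * jjS q r t y := db.trans (mul_le_mul_of_nonneg_right (le_abs_self _) hj)
  have e1 : |B / y| ≤ 2 * |B| := by
    rw [abs_div, abs_of_pos hy0, div_le_iff₀ hy0]
    nlinarith [abs_nonneg B]
  have e2 : |Xf y * A / y ^ 3| ≤ |A| := by
    rw [abs_div, abs_mul, abs_of_nonneg g4, abs_of_pos (pow_pos hy0 3), div_le_iff₀ (pow_pos hy0 3)]
    have h5 : (9 / 100 : ℝ) ≤ y ^ 3 := by
      have h7 : (19 / 20 : ℝ) ^ 3 ≤ y ^ 3 := pow_le_pow_left₀ (by norm_num) g1.le 3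
      norm_num at h7
      linarith
    nlinarith [abs_nonneg A]
  have e3 : |cSF r y * (B / y + Xf y * A / y ^ 3)| ≤ 3 * |Cd| * jjS q r t y := by
    rw [abs_mul, abs_of_nonneg c0]
    have h6 : |B / y + Xf y * A / y ^ 3| ≤ 3 * |Cd| * jjS q r t y := by
      refine (abs_add_le _ _).trans ?_
      linarith
    calc cSF r y * |B / y + Xf y * A / y ^ 3| ≤ 1 * |B / y + Xf y * A / y ^ 3| :=
          mul_le_mul_of_nonneg_right c1 (abs_nonneg _)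
      _ ≤ _ := by rw [one_mul]; exact h6
  have e4 : |2 * g.Z (t, y) * tt (cSF r) y| ≤ 2 * |Cc| * C₀ * zS r y := by
    rw [abs_mul, abs_mul, abs_of_pos (two_pos : (0 : ℝ) < 2)]
    calc 2 * |g.Z (t, y)| * |tt (cSF r) y| ≤ 2 * |Cc| * (C₀ * zS r y) :=
          mul_le_mul (by linarith) hcc (abs_nonneg _) (by positivity)
      _ = _ := by ring
  have e5 : |cSF r y * (B / y + Xf y * A / y ^ 3) - 2 * g.Z (t, y) * tt (cSF r) y|
      ≤ |cSF r y * (B / y + Xf y * A / y ^ 3)| + |2 * g.Z (t, y) * tt (cSF r) y| := by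
    rw [sub_eq_add_neg, ← abs_neg (2 * g.Z (t, y) * tt (cSF r) y)]
    exact abs_add_le _ _
  refine e5.trans ?_
  have k1 : 0 ≤ |Cd| * zS r y := mul_nonneg (abs_nonneg _) hz
  have k2 : 0 ≤ |Cc| * C₀ * jjS q r t y := mul_nonneg (mul_nonneg (abs_nonneg _) hC₀) hj
  nlinarith

theorem ld_sh_P0_le (hq : 1 < q) (hd : DevC q g Λ₀ Cd) (hc : CoefB q g Λ₀ Cc) : ∃ C : ℝ, 0 ≤ C ∧ ∀ r : ℝ, 0 < r → r ≤ 1 →
    ∀ t : ℝ, t / r ∈ Ico (-Λ₀) 0 → ∀ y : ℝ, 3 / 4 ≤ y → y ≤ 1 → Xf y / r ≤ 9 / 100 → ∀ i j : Fin 3,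
    |P0F q g r t i j y| ≤ C * (jjS q r t y + zS r y) := by
  obtain ⟨C₀, hC₀, h0⟩ := ld_sh_tt_cSF
  refine ⟨|Cd| + 2 * |Cc| * C₀, by positivity, fun r hr hr1 t ht y h1 h2 h3 i j => ?_⟩
  obtain ⟨g1, -, -, -, -⟩ := ld_sh_S_geom hr hr1 h1 h2 h3
  have htm := ld_sh_t_mem hr hr1 ht
  have hy : y ∈ Icc (-1 : ℝ) 1 := ⟨by linarith, h2⟩
  have hj : 0 ≤ jjS q r t y := by
    unfold jjS
    exact add_nonneg (ld_sh_JJ_nonneg hq (div_neg_of_neg_of_pos htm.2 hr) (ld_sh_ScF_mem hr hy))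
      (ld_sh_JJ_nonneg hq htm.2 hy)
  have hz := ld_sh_zS_nonneg r y
  have dm := ld_sh_dev_m hd hr hr1 ht h1 h2 h3 i j
  have hZ : |g.Z (t, y)| ≤ |Cc| := by
    have : |g.Z (t, y)| ≤ Cc := by simpa using hc.Z.b00 htm hy
    exact this.trans (le_abs_self _)
  have hb : |g.bh q (t, y)| ≤ |Cc| := by
    have : |g.bh q (t, y)| ≤ Cc := by simpa using hc.bh.b00 htm hy
    exact this.trans (le_abs_self _)
  obtain ⟨hc1, hc2⟩ := h0 r hr y g1 h2
  have c0 := ld_sh_cSF_nonneg r y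
  have c1 := ld_sh_cSF_le_one r y
  unfold P0F
  generalize mF q g i j (t / r, ScF r y) - mF q g i j (t, y) = M at dm ⊢
  have hM : |M| ≤ |Cd| * jjS q r t y := dm.trans (mul_le_mul_of_nonneg_right (le_abs_self _) hj)
  have e3 : |cSF r y * M| ≤ |Cd| * jjS q r t y := by
    rw [abs_mul, abs_of_nonneg c0]
    calc cSF r y * |M| ≤ 1 * |M| := mul_le_mul_of_nonneg_right c1 (abs_nonneg _)
      _ ≤ _ := by rw [one_mul]; exact hM
  have hCz : 0 ≤ C₀ * zS r y := mul_nonneg hC₀ hz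
  have e4 : |(if i = j then g.Z (t, y) * tt (tt (cSF r)) y + g.bh q (t, y) * tt (cSF r) y else 0)|
      ≤ 2 * |Cc| * C₀ * zS r y := by
    split_ifs
    · refine (abs_add_le _ _).trans ?_
      rw [abs_mul, abs_mul]
      have a1 : |g.Z (t, y)| * |tt (tt (cSF r)) y| ≤ |Cc| * (C₀ * zS r y) :=
        mul_le_mul hZ hc2 (abs_nonneg _) (abs_nonneg _)
      have a2 : |g.bh q (t, y)| * |tt (cSF r) y| ≤ |Cc| * (C₀ * zS r y) :=
        mul_le_mul hb hc1 (abs_nonneg _) (abs_nonneg _)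
      nlinarith
    · rw [abs_zero]
      positivity
  generalize (if i = j then g.Z (t, y) * tt (tt (cSF r)) y + g.bh q (t, y) * tt (cSF r) y else 0) = W at e4 ⊢
  have e5 : |cSF r y * M - W| ≤ |cSF r y * M| + |W| := by
    rw [sub_eq_add_neg, ← abs_neg W]
    exact abs_add_le _ _
  refine e5.trans ?_
  have k1 : 0 ≤ |Cd| * zS r y := mul_nonneg (abs_nonneg _) hz
  have k2 : 0 ≤ |Cc| * C₀ * jjS q r t y := mul_nonneg (mul_nonneg (abs_nonneg _) hC₀) hj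
  nlinarith

theorem ld_sh_jjS_nonneg (hq : 1 < q) (hr : 0 < r) (ht : t < 0) (hy : y ∈ Icc (-1 : ℝ) 1) : 0 ≤ jjS q r t y := by
  unfold jjS
  exact add_nonneg (ld_sh_JJ_nonneg hq (div_neg_of_neg_of_pos ht hr) (ld_sh_ScF_mem hr hy)) (ld_sh_JJ_nonneg hq ht hy)

/-- **size of the coefficients.** -/
theorem ld_sh_Js_le (hq : 1 < q) (hs : BgSm g) (hd : DevC q g Λ₀ Cd) (hc : CoefB q g Λ₀ Cc) :
    ∃ C : ℝ, 0 ≤ C ∧ ∀ r : ℝ, 0 < r → r ≤ 1 → ∀ t : ℝ, t / r ∈ Ico (-Λ₀) 0 →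
      ∀ y : ℝ, 3 / 4 ≤ y → y ≤ 1 → Xf y / r ≤ 9 / 100 → JsF q g r t y ≤ C * (jjS q r t y + zS r y) := by
  obtain ⟨C2, hC2, h2⟩ := ld_sh_ttP2_le hq hs hd
  obtain ⟨C1, hC1, h1⟩ := ld_sh_P1_le hq hd hc
  obtain ⟨C0, hC0, h0⟩ := ld_sh_P0_le hq hd hc
  refine ⟨2 * |Cd| + C2 + C1 + 9 * C0, by positivity, fun r hr hr1 t ht y hy1 hy2 hy3 => ?_⟩
  have ht0 : t < 0 := (ld_sh_t_mem hr hr1 ht).2
  have hy : y ∈ Icc (-1 : ℝ) 1 := ⟨by linarith, hy2⟩
  have hj := ld_sh_jjS_nonneg hq hr ht0 hy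
  have hz := ld_sh_zS_nonneg r y
  have a2 := ld_sh_P2_le hq hd hr hr1 ht hy1 hy2 hy3
  have a2' := h2 r hr hr1 t ht y hy1 hy2 hy3
  have a1 := h1 r hr hr1 t ht y hy1 hy2 hy3
  have a0 := h0 r hr hr1 t ht y hy1 hy2 hy3
  have b2 : |P2F g r t y| ≤ 2 * |Cd| * (jjS q r t y + zS r y) := by
    refine a2.trans ?_
    have : Cd ≤ |Cd| := le_abs_self _
    nlinarith [abs_nonneg Cd]
  have b2' : |tt (P2F g r t) y| ≤ C2 * (jjS q r t y + zS r y) := by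
    refine a2'.trans ?_
    nlinarith
  have b0 : ∑ i, ∑ j, |P0F q g r t i j y| ≤ 9 * C0 * (jjS q r t y + zS r y) := by
    simp only [Fin.sum_univ_three]
    linarith [a0 0 0, a0 0 1, a0 0 2, a0 1 0, a0 1 1, a0 1 2, a0 2 0, a0 2 1, a0 2 2]
  unfold JsF
  linarith

end

end Claimed.Agent.R324.Core
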