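/-
Row 324 (S0582), PDE core, module LD (`linear_solve`), architect helper217.   Blueprint 7.4 (origin/helper232:docs/R324_blueprint.md).   PORT of R325/Core/LD (packed in Claimed/Agent/R325/Pk37..Pk48.lean).      FILE LD/WE
   Λ = -t,  X = Xf y = 1 - y²,  Y = X/Λ,  τ = tauOf t = -log Λ;   u-form of a slice u = (σ, h₃, b):  uV u = (σ, h₃, X b);   κ = kapJ q;   𝕀 = II  (Core/W/Ibp.lean);   definitions of this module: Core/LD/Defs.lean.
The weighted energy `wEnergy` of module V (R325/Pk06.lean) in the time variable `t`: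
`wEnergy η m τ = ∫_{-∞}^τ e^{2ησ}|m(σ)|² dσ = ∫_{t(τa)}^{t(τ)} Λ^{-2η-1} |m(τ(s))|² ds = mEn η m (tOf τa) (tOf τ)` if `m = 0` on `(-∞,τa]`.      (Copied from R325/Core/LD/WE.lean.)
-/
import Claimed.Agent.R324.Core.LD.Defs
import Claimed.Agent.R324.Core.LD.BasicT

set_option autoImplicit false

namespace Claimed.Agent.R324.Core

open Set Filter Topology MeasureTheory
open scoped ContDiff

noncomputable section

open Claimed.Agent.R325 (wEnergy CausalSmooth ControlHyp)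


variable {N : ℕ}

theorem ld_wEnergy_nonneg (η : ℝ) (m : ℝ → EuclideanSpace ℝ (Fin N)) (τ : ℝ) : 0 ≤ wEnergy η m τ := by
  unfold wEnergy
  exact setIntegral_nonneg measurableSet_Iic fun σ _ => by positivity

theorem ld_wEnergy_zero (η : ℝ) {m : ℝ → EuclideanSpace ℝ (Fin N)} {τa : ℝ} (h0 : ∀ τ ≤ τa, m τ = 0)
    {τ : ℝ} (hτ : τ ≤ τa) : wEnergy η m τ = 0 := by
  unfold wEnergy
  refine setIntegral_eq_zero_of_forall_eq_zero fun σ hσ => ?_
  rw [h0 σ (le_trans hσ hτ), norm_zero]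
  simp

/-- `wEnergy` as an interval integral. -/
theorem ld_wEnergy_interval (η : ℝ) {m : ℝ → EuclideanSpace ℝ (Fin N)} {τa : ℝ}
    (h0 : ∀ τ ≤ τa, m τ = 0) {τ : ℝ} (hτ : τa ≤ τ) :
    wEnergy η m τ = ∫ σ in τa..τ, Real.exp (2 * η * σ) * ‖m σ‖ ^ 2 := by
  unfold wEnergy
  have e : (fun σ => Real.exp (2 * η * σ) * ‖m σ‖ ^ 2) =
      (Ioi τa).indicator (fun σ => Real.exp (2 * η * σ) * ‖m σ‖ ^ 2) := by
    funext σ
    by_cases hσ : σ ∈ Ioi τa
    · rw [indicator_of_mem hσ]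
    · rw [indicator_of_notMem hσ, h0 σ (not_lt.1 hσ), norm_zero]
      simp
  rw [intervalIntegral.integral_of_le hτ, e, setIntegral_indicator measurableSet_Ioi, ← e,
    Iic_inter_Ioi]

theorem ld_WE_contOn (c : ℝ) {m : ℝ → EuclideanSpace ℝ (Fin N)} (hm : Continuous m) :
    ContinuousOn (fun s : ℝ => (-s) ^ c * ‖m (tauOf s)‖ ^ 2) (Iio 0) := by
  have h1 : ContinuousOn (fun s : ℝ => (-s) ^ c) (Iio 0) :=
    (continuous_neg.continuousOn).rpow_const fun s hs => Or.inl (by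
      have : s < 0 := hs
      linarith)
  have h2 : ContinuousOn (fun s : ℝ => m (tauOf s)) (Iio 0) :=
    hm.comp_continuousOn ld_tauOf_contDiffOn.continuousOn
  exact h1.mul (h2.norm.pow 2)

/-- substitution `σ = tauOf s`, `dσ = ds/(-s)`, `e^{2ησ} = (-s)^{-2η}` (`intervalIntegral.integral_comp_mul_deriv`-type lemma, `ld_tauOf_hasDerivAt`, `ld_exp_tauOf`). -/
theorem ld_wEnergy_eq (η : ℝ) {m : ℝ → EuclideanSpace ℝ (Fin N)} (hm : Continuous m) {τa : ℝ}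
    (h0 : ∀ τ ≤ τa, m τ = 0) {τ : ℝ} (hτ : τa ≤ τ) :
    wEnergy η m τ = mEn η m (tOf τa) (tOf τ) := by
  rw [ld_wEnergy_interval η h0 hτ]
  unfold mEn
  have hsub := intervalIntegral.integral_comp_mul_deriv'' (a := τa) (b := τ) (f := tOf)
    (f' := fun σ => -tOf σ) (g := fun s => (-s) ^ (-2 * η - 1) * ‖m (tauOf s)‖ ^ 2)
    ld_tOf_contDiff.continuous.continuousOn
    (fun x _ => (ld_tOf_hasDerivAt x).hasDerivWithinAt)
    ld_tOf_contDiff.continuous.neg.continuousOn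
    ((ld_WE_contOn (-2 * η - 1) hm).mono (by
      rintro _ ⟨x, _, rfl⟩
      exact ld_tOf_neg x))
  rw [← hsub]
  refine intervalIntegral.integral_congr fun σ _ => ?_
  show _ = (-tOf σ) ^ (-2 * η - 1) * ‖m (tauOf (tOf σ))‖ ^ 2 * (-tOf σ)
  have hpos : 0 < -tOf σ := by have := ld_tOf_neg σ; linarith
  have h1 : Real.exp (2 * η * σ) = (-tOf σ) ^ (-2 * η - 1) * (-tOf σ) := by
    have h2 := ld_exp_tauOf (2 * η) (ld_tOf_neg σ)
    rw [ld_tauOf_tOf] at h2
    rw [h2]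
    conv_rhs => rw [← Real.rpow_add_one hpos.ne']
    congr 1
    ring
  rw [ld_tauOf_tOf, h1]
  ring

theorem ld_mEn_nonneg (η : ℝ) (m : ℝ → EuclideanSpace ℝ (Fin N)) {t₁ t : ℝ} (h : t₁ ≤ t) (ht : t ≤ 0) :
    0 ≤ mEn η m t₁ t := by
  unfold mEn
  refine intervalIntegral.integral_nonneg h fun s hs => ?_
  have hs0 : 0 ≤ -s := by linarith [hs.2]
  exact mul_nonneg (Real.rpow_nonneg hs0 _) (by positivity)

/-- `mEn η (m(·-s)) (μ^2 t₁) (μ^2 t) = e^{2ηs} mEn η m t₁ t`, `μ = e^{-s/2}`  (substitution `r = μ^2 r'`; `ld_tauOf_scal`). -/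
theorem ld_mEn_shift (η s : ℝ) (m : ℝ → EuclideanSpace ℝ (Fin N)) {t₁ t : ℝ} (h : t₁ ≤ t) (ht : t < 0) :
    mEn η (fun σ => m (σ - s)) (Real.exp (-s / 2) ^ 2 * t₁) (Real.exp (-s / 2) ^ 2 * t)
      = Real.exp (2 * η * s) * mEn η m t₁ t := by
  unfold mEn
  set c : ℝ := Real.exp (-s / 2) ^ 2 with hc
  have hcpos : 0 < c := by positivity
  have hcexp : c = Real.exp (-s) := by
    rw [hc, ← Real.exp_nat_mul]
    congr 1
    push_cast
    ring
  rw [← intervalIntegral.mul_integral_comp_mul_left, ← intervalIntegral.integral_const_mul,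
    ← intervalIntegral.integral_const_mul]
  refine intervalIntegral.integral_congr fun r hr => ?_
  rw [uIcc_of_le h] at hr
  have hr0 : r < 0 := lt_of_le_of_lt hr.2 ht
  have hrpos : 0 < -r := by linarith
  show c * ((-(c * r)) ^ (-2 * η - 1) * ‖m (tauOf (c * r) - s)‖ ^ 2) =
    Real.exp (2 * η * s) * ((-r) ^ (-2 * η - 1) * ‖m (tauOf r)‖ ^ 2)
  have h1 : tauOf (c * r) - s = tauOf r := by
    rw [hc, ld_tauOf_scal s hr0]
    ring
  have h2 : (-(c * r)) ^ (-2 * η - 1) = c ^ (-2 * η - 1) * (-r) ^ (-2 * η - 1) := by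
    rw [show -(c * r) = c * (-r) by ring, Real.mul_rpow hcpos.le hrpos.le]
  have h3 : c * c ^ (-2 * η - 1) = Real.exp (2 * η * s) := by
    rw [mul_comm, ← Real.rpow_add_one hcpos.ne', hcexp, ← Real.exp_mul]
    congr 1
    ring
  rw [h1, h2, ← h3]
  ring

/-- comparison of two exponents: for `η' ≤ η`, on `[t₁,t]`, `Λ^{-2η'-1} = Λ^{2(η-η')} Λ^{-2η-1} ≤ Λ₁^{2(η-η')} Λ^{-2η-1}`. -/
theorem ld_mEn_le (η η' : ℝ) (hη : η' ≤ η) {m : ℝ → EuclideanSpace ℝ (Fin N)} (hm : Continuous m)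
    {t₁ t : ℝ} (h : t₁ ≤ t) (ht : t < 0) :
    mEn η' m t₁ t ≤ (-t₁) ^ (2 * (η - η')) * mEn η m t₁ t := by
  unfold mEn
  rw [← intervalIntegral.integral_const_mul]
  have hsub : uIcc t₁ t ⊆ Iio 0 := by
    rw [uIcc_of_le h]
    intro r hr
    exact lt_of_le_of_lt hr.2 ht
  refine intervalIntegral.integral_mono_on h
    ((ld_WE_contOn _ hm).mono hsub).intervalIntegrable
    (((ld_WE_contOn _ hm).mono hsub).intervalIntegrable.const_mul _) fun r hr => ?_
  have hr0 : r < 0 := lt_of_le_of_lt hr.2 ht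
  have hrpos : 0 < -r := by linarith
  have h1 : (-r) ^ (-2 * η' - 1) = (-r) ^ (2 * (η - η')) * (-r) ^ (-2 * η - 1) := by
    rw [← Real.rpow_add hrpos]
    congr 1
    ring
  have h2 : (-r) ^ (2 * (η - η')) ≤ (-t₁) ^ (2 * (η - η')) :=
    Real.rpow_le_rpow hrpos.le (by linarith [hr.1]) (by linarith)
  rw [h1, mul_assoc]
  exact mul_le_mul_of_nonneg_right h2
    (mul_nonneg (Real.rpow_nonneg hrpos.le _) (by positivity))

end

end Claimed.Agent.R324.Core
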